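import Vale.Agent.P267.H332.Pair.IntAx

/-!
# P253Y, block D: the statement
-/

open scoped Manifold ContDiff

namespace Vale.Agent.P253Y.D

open Vale.Agent.P267 Vale.Agent.P267.FL

/-- **BOC**: a closed real two-form with compact support in an open piece of a surface `Y`, which is
biholomorphic to an open piece of `M`, has nonnegative square -/
def BOC (M : Type) [TopologicalSpace M] [ChartedSpace C2 M] : Prop :=
  ∀ (Y : Type) [TopologicalSpace Y] [ChartedSpace C2 Y] [IsManifold 𝓘(ℂ, C2) ω Y] [T2Space Y]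
    [SigmaCompactSpace Y] (ι : OpenPartialHomeomorph Y M),
    MDifferentiableOn 𝓘(ℂ, C2) 𝓘(ℂ, C2) ι ι.source →
    MDifferentiableOn 𝓘(ℂ, C2) 𝓘(ℂ, C2) ι.symm ι.target →
    ∀ η ∈ H332.HR Y, H332.supp2 η ⊆ ι.source → 0 ≤ (intX (η.wedge η)).re

end Vale.Agent.P253Y.D
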