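import Vale.Agent.P253Y.D.Spec
import Vale.Agent.P267.H928.Int.FLStokes

/-!
# P253Y, block D: the a priori inequality `APR`

The Bochner inequality in charts is integrated by Stokes' theorem.
-/

open scoped Manifold ContDiff ComplexConjugate Matrix ComplexOrder Topology
open MeasureTheory Set Filter

noncomputable section

namespace Vale.Agent.P253Y.D

open Vale.Agent.P267 Vale.Agent.P267.FL
open Vale.Agent.P267.H469 (del11 cj11)

/-! ### smooth matrix valued functions -/

theorem apr_inv {U : Set C2} {H : C2 → Mat} (hH : ∀ i j, ContDiffOn ℝ ∞ (fun y => H y i j) U)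
    (hd : ∀ z ∈ U, (H z).det ≠ 0) (i j : Fin 2) :
    ContDiffOn ℝ ∞ (fun y => (H y)⁻¹ i j) U := by
  have h1 : ContDiffOn ℝ ∞ (fun y => (H y).det) U := by
    simp only [Matrix.det_fin_two]
    exact ((hH 0 0).mul (hH 1 1)).sub ((hH 0 1).mul (hH 1 0))
  have h2 : ContDiffOn ℝ ∞ (fun y => (H y).adjugate i j) U := by
    simp only [Matrix.adjugate_fin_two]
    fin_cases i <;> fin_cases j
    · exact hH 1 1
    · exact (hH 0 1).neg
    · exact (hH 1 0).neg
    · exact hH 0 0
  refine ((h1.inv hd).mul h2).congr fun y _ => ?_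
  rw [Matrix.inv_def, Ring.inverse_eq_inv', Matrix.smul_apply, smul_eq_mul]
  rfl

theorem apr_mul {U : Set C2} {A B : C2 → Mat} (hA : ∀ i j, ContDiffOn ℝ ∞ (fun y => A y i j) U)
    (hB : ∀ i j, ContDiffOn ℝ ∞ (fun y => B y i j) U) (i j : Fin 2) :
    ContDiffOn ℝ ∞ (fun y => (A y * B y) i j) U := by
  simp only [Matrix.mul_apply]
  exact ContDiffOn.sum fun k _ => (hA i k).mul (hB k j)

theorem apr_ct {U : Set C2} {A : C2 → Mat} (hA : ∀ i j, ContDiffOn ℝ ∞ (fun y => A y i j) U)
    (i j : Fin 2) : ContDiffOn ℝ ∞ (fun y => (A y)ᴴ i j) U :=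
  H469.conj_contDiffOn (hA j i)

theorem apr_db1 {t s : C2 → Fin 2 → ℂ} {z : C2} (h : t =ᶠ[𝓝 z] s) : db1 t z = db1 s z := by
  unfold db1
  rw [H469.dzb_congr (f := fun y => t y 1) (g := fun y => s y 1) (h.mono fun y hy => congrFun hy 1),
    H469.dzb_congr (f := fun y => t y 0) (g := fun y => s y 0) (h.mono fun y hy => congrFun hy 0)]

theorem apr_d11 {G G' : C2 → Mat} {z : C2} (h : G =ᶠ[𝓝 z] G') : d11 G z = d11 G' z := by
  funext j
  unfold d11
  rw [H469.dz_congr (f := fun y => G y 1 j) (g := fun y => G' y 1 j)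
      (h.mono fun y hy => congrFun (congrFun hy 1) j),
    H469.dz_congr (f := fun y => G y 0 j) (g := fun y => G' y 0 j)
      (h.mono fun y hy => congrFun (congrFun hy 0) j)]

theorem apr_q11_smul (H A : Mat) (c : ℝ) :
    q11 H ((c : ℂ) • A) ((c : ℂ) • A) = ((c ^ 2 : ℝ) : ℂ) * q11 H A A := by
  unfold q11
  simp only [Matrix.conjTranspose_smul, Matrix.mul_smul, Matrix.smul_mul, Matrix.trace_smul,
    smul_eq_mul, Complex.star_def, Complex.conj_ofReal]
  push_cast
  ring

/-! ### the forms `Y`, `Φ` and the density `E` -/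

variable {X : Type} [TopologicalSpace X] [ChartedSpace C2 X] [IsManifold 𝓘(ℂ, C2) ω X]
  {h : X → Mat}

/-- the `(2,1)`-form `Y` -/
def aprY (h g : X → Mat) : X → Fin 2 → ℂ := fun x => yf (h x) (g x) (del11 g x)

/-- the `(1,1)`-form `Φ` -/
def aprP (h g : X → Mat) : X → Mat := fun x => ph (h x) (g x)

/-- the density `E` -/
def aprE (h g : X → Mat) : X → ℂ := fun x =>
  (q21 (h x) (del11 g x) (del11 g x) + q21 (h x) (del11 (cj11 g) x) (del11 (cj11 g) x)) +
    ((-2 : ℂ) • dbar1 1 (aprY h g) x + dbar1 1 (del11 (aprP h g)) x)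

theorem apr_loc_del {g : X → Mat} (hg : Reg11 ∞ g) {e : Ch X} (he : e ∈ atlas C2 X) {z : C2}
    (hz : z ∈ e.target) : loc1 1 e (del11 g) z = d11 (loc11 e g) z := by
  funext j
  exact H469.del11_law (H469.r11mono hg H469.one_le_infty) he hz j

theorem apr_loc_cj (e : Ch X) (g : X → Mat) : loc11 e (cj11 g) = fun y => cjm (loc11 e g y) := by
  funext y
  ext i j
  exact H469.loc11_cj11 e g y i j

theorem apr_loc_P (A : ALG) (g : X → Mat) {e : Ch X} (he : e ∈ atlas C2 X) {z : C2}
    (hz : z ∈ e.target) : loc11 e (aprP h g) z = ph (loc11 e h z) (loc11 e g z) := by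
  rw [H469.loc11_mat, H469.loc11_mat, H469.loc11_mat]
  exact (A.cov_ph _ _ _ (jac_det_ne_zero he (e.map_target hz))).symm

theorem apr_loc_Y (A : ALG) {g : X → Mat} (hg : Reg11 ∞ g) {e : Ch X} (he : e ∈ atlas C2 X)
    {z : C2} (hz : z ∈ e.target) :
    loc1 1 e (aprY h g) z = yf (loc11 e h z) (loc11 e g z) (d11 (loc11 e g) z) := by
  rw [← apr_loc_del hg he hz, H469.loc11_mat, H469.loc11_mat]
  have h1 : ∀ t : X → Fin 2 → ℂ, loc1 1 e t z = fun i => (jac e (e.symm z)).det *
      ∑ p, conj (jac e (e.symm z) p i) * t (e.symm z) p := by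
    intro t
    funext i
    simp only [loc1, zpow_one, smul_eq_mul]
  rw [h1, h1]
  exact (A.cov_yf _ _ _ _ (jac_det_ne_zero he (e.map_target hz))).symm

theorem apr_reg_P (A : ALG) (hh : IsHerm h) {g : X → Mat} (hg : Reg11 ∞ g) :
    Reg11 ∞ (aprP h g) := by
  intro e he i j
  have hi := apr_inv (hh.smooth e he) fun z hz => H469.det_loc11_ne hh.posDef he hz
  refine (apr_mul (apr_mul (hg e he) hi) (apr_ct (hg e he)) i j).congr fun z hz => ?_
  rw [apr_loc_P A g he hz]
  rfl

theorem apr_reg_Y (A : ALG) (hh : IsHerm h) {g : X → Mat} (hg : Reg11 ∞ g) :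
    Reg1 ∞ 1 (aprY h g) := by
  intro e he
  have hi := apr_inv (hh.smooth e he) fun z hz => H469.det_loc11_ne hh.posDef he hz
  have hd := contDiffOn_pi.1 (H469.reg_del11 hg e he)
  rw [contDiffOn_pi]
  intro i
  have h1 : ContDiffOn ℝ ∞ (fun z => ∑ k, loc1 1 e (del11 g) z k *
      conj ((loc11 e g z * (loc11 e h z)⁻¹) i k)) e.target :=
    ContDiffOn.sum fun k _ => (hd k).mul (H469.conj_contDiffOn (apr_mul (hg e he) hi i k))
  refine h1.congr fun z hz => ?_
  rw [apr_loc_Y A hg he hz, apr_loc_del hg he hz]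
  rfl

omit [ChartedSpace C2 X] [IsManifold 𝓘(ℂ, C2) ω X] in
theorem apr_cs_P [T2Space X] {g : X → Mat} (hg : HasCompactSupport g) :
    HasCompactSupport (aprP h g) := by
  refine HasCompactSupport.intro hg fun x hx => ?_
  simp only [aprP, ph, image_eq_zero_of_notMem_tsupport hx, Matrix.zero_mul]

omit [IsManifold 𝓘(ℂ, C2) ω X] in
theorem apr_cs_Y [T2Space X] {g : X → Mat} (hg : HasCompactSupport g) :
    HasCompactSupport (aprY h g) := by
  refine HasCompactSupport.intro hg fun x hx => ?_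
  funext i
  simp [aprY, yf, image_eq_zero_of_notMem_tsupport hx]

omit [ChartedSpace C2 X] [IsManifold 𝓘(ℂ, C2) ω X] in
theorem apr_cs_q [T2Space X] {t : X → Fin 2 → ℂ} (ht : HasCompactSupport t) :
    HasCompactSupport fun x => q21 (h x) (t x) (t x) := by
  refine HasCompactSupport.intro ht fun x hx => ?_
  simp [q21, image_eq_zero_of_notMem_tsupport hx]

omit [ChartedSpace C2 X] [IsManifold 𝓘(ℂ, C2) ω X] in
theorem apr_cs_q11 [T2Space X] {g : X → Mat} (hg : HasCompactSupport g) :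
    HasCompactSupport fun x => q11 (h x) (g x) (g x) := by
  refine HasCompactSupport.intro hg fun x hx => ?_
  simp [q11, image_eq_zero_of_notMem_tsupport hx]

/-- the density `E` in a chart -/
theorem apr_loc_E (A : ALG) (K : KD h) (I : IP h) {g : X → Mat} (hg : T11 g) {e : Ch X}
    (he : e ∈ atlas C2 X) {z : C2} (hz : z ∈ e.target) :
    loc2 1 e (aprE h g) z =
      (q21 (loc11 e h z) (d11 (loc11 e g) z) (d11 (loc11 e g) z) +
        q21 (loc11 e h z) (d11 (fun y => cjm (loc11 e g y)) z)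
          (d11 (fun y => cjm (loc11 e g y)) z)) +
      (-2 * db1 (fun y => yf (loc11 e h y) (loc11 e g y) (d11 (loc11 e g) y)) z +
        db1 (d11 fun y => ph (loc11 e h y) (loc11 e g y)) z) := by
  have hn : e.target ∈ 𝓝 z := e.open_target.mem_nhds hz
  have rY := apr_reg_Y A K.herm hg.1
  have rP := apr_reg_P A K.herm hg.1
  have e1 := I.loc21q (del11 g) (del11 g) e he z hz
  have e2 := I.loc21q (del11 (cj11 g)) (del11 (cj11 g)) e he z hz
  rw [apr_loc_del hg.1 he hz] at e1
  rw [apr_loc_del (H469.r11cj hg.1) he hz, apr_loc_cj] at e2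
  have e3 : loc2 1 e (dbar1 1 (aprY h g)) z =
      db1 (fun y => yf (loc11 e h y) (loc11 e g y) (d11 (loc11 e g) y)) z := by
    rw [H469.dbar1_law (H469.r1mono rY H469.one_le_infty) he hz]
    refine apr_db1 (t := loc1 1 e (aprY h g)) ?_
    filter_upwards [hn] with y hy
    exact apr_loc_Y A hg.1 he hy
  have e4 : loc2 1 e (dbar1 1 (del11 (aprP h g))) z =
      db1 (d11 fun y => ph (loc11 e h y) (loc11 e g y)) z := by
    rw [H469.dbar1_law (H469.r1mono (H469.reg_del11 rP) H469.one_le_infty) he hz]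
    refine apr_db1 (t := loc1 1 e (del11 (aprP h g))) ?_
    filter_upwards [hn] with y hy
    rw [apr_loc_del rP he hy]
    refine apr_d11 ?_
    filter_upwards [e.open_target.mem_nhds hy] with w hw
    exact apr_loc_P A g he hw
  rw [← e1, ← e2, ← e3, ← e4]
  simp only [loc2, aprE, smul_eq_mul]
  ring

/-- the pointwise inequality on a compact piece of a chart -/
theorem apr_chart (A : ALG) (B : BL) (P : POS) (K : KD h) (I : IP h) {e : Ch X}
    (he : e ∈ atlas C2 X) {S : Set C2} (hS : IsCompact S) (hSe : S ⊆ e.target) :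
    ∃ C : ℝ, 0 < C ∧ ∀ g, T11 g → Pr h g → ∀ z ∈ S,
      (q11 (h (e.symm z)) (g (e.symm z)) (g (e.symm z))).re ≤ C * (aprE h g (e.symm z)).re := by
  obtain ⟨C, hC, H⟩ := P e.target (loc11 e h) e.open_target (K.kon e he) (K.bon e he) S hS hSe
  refine ⟨C, hC, fun g hg hp z hz => ?_⟩
  have hz' := hSe hz
  have hpr : ∀ y ∈ e.target, ((loc11 e h y)⁻¹ * loc11 e g y).trace = 0 := fun y hy => by
    rw [← H469.trh_chart h g he hy]
    exact hp _
  have h1 := H z hz (loc11 e g z) (hpr z hz')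
  have h2 := B e.target (loc11 e h) (loc11 e g) e.open_target (K.kon e he) (hg.1 e he) hpr z hz'
  have h3 := congrArg Complex.re (apr_loc_E A K I hg he hz')
  have h4 := congrArg Complex.re (I.loc11q g g e he z hz')
  rw [loc2_one_apply, smul_eq_mul, Complex.re_ofReal_mul] at h3 h4
  simp only [Complex.add_re, neg_mul, Complex.neg_re, Complex.mul_re, Complex.re_ofNat,
    Complex.im_ofNat, zero_mul, sub_zero] at h3
  have hd : 0 < Complex.normSq (jac e (e.symm z)).det :=
    Complex.normSq_pos.2 (jac_det_ne_zero he (e.map_target hz'))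
  have h5 : (Rq (loc11 e h) z (loc11 e g z)).re ≤
      Complex.normSq (jac e (e.symm z)).det * (aprE h g (e.symm z)).re := by
    rw [h3]
    linarith
  refine le_of_mul_le_mul_left ?_ hd
  rw [h4]
  refine h1.trans ?_
  nlinarith [mul_le_mul_of_nonneg_left h5 hC.le]

/-- `re E ≥ 0` -/
theorem apr_nonneg (A : ALG) (B : BL) (P : POS) (K : KD h) (I : IP h) {g : X → Mat} (hg : T11 g)
    (hp : Pr h g) (x : X) : 0 ≤ (aprE h g x).re := by
  obtain ⟨C, hC, H⟩ := apr_chart A B P K I (chart_mem_atlas C2 x)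
    (isCompact_singleton (x := chartAt C2 x x)) (singleton_subset_iff.2 (mem_chart_target C2 x))
  have h1 := H g hg hp _ rfl
  rw [(chartAt C2 x).left_inv (mem_chart_source C2 x)] at h1
  have h2 : 0 ≤ (q11 (h x) (g x) (g x)).re :=
    (Complex.nonneg_iff.1 (A.nonneg (h x) (g x) (K.herm.posDef x))).1
  exact nonneg_of_mul_nonneg_right (h2.trans h1) hC

/-- the pointwise inequality on a compact set -/
theorem apr_cpt (A : ALG) (B : BL) (P : POS) (K : KD h) (I : IP h) {S : Set X}
    (hS : IsCompact S) : ∃ C : ℝ, 0 ≤ C ∧ ∀ g, T11 g → Pr h g → ∀ x ∈ S,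
      (q11 (h x) (g x) (g x)).re ≤ C * (aprE h g x).re := by
  refine hS.induction_on (p := fun S => ∃ C : ℝ, 0 ≤ C ∧ ∀ g, T11 g → Pr h g → ∀ x ∈ S,
      (q11 (h x) (g x) (g x)).re ≤ C * (aprE h g x).re) ⟨0, le_rfl, fun g _ _ x hx => hx.elim⟩
      ?_ ?_ ?_
  · rintro s t hst ⟨C, hC, H⟩
    exact ⟨C, hC, fun g hg hp x hx => H g hg hp x (hst hx)⟩
  · rintro s t ⟨C, hC, H⟩ ⟨C', hC', H'⟩
    refine ⟨max C C', le_max_of_le_left hC, fun g hg hp x hx => ?_⟩
    have h0 := apr_nonneg A B P K I hg hp x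
    rcases hx with hx | hx
    · exact (H g hg hp x hx).trans (mul_le_mul_of_nonneg_right (le_max_left _ _) h0)
    · exact (H' g hg hp x hx).trans (mul_le_mul_of_nonneg_right (le_max_right _ _) h0)
  · intro x _
    have hn : (chartAt C2 x).target ∈ 𝓝 (chartAt C2 x x) := H469.near_target x
    obtain ⟨T, hT, hTe, hTc⟩ := local_compact_nhds hn
    obtain ⟨C, hC, H⟩ := apr_chart A B P K I (chart_mem_atlas C2 x) hTc hTe
    refine ⟨(chartAt C2 x).source ∩ chartAt C2 x ⁻¹' T, mem_nhdsWithin_of_mem_nhds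
      (inter_mem (chart_source_mem_nhds C2 x)
        ((chartAt C2 x).continuousAt (mem_chart_source C2 x) hT)), C, hC.le,
      fun g hg hp y hy => ?_⟩
    have h1 := H g hg hp _ hy.2
    rwa [(chartAt C2 x).left_inv hy.1] at h1

variable [T2Space X] [SigmaCompactSpace X]

omit [SigmaCompactSpace X] in
theorem apr_cs_db {c : X → Fin 2 → ℂ} (hc : HasCompactSupport c) :
    HasCompactSupport (dbar1 1 c) :=
  HasCompactSupport.intro hc fun _ hx => dbar1_eq_zero_of_notMem (isClosed_tsupport _)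
    (fun _ hy => image_eq_zero_of_notMem_tsupport hy) hx

/-- regularity, support and integral of `E` -/
theorem apr_int (A : ALG) (K : KD h) (I : IP h) {g : X → Mat} (hg : T11 g) :
    Reg2 ∞ 1 (aprE h g) ∧ HasCompactSupport (aprE h g) ∧
      (intX (aprE h g)).re = n21 h (del11 g) + n21 h (del11 (cj11 g)) := by
  have t1 := I.t_del g hg
  have t2 := I.t_del _ (I.t_cj g hg)
  have t3 := I.t_del (aprP h g) ⟨apr_reg_P A K.herm hg.1, apr_cs_P hg.2⟩
  have rY := apr_reg_Y A K.herm hg.1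
  have cY : HasCompactSupport (aprY h g) := apr_cs_Y hg.2
  have r1 := I.reg21 _ _ t1.1 t1.1
  have r2 := I.reg21 _ _ t2.1 t2.1
  have r3 : Reg2 ∞ 1 fun x => (-2 : ℂ) • dbar1 1 (aprY h g) x := (H469.reg_dbar1 rY).const_smul _
  have r4 := H469.reg_dbar1 t3.1
  have c1 := apr_cs_q (h := h) t1.2
  have c2 := apr_cs_q (h := h) t2.2
  have c3 : HasCompactSupport fun x => (-2 : ℂ) • dbar1 1 (aprY h g) x :=
    HasCompactSupport.intro (apr_cs_db cY) fun x hx => by
      rw [image_eq_zero_of_notMem_tsupport hx, smul_zero]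
  have c4 := apr_cs_db t3.2
  refine ⟨(r1.add r2).add (r3.add r4),
    hasCompactSupport_add' (hasCompactSupport_add' c1 c2) (hasCompactSupport_add' c3 c4), ?_⟩
  have i3 : intX (fun x => (-2 : ℂ) • dbar1 1 (aprY h g) x) = 0 := by
    have := intX_const_mul (-2) (H469.reg_dbar1 rY) (apr_cs_db cY)
    rw [intX_dbar1 (H469.r1mono rY H469.one_le_infty) cY, mul_zero] at this
    exact this
  have i4 := intX_dbar1 (H469.r1mono t3.1 H469.one_le_infty) t3.2
  have i5 := intX_add (r1.add r2) (r3.add r4) (hasCompactSupport_add' c1 c2)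
    (hasCompactSupport_add' c3 c4)
  rw [intX_add r1 r2 c1 c2, intX_add r3 r4 c3 c4, i3, i4, add_zero, add_zero] at i5
  have i6 : intX (aprE h g) = _ := i5
  rw [i6, Complex.add_re]
  rfl

omit [T2Space X] [SigmaCompactSpace X] in
theorem apr_cont {f : X → ℝ} (hf : Tf f) : Continuous f := by
  rw [continuous_iff_continuousAt]
  intro x
  have h1 : ContinuousAt (fun v => (f ((chartAt C2 x).symm v) : ℂ)) (chartAt C2 x x) :=
    (H469.r0comp hf.1 (chart_mem_atlas C2 x)).continuousOn.continuousAt (H469.near_target x)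
  have h2 : ContinuousAt (fun y => ((f ((chartAt C2 x).symm (chartAt C2 x y)) : ℂ)).re) x :=
    Complex.continuous_re.continuousAt.comp
      (ContinuousAt.comp (g := fun v => (f ((chartAt C2 x).symm v) : ℂ)) h1
        ((chartAt C2 x).continuousAt (mem_chart_source C2 x)))
  refine h2.congr ?_
  filter_upwards [chart_source_mem_nhds C2 x] with y hy
  rw [(chartAt C2 x).left_inv hy, Complex.ofReal_re]

/-- **APR** -/
theorem apr (A : ALG) (B : BL) (P : POS) (K : KD h) (I : IP h) : APR h := by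
  intro f hf
  obtain ⟨C, hC, H⟩ := apr_cpt A B P K I hf.2
  obtain ⟨M, hM⟩ := (apr_cont hf).bounded_above_of_compact_support hf.2
  refine ⟨M ^ 2 * C, mul_nonneg (sq_nonneg M) hC, fun g hg hp => ?_⟩
  obtain ⟨rE, cE, iE⟩ := apr_int A K I hg
  have tm := I.t_mf f g hf hg
  have cb : HasCompactSupport fun x => ((M ^ 2 * C : ℝ) : ℂ) • aprE h g x :=
    HasCompactSupport.intro cE fun x hx => by
      rw [image_eq_zero_of_notMem_tsupport hx, smul_zero]
  have h1 := I.mono _ _ (I.reg11 _ _ tm.1 tm.1) (rE.const_smul ((M ^ 2 * C : ℝ) : ℂ))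
    (apr_cs_q11 tm.2) cb fun x => by
      have h0 := apr_nonneg A B P K I hg hp x
      rw [smul_eq_mul, Complex.re_ofReal_mul]
      change (q11 (h x) ((f x : ℂ) • g x) ((f x : ℂ) • g x)).re ≤ _
      rw [apr_q11_smul, Complex.re_ofReal_mul]
      by_cases hx : x ∈ tsupport f
      · have h2 : f x ^ 2 ≤ M ^ 2 := by
          rw [← sq_abs]
          exact pow_le_pow_left₀ (abs_nonneg _) (hM x) 2
        rw [mul_assoc]
        exact mul_le_mul h2 (H g hg hp x hx)
          (Complex.nonneg_iff.1 (A.nonneg (h x) (g x) (K.herm.posDef x))).1 (sq_nonneg M)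
      · rw [image_eq_zero_of_notMem_tsupport hx, sq, zero_mul, zero_mul]
        exact mul_nonneg (mul_nonneg (sq_nonneg M) hC) h0
  have h2 : intX (fun x => ((M ^ 2 * C : ℝ) : ℂ) • aprE h g x) =
      ((M ^ 2 * C : ℝ) : ℂ) * intX (aprE h g) := intX_const_mul _ rE cE
  rw [h2, Complex.re_ofReal_mul, iE] at h1
  exact h1

end Vale.Agent.P253Y.D
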