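import Vale.Agent.P253Y.D.Spec

/-!
# P253Y, block D, row BL: the Bochner inequality in a chart
-/

open scoped Manifold ContDiff ComplexConjugate Matrix ComplexOrder Topology
open Set Filter

noncomputable section

namespace Vale.Agent.P253Y.D

open Vale.Agent.P267 Vale.Agent.P267.FL

namespace Bl

/-! ### algebra -/

theorem herm {H : Mat} (hH : H.PosDef) (a k : Fin 2) : conj (H a k) = H k a :=
  H469.herm_entries hH.isHermitian a k

theorem t2_eq {H : Mat} (hH : H.PosDef) (P r : Fin 2 → ℂ) :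
    q21 H (fun k => ∑ a, P a * H a k + r k) (fun k => ∑ a, P a * H a k + r k) =
      ∑ a, ∑ b, H a b * (P a * conj (P b)) + ∑ k, r k * conj (P k) + ∑ k, P k * conj (r k) +
        ∑ k, ∑ l, H⁻¹ k l * (r k * conj (r l)) := by
  have hu : IsUnit H.det := hH.det_pos.ne'.isUnit
  have e1 := fun i j => congrFun (congrFun (Matrix.mul_nonsing_inv H hu) i) j
  have e2 := fun i j => congrFun (congrFun (Matrix.nonsing_inv_mul H hu) i) j
  have a00 := e1 0 0
  have a01 := e1 0 1
  have a10 := e1 1 0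
  have a11 := e1 1 1
  have b00 := e2 0 0
  have b01 := e2 0 1
  have b10 := e2 1 0
  have b11 := e2 1 1
  simp only [Matrix.mul_apply, Fin.sum_univ_two, Matrix.one_apply_eq, ne_eq, zero_ne_one,
    one_ne_zero, not_false_eq_true, Matrix.one_apply_ne] at a00 a01 a10 a11 b00 b01 b10 b11
  simp only [q21, Fin.sum_univ_two, map_add, map_mul, herm hH]
  linear_combination
    (P 0 * (H 0 0 * conj (P 0) + H 0 1 * conj (P 1) + conj (r 0))) * a00 +
    (P 0 * (H 1 0 * conj (P 0) + H 1 1 * conj (P 1) + conj (r 1))) * a01 +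
    (P 1 * (H 0 0 * conj (P 0) + H 0 1 * conj (P 1) + conj (r 0))) * a10 +
    (P 1 * (H 1 0 * conj (P 0) + H 1 1 * conj (P 1) + conj (r 1))) * a11 +
    (r 0 * conj (P 0)) * b00 + (r 0 * conj (P 1)) * b01 + (r 1 * conj (P 0)) * b10 +
    (r 1 * conj (P 1)) * b11

theorem q11_lin (H F G : Mat) (a c : ℂ) :
    q11 H (a • F + c • G) (a • F + c • G) = a * conj a * q11 H F F + a * conj c * q11 H F G +
      c * conj a * q11 H G F + c * conj c * q11 H G G := by
  simp only [q11, Matrix.conjTranspose_add, Matrix.conjTranspose_smul, Matrix.mul_add,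
    Matrix.add_mul, Matrix.mul_smul, Matrix.smul_mul, Matrix.trace_add, Matrix.trace_smul,
    smul_eq_mul, RCLike.star_def]
  ring

theorem sum_nonneg (A : ALG) {H : Mat} (hH : H.PosDef) (F : Fin 2 → Mat) :
    0 ≤ ∑ a, ∑ k, H a k * q11 H (F a) (F k) := by
  have h0 : 0 < H 0 0 := hH.diag_pos
  have h1 := A.nonneg H (H 0 0 • F 0 + H 1 0 • F 1) hH
  have h2 := mul_nonneg hH.det_pos.le (A.nonneg H (F 1) hH)
  rw [q11_lin, herm hH, herm hH] at h1
  refine (mul_nonneg (RCLike.inv_pos_of_pos h0).le (add_nonneg h1 h2)).trans_eq ?_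
  rw [inv_mul_eq_iff_eq_mul₀ h0.ne']
  simp only [Fin.sum_univ_two, Matrix.det_fin_two]
  ring

theorem t1_le (A : ALG) {H : Mat} (hH : H.PosDef) (f : Fin 2 → Fin 2 → Fin 2 → ℂ)
    (htr : ∀ d, f d 0 0 + f d 1 1 = 0) (t : Fin 2 → ℂ)
    (ht : ∀ c, t c = -conj (∑ a, (f 0 c a * H a 1 - f 1 c a * H a 0))) :
    (∑ a, ∑ k, H a k * wq (Matrix.of fun c d => f d c a) (Matrix.of fun c d => f d c k)).re ≤
      (q21 H t t).re := by
  have h1 := sum_nonneg A hH fun a => Matrix.of fun c d => f d c a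
  have hd : H.det ≠ 0 := hH.det_pos.ne'
  have hc : conj H.det = H.det := by
    simp only [Matrix.det_fin_two, map_sub, map_mul, herm hH]
    ring
  have h2 : q21 H t t - ∑ a, ∑ k, H a k * wq (Matrix.of fun c d => f d c a)
      (Matrix.of fun c d => f d c k) =
      ∑ a, ∑ k, H a k * q11 H (Matrix.of fun c d => f d c a) (Matrix.of fun c d => f d c k) := by
    have e0 : f 0 1 1 = -f 0 0 0 := by linear_combination htr 0
    have e1 : f 1 1 1 = -f 1 0 0 := by linear_combination htr 1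
    simp only [A.wq_eq H _ _ hH, H469.trinv, q21, ht, Fin.sum_univ_two, Matrix.of_apply, map_add,
      map_sub, map_mul, map_neg, map_inv₀, Complex.conj_conj, herm hH, hc, e0, e1]
    rw [Matrix.inv_def, Ring.inverse_eq_inv', Matrix.adjugate_fin_two]
    simp only [Matrix.smul_apply, Matrix.of_apply, Matrix.cons_val', Matrix.cons_val_zero,
      Matrix.cons_val_one, Matrix.cons_val_fin_one, smul_eq_mul]
    field_simp
    ring
  have h3 := (Complex.le_def.1 (h1.trans_eq h2.symm)).1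
  rw [Complex.sub_re, Complex.zero_re] at h3
  linarith

/-! ### calculus -/

variable {U : Set C2} {z : C2} {f g : C2 → ℂ}

theorem df (hU : IsOpen U) (hz : z ∈ U) (hf : ContDiffOn ℝ ∞ f U) : DifferentiableAt ℝ f z :=
  (hf.contDiffAt (hU.mem_nhds hz)).differentiableAt (by simp)

theorem sz (hU : IsOpen U) (hf : ContDiffOn ℝ ∞ f U) (j : Fin 2) : ContDiffOn ℝ ∞ (dz j f) U :=
  contDiffOn_dz hU hf (by simp) j

theorem sb (hU : IsOpen U) (hf : ContDiffOn ℝ ∞ f U) (j : Fin 2) : ContDiffOn ℝ ∞ (dzb j f) U :=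
  contDiffOn_dzb hU hf (by simp) j

theorem dz_on (hU : IsOpen U) (h : ∀ y ∈ U, f y = g y) (j : Fin 2) :
    ∀ y ∈ U, dz j f y = dz j g y := fun _ hy =>
  dz_congr (mem_of_superset (hU.mem_nhds hy) h) j

theorem dzb_on (hU : IsOpen U) (h : ∀ y ∈ U, f y = g y) (j : Fin 2) :
    ∀ y ∈ U, dzb j f y = dzb j g y := fun _ hy =>
  dzb_congr (mem_of_superset (hU.mem_nhds hy) h) j

/-- derivatives of a sum of two products -/
theorem jet (hU : IsOpen U) {F : C2 → ℂ} {a b : Fin 2 → C2 → ℂ}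
    (ha : ∀ k, ContDiffOn ℝ ∞ (a k) U) (hb : ∀ k, ContDiffOn ℝ ∞ (b k) U)
    (h : ∀ y ∈ U, F y = ∑ k, a k y * b k y) :
    (∀ c, ∀ y ∈ U, dz c F y = ∑ k, (a k y * dz c (b k) y + dz c (a k) y * b k y)) ∧
    (∀ d, ∀ y ∈ U, dzb d F y = ∑ k, (a k y * dzb d (b k) y + dzb d (a k) y * b k y)) ∧
    ∀ d c, ∀ y ∈ U, dzb d (dz c F) y = ∑ k, (a k y * dzb d (dz c (b k)) y +
      dzb d (a k) y * dz c (b k) y + (dz c (a k) y * dzb d (b k) y +
      dzb d (dz c (a k)) y * b k y)) := by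
  have h1 : ∀ c, ∀ y ∈ U, dz c F y = ∑ k, (a k y * dz c (b k) y + dz c (a k) y * b k y) := by
    intro c y hy
    rw [dz_on hU h c y hy, dz_sum _ fun k _ => df hU hy ((ha k).mul (hb k))]
    exact Finset.sum_congr rfl fun k _ => dz_mul (df hU hy (ha k)) (df hU hy (hb k)) c
  refine ⟨h1, fun d y hy => ?_, fun d c y hy => ?_⟩
  · rw [dzb_on hU h d y hy, dzb_sum _ fun k _ => df hU hy ((ha k).mul (hb k))]
    exact Finset.sum_congr rfl fun k _ => dzb_mul (df hU hy (ha k)) (df hU hy (hb k)) d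
  · rw [dzb_on hU (h1 c) d y hy, dzb_sum _ fun k _ =>
      df hU hy (((ha k).mul (sz hU (hb k) c)).add ((sz hU (ha k) c).mul (hb k)))]
    refine Finset.sum_congr rfl fun k _ => ?_
    rw [dzb_add (df hU hy ((ha k).mul (sz hU (hb k) c))) (df hU hy ((sz hU (ha k) c).mul (hb k))),
      dzb_mul (df hU hy (ha k)) (df hU hy (sz hU (hb k) c)),
      dzb_mul (df hU hy (sz hU (ha k) c)) (df hU hy (hb k))]

theorem cj2 (hU : IsOpen U) (hz : z ∈ U) (hf : ContDiffOn ℝ ∞ f U) (d c : Fin 2) :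
    dzb d (dz c fun y => conj (f y)) z = conj (dzb c (dz d f) z) := by
  rw [dzb_on hU (fun y hy => dz_conj (df hU hy hf) c) d z hz, dzb_conj (df hU hz (sb hU hf c)),
    dz_dzb_comm ((hf.contDiffAt (hU.mem_nhds hz)).of_le H469.two_le_infty)]

theorem inv_sm {H : C2 → Mat} (K : KOn U H) (i j : Fin 2) :
    ContDiffOn ℝ ∞ (fun y => (H y)⁻¹ i j) U := by
  have hd : ContDiffOn ℝ ∞ (fun z => ((H z).det)⁻¹) U := by
    refine ContDiffOn.inv ?_ fun z hz => (K.pos z hz).det_pos.ne'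
    simp only [Matrix.det_fin_two]
    exact ((K.sm 0 0).mul (K.sm 1 1)).sub ((K.sm 0 1).mul (K.sm 1 0))
  simp only [Matrix.inv_def, Ring.inverse_eq_inv', Matrix.smul_apply, smul_eq_mul,
    Matrix.adjugate_fin_two]
  refine hd.mul ?_
  fin_cases i <;> fin_cases j
  exacts [K.sm 1 1, (K.sm 0 1).neg, (K.sm 1 0).neg, K.sm 0 0]

end Bl

open Bl in
theorem bl (A : ALG) : BL := by
  intro U H G hU K hG htr z hz
  have hu : ∀ y ∈ U, IsUnit (H y).det := fun y hy => (K.pos y hy).det_pos.ne'.isUnit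
  obtain ⟨v, hv⟩ : ∃ v : Fin 2 → Fin 2 → C2 → ℂ, v = fun c a y => (G y * (H y)⁻¹) c a := ⟨_, rfl⟩
  have hv' : ∀ y c a, (G y * (H y)⁻¹) c a = v c a y := fun y c a => by rw [hv]
  have vs : ∀ c a, ContDiffOn ℝ ∞ (v c a) U := fun c a => by
    simp only [hv, Matrix.mul_apply]
    exact ContDiffOn.sum fun k _ => (hG c k).mul (inv_sm K k a)
  have ws : ∀ c a, ContDiffOn ℝ ∞ (fun y => conj (v c a y)) U := fun c a =>
    H469.conj_contDiffOn (vs c a)
  have g1 : ∀ c k, ∀ y ∈ U, G y c k = ∑ a, v c a y * H y a k := fun c k y hy => by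
    simp only [← hv', ← Matrix.mul_apply]
    rw [Matrix.nonsing_inv_mul_cancel_right _ _ (hu y hy)]
  have jG := fun c k => jet hU (vs c) (fun a => K.sm a k) (g1 c k)
  have ts : ∀ k, ContDiffOn ℝ ∞ (fun y => d11 G y k) U := fun k =>
    (sz hU (hG 1 k) 0).sub (sz hU (hG 0 k) 1)
  have jY := fun f => (jet hU (F := fun y => yf (H y) (G y) (d11 G y) f) ts (ws f)
    fun y _ => by simp only [yf, hv']).2.1
  have jP := fun c f => jet hU (F := fun y => ph (H y) (G y) c f) (hG c) (ws f) fun y hy => by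
    have : ph (H y) (G y) = G y * (G y * (H y)⁻¹)ᴴ := by
      rw [Matrix.conjTranspose_mul, (K.pos y hy).isHermitian.inv.eq, ph, Matrix.mul_assoc]
    simp only [this, Matrix.mul_apply (M := G y) (N := _ᴴ), Matrix.conjTranspose_apply, hv',
      RCLike.star_def]
  have ps : ∀ c f, ContDiffOn ℝ ∞ (fun y => ph (H y) (G y) c f) U := fun c f => by
    simp only [ph, Matrix.mul_apply (M := _ * _), Matrix.conjTranspose_apply, hv', RCLike.star_def]
    exact ContDiffOn.sum fun k _ => (vs c k).mul (H469.conj_contDiffOn (hG f k))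
  have dt : ∀ d k, dzb d (fun y => d11 G y k) z =
      dzb d (dz 0 fun y => G y 1 k) z - dzb d (dz 1 fun y => G y 0 k) z := fun d k =>
    dzb_sub (df hU hz (sz hU (hG 1 k) 0)) (df hU hz (sz hU (hG 0 k) 1)) d
  have dp : ∀ d f, dzb d (fun y => d11 (fun y => ph (H y) (G y)) y f) z =
      dzb d (dz 0 fun y => ph (H y) (G y) 1 f) z - dzb d (dz 1 fun y => ph (H y) (G y) 0 f) z :=
    fun d f => dzb_sub (df hU hz (sz hU (ps 1 f) 0)) (df hU hz (sz hU (ps 0 f) 1)) d
  have c0 := herm (K.pos z hz)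
  have hc : ∀ a k, ∀ y ∈ U, H y k a = conj (H y a k) := fun a k y hy =>
    (herm (K.pos y hy) a k).symm
  have c1 : ∀ j a k, conj (dz j (fun y => H y a k) z) = dzb j (fun y => H y k a) z := fun j a k => by
    rw [dzb_on hU (hc a k) j z hz, dzb_conj (df hU hz (K.sm a k))]
  have c2 : ∀ j a k, conj (dzb j (fun y => H y a k) z) = dz j (fun y => H y k a) z := fun j a k => by
    rw [← c1, Complex.conj_conj]
  have c3 : ∀ d c a k, conj (dzb d (dz c fun y => H y a k) z) =
      dzb c (dz d fun y => H y k a) z := fun d c a k => by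
    rw [dzb_on hU (dz_on hU (hc a k) d) c z hz, cj2 hU hz (K.sm a k)]
  have w1 := fun c a j => dz_conj (df hU hz (vs c a)) j
  have w2 := fun c a j => dzb_conj (df hU hz (vs c a)) j
  have w3 := fun c a => cj2 hU hz (vs c a)
  have cm : ∀ c d a k, dz c (dzb d fun y => H y a k) z = dzb d (dz c fun y => H y a k) z :=
    fun c d a k => dz_dzb_comm (((K.sm a k).contDiffAt (hU.mem_nhds hz)).of_le H469.two_le_infty) c d
  have t1 : d11 G z = fun k => ∑ a, (dz 0 (v 1 a) z - dz 1 (v 0 a) z) * H z a k +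
      ∑ a, (v 1 a z * dz 0 (fun y => H y a k) z - v 0 a z * dz 1 (fun y => H y a k) z) := by
    funext k
    simp only [d11, (jG _ _).1 _ z hz, Fin.sum_univ_two]
    ring
  have key : Rq H z (G z) = ∑ a, ∑ k, H z a k * wq (Matrix.of fun c d => dzb d (v c a) z)
      (Matrix.of fun c d => dzb d (v c k) z) + q21 (H z) (d11 G z) (d11 G z) -
      db1 (fun y => yf (H y) (G y) (d11 G y)) z -
      conj (db1 (fun y => yf (H y) (G y) (d11 G y)) z) +
      conj (db1 (d11 fun y => ph (H y) (G y)) z) := by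
    have e1 := t2_eq (K.pos z hz) (fun a => dz 0 (v 1 a) z - dz 1 (v 0 a) z)
      fun k => ∑ a, (v 1 a z * dz 0 (fun y => H y a k) z - v 0 a z * dz 1 (fun y => H y a k) z)
    rw [← t1] at e1
    rw [e1]
    simp only [db1, jY _ _ z hz, dp, (jP _ _).2.2 _ _ z hz, dt, t1, (jG _ _).1 _ z hz,
      (jG _ _).2.1 _ z hz, (jG _ _).2.2 _ _ z hz, g1 _ _ z hz, w1, w2, w3, Rq, cv, wv, hv', cm, wq,
      Matrix.of_apply, Fin.sum_univ_two, map_add, map_sub, map_mul, map_neg, c0, c1, c2, c3,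
      Complex.conj_conj, if_true, one_ne_zero, if_false]
    ring
  have h1 := t1_le A (K.pos z hz) (fun d c a => dzb d (v c a) z) (fun d => ?_)
    (d11 (fun y => cjm (G y)) z) fun c => ?_
  · rw [key]
    simp only [Complex.add_re, Complex.sub_re, Complex.conj_re] at h1 ⊢
    linarith
  · rw [← dzb_add (df hU hz (vs 0 0)) (df hU hz (vs 1 1)),
      dzb_on hU (g := fun _ => 0) (fun y hy => ?_) d z hz, dzb_const]
    rw [← htr y hy, Matrix.trace_mul_comm, Matrix.trace_fin_two, hv', hv']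
  · have k1 : ∀ a, dzb 0 (fun y => H y a 1) z = dzb 1 (fun y => H y a 0) z := fun a => by
      rw [← c1, ← c1, K.cl z hz]
    simp only [d11, cjm, Matrix.of_apply, dz_neg, dz_conj (df hU hz (hG _ _)),
      (jG _ _).2.1 _ z hz, Fin.sum_univ_two, k1, map_add, map_sub, map_mul]
    ring

end Vale.Agent.P253Y.D
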