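import Vale.Agent.P253Y.D.Spec
import Vale.Agent.P267.H332.Pair.Deck

/-!
# P253Y, block D: forms with support in a chart
-/

open scoped Manifold ContDiff ComplexConjugate Matrix ComplexOrder Topology
open MeasureTheory Set Filter

noncomputable section

namespace Vale.Agent.P253Y.D

open Vale.Agent.P267 Vale.Agent.P267.FL

namespace Cp

theorem sm {U S : Set C2} (hU : IsOpen U) (hS : IsCompact S) (hSU : S ⊆ U) {F f : C2 → ℂ}
    (hf : ContDiffOn ℝ ∞ f U) (h1 : ∀ z ∈ U, F z = f z) (h0 : ∀ z ∉ S, F z = 0) :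
    ContDiff ℝ ∞ F := by
  refine contDiff_iff_contDiffAt.2 fun z => ?_
  by_cases hz : z ∈ U
  · exact (hf.contDiffAt (hU.mem_nhds hz)).congr_of_eventuallyEq
      (eventually_of_mem (hU.mem_nhds hz) h1)
  · exact contDiffAt_const.congr_of_eventuallyEq
      (eventually_of_mem (hS.isClosed.isOpen_compl.mem_nhds fun h => hz (hSU h)) h0)

/-- two positive homogeneous functions are comparable -/
theorem hom {T V : Type} [TopologicalSpace T] [CompactSpace T] [NormedAddCommGroup V]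
    [NormedSpace ℝ V] [ProperSpace V] {φ ψ : T → V → ℝ} (h1 : Continuous fun q : T × V => φ q.1 q.2)
    (h2 : Continuous fun q : T × V => ψ q.1 q.2)
    (h3 : ∀ z (t : ℝ) v, φ z (t • v) = t ^ 2 * φ z v)
    (h4 : ∀ z (t : ℝ) v, ψ z (t • v) = t ^ 2 * ψ z v) (h5 : ∀ z v, v ≠ 0 → 0 < ψ z v) :
    ∃ C, 0 ≤ C ∧ ∀ z v, φ z v ≤ C * ψ z v := by
  have h6 : ∀ v ∈ Metric.sphere (0 : V) 1, v ≠ 0 := fun v hv e => by simp [e] at hv
  obtain ⟨C, hC⟩ := (isCompact_univ.prod (isCompact_sphere (0 : V) 1)).exists_bound_of_continuousOn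
    (h1.continuousOn.div h2.continuousOn fun q hq => (h5 _ _ (h6 _ hq.2)).ne')
  refine ⟨|C|, abs_nonneg C, fun z v => ?_⟩
  by_cases hv : v = 0
  · have a := h3 z 0 v
    have b := h4 z 0 v
    rw [hv, smul_zero] at a b
    rw [hv, a, b]
    simp
  · have hn := norm_ne_zero_iff.2 hv
    have hw : ‖v‖⁻¹ • v ∈ Metric.sphere (0 : V) 1 := by
      simp [norm_smul, hn]
    have k := (le_abs_self _).trans ((hC (z, _) ⟨trivial, hw⟩).trans (le_abs_self C))
    have e : v = ‖v‖ • ‖v‖⁻¹ • v := by rw [smul_smul, mul_inv_cancel₀ hn, one_smul]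
    rw [Pi.div_apply, div_le_iff₀ (h5 _ _ (h6 _ hw))] at k
    rw [e, h3, h4, mul_left_comm]
    exact mul_le_mul_of_nonneg_left k (sq_nonneg _)

/-- comparison with the flat norms -/
theorem flat (A : ALG) {T : Type} [TopologicalSpace T] [CompactSpace T] {H : T → Mat}
    (hH : Continuous H) (hp : ∀ z, (H z).PosDef) : ∃ C, 0 ≤ C ∧ ∀ z,
      (∀ G : Mat, (q11 (H z) G G).re ≤ C * ∑ i, ∑ j, ‖G i j‖ ^ 2 ∧
        ∑ i, ∑ j, ‖G i j‖ ^ 2 ≤ C * (q11 (H z) G G).re) ∧
      ∀ t : Fin 2 → ℂ, (q21 (H z) t t).re ≤ C * ∑ j, ‖t j‖ ^ 2 ∧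
        ∑ j, ‖t j‖ ^ 2 ≤ C * (q21 (H z) t t).re := by
  have hK : Continuous fun z => (H z)⁻¹ := continuous_iff_continuousAt.2 fun z =>
    (continuousAt_matrix_inv (H z) (by
      rw [Ring.inverse_eq_inv']
      exact continuousAt_inv₀ (hp z).det_pos.ne')).comp hH.continuousAt
  have c0 : Continuous fun q : T × (Fin 2 → Fin 2 → ℂ) => (Matrix.of q.2 : Mat) := continuous_snd
  have c1 : Continuous fun q : T × (Fin 2 → Fin 2 → ℂ) =>
      (q11 (H q.1) (Matrix.of q.2) (Matrix.of q.2)).re :=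
    Complex.continuous_re.comp ((hH.comp continuous_fst).matrix_det.mul
      ((((hK.comp continuous_fst).matrix_mul c0).matrix_mul (hK.comp continuous_fst)).matrix_mul
        c0.matrix_conjTranspose).matrix_trace)
  have c2 : Continuous fun q : T × (Fin 2 → Fin 2 → ℂ) => ∑ i, ∑ j, ‖q.2 i j‖ ^ 2 := by fun_prop
  have c3 : Continuous fun q : T × (Fin 2 → ℂ) => (q21 (H q.1) q.2 q.2).re :=
    Complex.continuous_re.comp (continuous_finsetSum _ fun k _ => continuous_finsetSum _
      fun l _ => ((hK.comp continuous_fst).matrix_elem k l).mul (by fun_prop))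
  have c4 : Continuous fun q : T × (Fin 2 → ℂ) => ∑ j, ‖q.2 j‖ ^ 2 := by fun_prop
  have e1 : ∀ z (t : ℝ) (v : Fin 2 → Fin 2 → ℂ),
      (q11 (H z) (Matrix.of (t • v)) (Matrix.of (t • v))).re =
        t ^ 2 * (q11 (H z) (Matrix.of v) (Matrix.of v)).re := fun z t v => by
    rw [← Complex.re_ofReal_mul, show Matrix.of (t • v) = t • Matrix.of v from rfl]
    simp only [q11, Matrix.conjTranspose_smul, star_trivial, Matrix.mul_smul, Matrix.smul_mul,
      Matrix.trace_smul, Complex.real_smul]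
    congr 1
    push_cast
    ring
  have e2 : ∀ (t : ℝ) (v : Fin 2 → Fin 2 → ℂ),
      ∑ i, ∑ j, ‖(t • v) i j‖ ^ 2 = t ^ 2 * ∑ i, ∑ j, ‖v i j‖ ^ 2 := fun t v => by
    simp only [Pi.smul_apply, norm_smul, mul_pow, Real.norm_eq_abs, sq_abs, Finset.mul_sum]
  have e3 : ∀ z (t : ℝ) (v : Fin 2 → ℂ),
      (q21 (H z) (t • v) (t • v)).re = t ^ 2 * (q21 (H z) v v).re := fun z t v => by
    rw [← Complex.re_ofReal_mul]
    simp only [q21, Pi.smul_apply, Complex.real_smul, map_mul, Complex.conj_ofReal,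
      Fin.sum_univ_two]
    congr 1
    push_cast
    ring
  have e4 : ∀ (t : ℝ) (v : Fin 2 → ℂ), ∑ j, ‖(t • v) j‖ ^ 2 = t ^ 2 * ∑ j, ‖v j‖ ^ 2 :=
    fun t v => by
      simp only [Pi.smul_apply, norm_smul, mul_pow, Real.norm_eq_abs, sq_abs, Finset.mul_sum]
  have p4 : ∀ v : Fin 2 → ℂ, v ≠ 0 → 0 < ∑ j, ‖v j‖ ^ 2 := fun v hv => by
    obtain ⟨j, hj⟩ := Function.ne_iff.1 hv
    exact Finset.sum_pos' (fun _ _ => sq_nonneg _) ⟨j, Finset.mem_univ j, by
      have := norm_pos_iff.2 hj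
      positivity⟩
  have p2 : ∀ v : Fin 2 → Fin 2 → ℂ, v ≠ 0 → 0 < ∑ i, ∑ j, ‖v i j‖ ^ 2 := fun v hv => by
    obtain ⟨j, hj⟩ := Function.ne_iff.1 hv
    exact Finset.sum_pos' (fun _ _ => by positivity) ⟨j, Finset.mem_univ j, p4 _ hj⟩
  obtain ⟨C₁, a1, b1⟩ := hom (φ := fun z v => (q11 (H z) (Matrix.of v) (Matrix.of v)).re)
    (ψ := fun _ v => ∑ i, ∑ j, ‖v i j‖ ^ 2) c1 c2 e1 (fun _ => e2) fun _ => p2
  obtain ⟨C₂, a2, b2⟩ := hom (ψ := fun z v => (q11 (H z) (Matrix.of v) (Matrix.of v)).re)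
    (φ := fun _ v => ∑ i, ∑ j, ‖v i j‖ ^ 2) c2 c1 (fun _ => e2) e1
    fun z v hv => (Complex.pos_iff.1 (A.pos _ _ (hp z) hv)).1
  obtain ⟨C₃, a3, b3⟩ := hom (φ := fun z v => (q21 (H z) v v).re)
    (ψ := fun _ v => ∑ j, ‖v j‖ ^ 2) c3 c4 e3 (fun _ => e4) fun _ => p4
  obtain ⟨C₄, a4, b4⟩ := hom (ψ := fun z v => (q21 (H z) v v).re)
    (φ := fun _ v => ∑ j, ‖v j‖ ^ 2) c4 c3 (fun _ => e4) e3
    fun z v hv => (Complex.pos_iff.1 (A.pos' _ _ (hp z) hv)).1
  refine ⟨C₁ + C₂ + C₃ + C₄, by positivity, fun z => ⟨fun G => ⟨(b1 z G).trans ?_,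
    (b2 z G).trans ?_⟩, fun t => ⟨(b3 z t).trans ?_, (b4 z t).trans ?_⟩⟩⟩
  · exact mul_le_mul_of_nonneg_right (by linarith) (by positivity)
  · exact mul_le_mul_of_nonneg_right (by linarith) (Complex.nonneg_iff.1 (A.nonneg _ _ (hp z))).1
  · exact mul_le_mul_of_nonneg_right (by linarith) (by positivity)
  · exact mul_le_mul_of_nonneg_right (by linarith) (Complex.nonneg_iff.1 (A.nonneg' _ _ (hp z))).1

theorem int_sq {S : Set C2} (hS : IsCompact S) {f : C2 → ℂ} (hf : Continuous f)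
    (h0 : ∀ z ∉ S, f z = 0) : Integrable fun z => ‖f z‖ ^ 2 :=
  (hf.norm.pow 2).integrable_of_hasCompactSupport
    (HasCompactSupport.intro hS fun z hz => by simp [h0 z hz])

variable {X : Type} [TopologicalSpace X] {e : Ch X} {S : Set C2}

theorem cpt (hS : IsCompact S) (hSe : S ⊆ e.target) : IsCompact (e.symm '' S) :=
  hS.image_of_continuousOn (e.continuousOn_symm.mono hSe)

theorem sub (hSe : S ⊆ e.target) : e.symm '' S ⊆ e.source := by
  rintro _ ⟨z, hz, rfl⟩
  exact e.map_target (hSe hz)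

theorem ind {V : Type} [Zero V] (hSe : S ⊆ e.target) {f : C2 → V}
    (h : ∀ z, e.symm z ∉ e.symm '' S → f z = 0) : ∀ z ∉ S, e.target.indicator f z = 0 :=
  fun z hz => indicator_apply_eq_zero.2 fun hz' => h z fun ⟨_, hw, k⟩ =>
    hz (e.symm.injOn (hSe hw) hz' k ▸ hw)

theorem out {x : X} (hx : x ∈ e.source) (h : x ∉ e.symm '' S) : e x ∉ S :=
  fun k => h ⟨_, k, e.left_inv hx⟩

variable [ChartedSpace C2 X] [T2Space X]

theorem ev0 (hS : IsCompact S) (hSe : S ⊆ e.target) {x : X} (hx : x ∉ e.source) :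
    ∀ᶠ z in 𝓝 (chartAt C2 x x), (chartAt C2 x).symm z ∉ e.symm '' S := by
  refine ((chartAt C2 x).continuousAt_symm (mem_chart_target C2 x)).eventually
    (p := fun y => y ∉ e.symm '' S) ?_
  rw [(chartAt C2 x).left_inv (mem_chart_source C2 x)]
  exact (cpt hS hSe).isClosed.isOpen_compl.mem_nhds fun h => hx (sub hSe h)

variable [IsManifold 𝓘(ℂ, C2) ω X] [SigmaCompactSpace X]

theorem cmpI (he : e ∈ atlas C2 X) (hS : IsCompact S) (hSe : S ⊆ e.target) {b : X → ℂ}
    (hb : Reg2 ∞ 1 b) (h0 : ∀ x ∉ e.symm '' S, b x = 0) {ψ : C2 → ℝ} (hψ : Integrable ψ)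
    (hψ0 : ∀ z ∉ S, ψ z = 0) (hψ1 : ∀ z, 0 ≤ ψ z) {C : ℝ}
    (h1 : ∀ z ∈ S, (loc2 1 e b z).re ≤ C * ψ z ∧ ψ z ≤ C * (loc2 1 e b z).re) :
    (intX b).re ≤ 4 * C * ∫ z, ψ z ∧ ∫ z, ψ z ≤ 4 * C * (intX b).re := by
  have hc := HasCompactSupport.intro (cpt hS hSe) h0
  have z0 := ind hSe (f := loc2 1 e b) fun z hz => by simp [loc2, h0 _ hz]
  have hB : Integrable (e.target.indicator (loc2 1 e b)) :=
    (sm e.open_target hS hSe (hb e he) (fun z hz => indicator_of_mem hz _)
      z0).continuous.integrable_of_hasCompactSupport (HasCompactSupport.intro hS z0)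
  have e1 : (intX b).re = 4 * ∫ z, (e.target.indicator (loc2 1 e b) z).re := by
    rw [intX_chart (integrableX_of_reg hb.zero_order hc) hc he fun x hx =>
      h0 x fun k => hx (sub hSe k), ← integral_indicator e.open_target.measurableSet]
    have := Complex.reCLM.integral_comp_comm hB
    simp only [Complex.reCLM_apply] at this
    rw [this]
    simp
  have k : ∀ z, (e.target.indicator (loc2 1 e b) z).re ≤ C * ψ z ∧
      ψ z ≤ C * (e.target.indicator (loc2 1 e b) z).re := fun z => by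
    by_cases hz : z ∈ S
    · rw [indicator_of_mem (hSe hz)]
      exact h1 z hz
    · simp [z0 z hz, hψ0 z hz]
  have k1 := integral_mono hB.re (hψ.const_mul C) fun z => (k z).1
  have k2 := integral_mono hψ (hB.re.const_mul C) fun z => (k z).2
  have k3 : 0 ≤ ∫ z, ψ z := integral_nonneg hψ1
  simp only [integral_const_mul, RCLike.re_to_complex] at k1 k2
  rw [e1]
  constructor <;> linarith

end Cp

open Cp

variable {X : Type} [TopologicalSpace X] [ChartedSpace C2 X] [IsManifold 𝓘(ℂ, C2) ω X] [T2Space X]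
  [SigmaCompactSpace X] {h : X → Mat}

theorem cmp (A : ALG) (hh : IsHerm h) (I : IP h) : CMP h := by
  classical
  have r11 : ∀ e ∈ atlas C2 X, ∀ S, IsCompact S → S ⊆ e.target → ∀ g : X → Mat, Reg11 ∞ g →
      (∀ x ∉ e.symm '' S, g x = 0) → (∀ z ∉ S, e.target.indicator (loc11 e g) z = 0) ∧
        ∀ i j, ContDiff ℝ ∞ fun z => e.target.indicator (loc11 e g) z i j :=
    fun e he S hS hSe g hg h0 => by
      have z0 := ind hSe (f := loc11 e g) fun z hz => by simp [H469.loc11_mat, h0 _ hz]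
      exact ⟨z0, fun i j => sm e.open_target hS hSe (hg e he i j)
        (fun z hz => by rw [indicator_of_mem hz]) fun z hz => by rw [z0 z hz]; rfl⟩
  have r1 : ∀ e ∈ atlas C2 X, ∀ S, IsCompact S → S ⊆ e.target → ∀ t : X → Fin 2 → ℂ,
      Reg1 ∞ 1 t → (∀ x ∉ e.symm '' S, t x = 0) →
      (∀ z ∉ S, e.target.indicator (loc1 1 e t) z = 0) ∧
        ∀ j, ContDiff ℝ ∞ fun z => e.target.indicator (loc1 1 e t) z j :=
    fun e he S hS hSe g hg h0 => by
      have z0 := ind hSe (f := loc1 1 e g) fun z hz => funext fun i => by simp [loc1, h0 _ hz]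
      exact ⟨z0, fun j => sm e.open_target hS hSe (contDiffOn_pi.1 (hg e he) j)
        (fun z hz => by rw [indicator_of_mem hz]) fun z hz => by rw [z0 z hz]; rfl⟩
  have J := fun e he x hx => jacM_mul_inv (X := X) (e := e) (x := x) he (chart_mem_atlas C2 x) hx
    (mem_chart_source C2 x)
  refine ⟨fun e he S hS hSe u hu h0 => ?_, fun e he S hS hSe u hu h0 => ?_, r11, r1,
    fun e he S hS hSe => ?_⟩
  · obtain ⟨g, hg⟩ : ∃ g : X → Mat, ∀ x, g x =
        if x ∈ e.source then pb (jacM (chartAt C2 x) e x) (u (e x)) else 0 := ⟨_, fun _ => rfl⟩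
    have g0 : ∀ x ∉ e.symm '' S, g x = 0 := fun x hx => by
      rw [hg]
      split_ifs with k
      · simp [pb, h0 _ (out k hx)]
      · rfl
    have g1 : ∀ z ∈ e.target, loc11 e g z = u z := fun z hz => by
      have k := J e he _ (e.map_target hz)
      rw [H469.loc11_mat, hg, if_pos (e.map_target hz), e.right_inv hz, pb, jac,
        ← Matrix.mul_assoc, ← Matrix.mul_assoc, ← Matrix.transpose_mul, Matrix.mul_assoc,
        ← Matrix.map_mul, k]
      simp
    refine ⟨g, ⟨H332.reg11_iff.2 fun x i j => ?_, .intro (cpt hS hSe) g0⟩, g0, g1⟩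
    by_cases hx : x ∈ e.source
    · refine H332.loc11_contDiffAt_change (chart_mem_atlas C2 x) he (mem_chart_source C2 x) hx
        (fun i j => (hu i j).contDiffAt.congr_of_eventuallyEq ?_) i j
      filter_upwards [e.open_target.mem_nhds (e.map_source hx)] with z hz
      rw [g1 z hz]
    · refine (contDiffAt_const (c := 0)).congr_of_eventuallyEq ?_
      filter_upwards [ev0 hS hSe hx] with z hz
      simp [loc11, g0 _ hz]
  · obtain ⟨g, hg⟩ : ∃ g : X → Fin 2 → ℂ, ∀ x p, g x p = if x ∈ e.source then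
        ∑ q, conj (jacM (chartAt C2 x) e x q p) * u (e x) q else 0 := ⟨_, fun _ _ => rfl⟩
    have g0 : ∀ x ∉ e.symm '' S, g x = 0 := fun x hx => funext fun p => by
      rw [hg]
      split_ifs with k
      · simp [h0 _ (out k hx)]
      · rfl
    have g1 : ∀ z ∈ e.target, loc1 0 e g z = u z := fun z hz => funext fun i => by
      have k := fun q => congrArg conj (congrFun (congrFun (J e he _ (e.map_target hz)) q) i)
      have k0 := k 0
      have k1 := k 1
      simp only [Matrix.mul_apply, Fin.sum_univ_two, map_add, map_mul] at k0 k1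
      simp only [loc1, hg, if_pos (e.map_target hz), e.right_inv hz, jac, zpow_zero,
        Fin.sum_univ_two, smul_eq_mul]
      have k2 : u z i = conj ((1 : Mat) 0 i) * u z 0 + conj ((1 : Mat) 1 i) * u z 1 := by
        fin_cases i <;> simp [Matrix.one_apply]
      rw [k2, ← k0, ← k1]
      ring
    refine ⟨g, ⟨reg1_iff_at.2 fun x => ?_, .intro (cpt hS hSe) g0⟩, g0, g1⟩
    by_cases hx : x ∈ e.source
    · exact at1_of_chart he hx ((contDiff_pi.2 hu).contDiffAt.congr_of_eventuallyEq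
        (eventually_of_mem (e.open_target.mem_nhds (e.map_source hx)) g1))
    · refine (contDiffAt_const (c := 0)).congr_of_eventuallyEq ?_
      filter_upwards [ev0 hS hSe hx] with z hz
      exact funext fun i => by simp [loc1, g0 _ hz]
  · have := isCompact_iff_compactSpace.1 hS
    obtain ⟨C, hC, k⟩ := flat A (H := fun z : S => loc11 e h z) (continuous_matrix fun i j =>
      ((hh.smooth e he i j).continuousOn.mono hSe).domRestrict) fun z => I.posDef e he z (hSe z.2)
    refine ⟨4 * C, by positivity, fun g hg h0 => ?_, fun t ht h0 => ?_⟩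
    · obtain ⟨z0, c⟩ := r11 e he S hS hSe g hg h0
      have i1 := fun i j => int_sq hS (c i j).continuous fun z hz => by rw [z0 z hz]; rfl
      have k1 := cmpI he hS hSe (I.reg11 g g hg hg) (fun x hx => by simp [q11, h0 x hx])
        (integrable_finsetSum Finset.univ fun i _ => integrable_finsetSum Finset.univ
          fun j _ => i1 i j) (fun z hz => by simp [z0 z hz]) (fun z => by positivity)
        (C := C) fun z hz => by
          rw [I.loc11q g g e he z (hSe hz), indicator_of_mem (hSe hz)]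
          exact (k ⟨z, hz⟩).1 _
      rw [integral_finsetSum _ fun i _ => integrable_finsetSum _ fun j _ => i1 i j,
        Finset.sum_congr rfl fun i _ => integral_finsetSum _ fun j _ => i1 i j] at k1
      exact k1
    · obtain ⟨z0, c⟩ := r1 e he S hS hSe t ht h0
      have i1 := fun j => int_sq hS (c j).continuous fun z hz => by rw [z0 z hz]; rfl
      have k1 := cmpI he hS hSe (I.reg21 t t ht ht) (fun x hx => by simp [q21, h0 x hx])
        (integrable_finsetSum Finset.univ fun j _ => i1 j) (fun z hz => by simp [z0 z hz])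
        (fun z => by positivity) (C := C) fun z hz => by
          rw [I.loc21q t t e he z (hSe hz), indicator_of_mem (hSe hz)]
          exact (k ⟨z, hz⟩).2 _
      rw [integral_finsetSum _ fun j _ => i1 j] at k1
      exact k1

end Vale.Agent.P253Y.D
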