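import Vale.Agent.P253Y.D.Spec

/-!
# P253Y, block D, row FIN: the minimizing sequence and the theorem of Stokes
-/

set_option linter.unusedSectionVars false

open scoped Manifold ContDiff ComplexConjugate Matrix ComplexOrder Topology
open Set Filter

noncomputable section

namespace Vale.Agent.P253Y.D

open Vale.Agent.P267 Vale.Agent.P267.FL
open Vale.Agent.P267.H469 (del11 cj11 cj1 cj0 cjF of11)
open Vale.Agent.P267.H332 (HC HR supp2)

variable {X : Type} [TopologicalSpace X] [ChartedSpace C2 X] [IsManifold 𝓘(ℂ, C2) ω X] [T2Space X]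
  [SigmaCompactSpace X] {h : X → Mat}

namespace Fn

/-- test one-forms -/
structure TO (α : OneF X) : Prop where
  sm : α.Smooth
  c10 : HasCompactSupport α.f10
  c01 : HasCompactSupport α.f01

/-- the conjugate of a one-form -/
def cjO (α : OneF X) : OneF X := ⟨cj1 α.f01, cj1 α.f10⟩

variable {α β : OneF X} {F G : TwoF X}

theorem TO.cj (t : TO α) : TO (cjO α) :=
  have k : ∀ c : X → Fin 2 → ℂ, HasCompactSupport c → HasCompactSupport (cj1 c) := fun c hc =>
    .intro hc fun x hx => by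
      ext i
      simp [cj1, image_eq_zero_of_notMem_tsupport hx]
  ⟨⟨H469.r1cj t.sm.s01, H469.r10cj t.sm.s10⟩, k _ t.c01, k _ t.c10⟩

theorem cj_d (α : OneF X) : (cjO α).d = cjF α.d := by
  simp only [cjO, OneF.d, cjF, H469.del10_cj, H469.del1_cj, H469.dbar10_cj, H469.dbar1_cj,
    H469.cj11_add, add_comm]

theorem TO.out (t : TO α) : ∃ K, IsCompact K ∧ ∀ x ∉ K, α.f10 x = 0 ∧ α.f01 x = 0 :=
  ⟨_, t.c10.union t.c01, fun _ hx => ⟨image_eq_zero_of_notMem_tsupport fun o => hx (.inl o),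
    image_eq_zero_of_notMem_tsupport fun o => hx (.inr o)⟩⟩

theorem del1_out {c : X → Fin 2 → ℂ} {K : Set X} (hK : IsClosed K) (h0 : ∀ x ∉ K, c x = 0) {x : X}
    (hx : x ∉ K) : del1 c x = 0 := by
  have h1 : c =ᶠ[𝓝 x] fun _ => 0 := mem_of_superset (hK.isOpen_compl.mem_nhds hx) h0
  ext i j
  rw [del1, Matrix.of_apply, FL.dz_congr (g := fun _ => 0)
    ((loc1_congr (κ := 0) (mem_chart_source C2 x) h1).mono fun z hz =>
      (congrFun hz j).trans (by simp [loc1])),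
    FL.dz_const, Matrix.zero_apply]

theorem TO.d (t : TO α) : α.d ∈ HC X := by
  obtain ⟨K, hK, h0⟩ := t.out
  have cl : ∀ {β : OneF X}, TO β → β.d.d21 = 0 := fun t => H469.d_aux t.sm.s10 t.sm.s01
  have e1 : α.d.d12 = cj1 (cjO α).d.d21 := by rw [cj_d, H469.d21_cj, H469.cj1_cj1]
  have h1 : ∀ x ∉ K, cj1 α.f10 x = 0 := fun x hx => by
    ext i
    simp [cj1, (h0 x hx).1]
  refine ⟨⟨H469.reg_del10 t.sm.s10, (H469.S11 X).add_mem (H469.reg_del1 t.sm.s01)
    (H469.reg_dbar10 t.sm.s10), H469.reg_dbar1 t.sm.s01⟩, ⟨fun x j => by simp [cl t],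
      fun x j => by simp [e1, cl t.cj, cj1]⟩, hK.of_isClosed_subset isClosed_closure
        (closure_minimal (fun x hx => by_contra fun o => ?_) hK.isClosed)⟩
  have a := dbar1_eq_zero_of_notMem (κ := 0) hK.isClosed h1 o
  have b := dbar1_eq_zero_of_notMem (κ := 0) hK.isClosed (fun x hx => (h0 x hx).2) o
  have c := del1_out hK.isClosed h1 o
  have d := del1_out hK.isClosed (fun x hx => (h0 x hx).2) o
  rw [H469.dbar1_cj, cj0, map_eq_zero] at a
  have e : dbar10 α.f10 x = 0 := by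
    rw [← H469.cj1_cj1 α.f10, H469.dbar10_cj, cj11, c]
    ext
    simp
  simp [OneF.d, a, b, d, e] at hx

theorem t11 (hF : F ∈ HC X) : T11 F.f11 :=
  ⟨hF.1.s11, .intro hF.2.2 fun _ hx => (H332.eq_zero_of_notMem_supp2 hx).2.1⟩

theorem stokes (t : TO α) (hF : F.Smooth) : intX (wedge3 α F) = intX (α.d.wedge F) := by
  obtain ⟨K, hK, h0⟩ := t.out
  obtain ⟨h1, h2⟩ := integral_dA_wedge t.sm.c1 hF.c1 hK fun x hx => .inl (h0 x hx)
  have c := H332.hasCompactSupport_wedge F t.d.2.2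
  rw [H332.wedge_comm'] at c
  have i := H332.integrableX_of_smooth (H332.reg2_wedge t.d.1 hF) c
  have e : wedge3 α F = α.d.wedge F - fun x => α.d.wedge F x - wedge3 α F x := by
    ext
    simp
  rw [intX_eq_intV (e ▸ i.sub h1) (.intro hK fun x hx => by simp [wedge3, h0 x hx]),
    intX_eq_intV i c, e, intV_sub i h1, h2, sub_zero]

theorem shift (t : TO α) (hF : F ∈ HC X) (hG : G ∈ HC X) :
    intX ((F - α.d).wedge G) = intX (F.wedge G) := by
  obtain ⟨K, hK, h0⟩ := t.out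
  have e : (F - α.d).wedge G = fun x => F.wedge G x - α.d.wedge G x := by
    ext
    simp only [TwoF.wedge, TwoF.f20_sub, TwoF.f11_sub, TwoF.f02_sub, Pi.sub_apply, Matrix.sub_apply]
    ring
  rw [e, intX_sub (H332.reg2_wedge hF.1 hG.1) (H332.reg2_wedge t.d.1 hG.1)
    (H332.hasCompactSupport_wedge _ hG.2.2) (H332.hasCompactSupport_wedge _ hG.2.2),
    intX_dA_wedge t.sm.c1 hG.1.c1 hG.2.1 hK fun x hx => .inl (h0 x hx), sub_zero]

theorem pm_add (g g' : X → Mat) : pm h (g + g') = pm h g + pm h g' := by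
  ext x : 1
  simp only [pm, prim, Pi.add_apply, Matrix.mul_add, Matrix.trace_add, add_div, add_smul]
  abel

theorem pm_smul (c : ℂ) (g : X → Mat) : pm h (c • g) = c • pm h g := by
  ext x : 1
  simp only [pm, prim, Pi.smul_apply, Matrix.mul_smul, Matrix.trace_smul, smul_sub, smul_smul,
    smul_eq_mul, mul_div_assoc]

/-- test `(1,1)`-forms -/
def WT (I : IP h) : Submodule ℂ (X → Mat) where
  carrier := {g | T11 g}
  add_mem' := I.t_add _ _
  zero_mem' := I.t_zero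
  smul_mem' := I.t_smul

theorem TO.zero : TO (0 : OneF X) :=
  ⟨⟨(H469.S10 X).zero_mem, (H469.S01 X).zero_mem⟩, .zero, .zero⟩

theorem TO.smul (t : TO α) (c : ℂ) : TO (c • α) ∧ (c • α).d.f11 = c • α.d.f11 :=
  ⟨⟨⟨(H469.S10 X).smul_mem c t.sm.s10, (H469.S01 X).smul_mem c t.sm.s01⟩,
    t.c10.comp_left (g := (c • ·)) (smul_zero c), t.c01.comp_left (g := (c • ·)) (smul_zero c)⟩, by
    simp only [OneF.d, OneF.f10_smul, OneF.f01_smul, H469.del1_smul t.sm.s01,
      H469.dbar10_smul t.sm.s10, smul_add]⟩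

/-- primitive parts of exact forms -/
def RT (I : IP h) : Submodule ℂ (WT I) where
  carrier := {r | ∃ α, TO α ∧ r.1 = pm h α.d.f11}
  add_mem' := by
    rintro _ _ ⟨α, t, e⟩ ⟨β, t', e'⟩
    refine ⟨α + β, ⟨⟨(H469.S10 X).add_mem t.sm.s10 t'.sm.s10, (H469.S01 X).add_mem t.sm.s01
      t'.sm.s01⟩, t.c10.add t'.c10, t.c01.add t'.c01⟩, ?_⟩
    simp only [Submodule.coe_add, e, e', ← pm_add, OneF.d, OneF.f10_add, OneF.f01_add,
      H469.del1_add t.sm.s01 t'.sm.s01, H469.dbar10_add t.sm.s10 t'.sm.s10, add_add_add_comm]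
  zero_mem' := ⟨(0 : ℂ) • 0, (TO.zero.smul 0).1, by
    rw [(TO.zero.smul 0).2, pm_smul, zero_smul, Submodule.coe_zero]⟩
  smul_mem' := by
    rintro c _ ⟨α, t, e⟩
    exact ⟨c • α, (t.smul c).1, by rw [(t.smul c).2, pm_smul, Submodule.coe_smul, e]⟩

theorem wk_eq {b : X → Fin 2 → ℂ} (hb : T1 0 b) {g : X → Mat} (hg : T11 g) :
    TO ⟨0, b⟩ ∧ (intX fun x => b x 0 * del11 g x 1 - b x 1 * del11 g x 0) =
      intX fun x => wq (g x) (cj11 (OneF.d ⟨0, b⟩).f11 x) := by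
  have t : TO ⟨0, b⟩ := ⟨⟨(H469.S10 X).zero_mem, hb.1⟩, .zero, hb.2⟩
  refine ⟨t, Eq.trans ?_ ((stokes t (F := of11 g)
    ⟨(H469.S20 X).zero_mem, hg.1, (H469.S02 X).zero_mem⟩).trans ?_)⟩ <;> congr 1 <;> ext x
  · have : dbar0 1 (0 : X → ℂ) x = 0 := dbar0_zero
    simp [wedge3, H469.d21_eq, of11, this]
  · simp only [TwoF.wedge, of11, wq, cj11, Pi.zero_apply, Matrix.of_apply, map_neg,
      Complex.conj_conj]
    ring

theorem seq (I : IP h) (m : MIN) {w : X → Mat} (hw : T11 w) : ∃ α : ℕ → OneF X, (∀ k, TO (α k)) ∧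
    (∀ ε : ℝ, 0 < ε → ∃ N, ∀ k, N ≤ k → ∀ l, N ≤ l →
      n11 h (pm h (α k).d.f11 - pm h (α l).d.f11) ≤ ε) ∧
    (∀ β, TO β → Tendsto (fun k => ip11 h (w - pm h (α k).d.f11) (pm h β.d.f11)) atTop (𝓝 0)) ∧
    Tendsto (fun k => ip11 h (w - pm h (α k).d.f11) (pm h (α k).d.f11)) atTop (𝓝 0) := by
  obtain ⟨r, r1, r2, r3, r4⟩ := m (WT I) (fun a b => ip11 h a b)
    (fun a b c => I.ip_add _ _ _ a.2 b.2 c.2) (fun c a b => I.ip_smul c _ _ a.2 b.2)
    (fun a b => I.ip_symm _ _ a.2 b.2) (fun a => I.n_nonneg _ a.2) (RT I) ⟨w, hw⟩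
  choose α t e using r1
  simp only [Submodule.coe_sub, e] at r2 r3 r4
  exact ⟨α, t, r2, fun β o => r3 ⟨_, I.t_pm _ (t11 o.d)⟩ ⟨β, o, rfl⟩, r4⟩

theorem neg (I : IP h) {a b : X → Mat} (ha : T11 a) (hb : T11 b) :
    (intX fun x => -q11 (h x) (a x) (b x)) = -ip11 h a b :=
  intX_neg (I.reg11 a b ha.1 hb.1) (.intro ha.2 fun x hx => by
    simp [q11, image_eq_zero_of_notMem_tsupport hx])

theorem wk (A : ALG) (K : KD h) (I : IP h) {θ : ℕ → X → Mat} (ht : ∀ k, T11 (θ k))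
    (pr : ∀ k, Pr h (θ k))
    (r : ∀ β, TO β → Tendsto (fun k => ip11 h (θ k) (pm h β.d.f11)) atTop (𝓝 0)) :
    Wk θ ∧ Wk fun k => cj11 (θ k) := by
  have P := K.herm.posDef
  have wq1 : ∀ k x B, wq (θ k x) B = -q11 (h x) (θ k x) (prim (h x) B) := fun k x B => by
    rw [A.wq_eq _ _ _ (P x), pr k x, A.q_prim _ _ _ (P x) (pr k x), zero_mul, mul_zero, zero_sub]
  refine ⟨fun b hb => ?_, fun b hb => ?_⟩ <;> have t := (wk_eq hb I.t_zero).1
  · refine (neg_zero (G := ℂ) ▸ (r _ t.cj).neg).congr fun k => ?_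
    rw [(wk_eq hb (ht k)).2, ← neg I (ht k) (I.t_pm _ (t11 t.cj.d)), cj_d]
    simp only [wq1]
    rfl
  · have o := ((Complex.continuous_conj.tendsto 0).comp (r _ t)).neg
    rw [map_zero, neg_zero] at o
    refine o.congr fun k => ?_
    have s := I.t_pm _ (t11 t.d)
    rw [(wk_eq hb (I.t_cj _ (ht k))).2, Function.comp_apply, ← I.ip_symm _ _ (ht k) s,
      ← neg I s (ht k)]
    congr 1
    ext x
    rw [A.symm _ _ _ (P x), ← map_neg, pm, ← wq1]
    simp only [wq, cj11, Matrix.of_apply, map_neg, map_add, map_sub, map_mul, Complex.conj_conj]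
    ring

theorem low (A : ALG) (K : KD h) (I : IP h) {η : TwoF X} (hη : η ∈ HC X) (hr : η.Real) (t : TO α) :
    -n11 h (pm h (η - α.d).f11) ≤ (intX (η.wedge η)).re := by
  have G := (HC X).sub_mem hη t.d
  have G' := (HC X).sub_mem hη t.cj.d
  have s := I.t_pm _ (t11 G)
  rw [← shift t.cj hη hη, H332.wedge_comm', ← shift t hη G', n11, ← Complex.neg_re, ← neg I s s]
  refine I.mono _ _ ((H469.S22 X).neg_mem (I.reg11 _ _ s.1 s.1)) (H332.reg2_wedge G.1 G'.1)
    (.intro s.2 fun x hx => by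
      rw [image_eq_zero_of_notMem_tsupport hx]
      simp [q11])
    (H332.hasCompactSupport_wedge _ G'.2.2) fun x => ?_
  have c : η - (cjO α).d = cjF (η - α.d) := by
    rw [cj_d]
    ext y i j
    · simp [cjF, cj0, (hr y).1]
    · simp [cjF, cj11, (hr y).2 j i]
      ring
    · simp [cjF, cj0, (hr y).1]
  rw [c]
  generalize η - α.d = F
  have : F.wedge (cjF F) x = wq (F.f11 x) (F.f11 x) + (‖F.f20 x‖ ^ 2 + ‖F.f02 x‖ ^ 2 : ℝ) := by
    push_cast
    simp only [TwoF.wedge, cjF, cj0, cj11, wq, Matrix.of_apply, ← Complex.mul_conj']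
    ring
  rw [this, Complex.add_re, Complex.ofReal_re, Complex.neg_re]
  exact (A.wq_ge _ _ (K.herm.posDef x)).trans (le_add_of_nonneg_right (by positivity))

end Fn

open Fn

theorem fin (A : ALG) (K : KD h) (I : IP h) (g : GLO h) (m : MIN) : FIN X := by
  rintro η ⟨hη, hr⟩
  have hw := I.t_pm _ (t11 hη)
  obtain ⟨α, t, r2, r3, r4⟩ := seq I m hw
  have e : ∀ k, pm h (η - (α k).d).f11 = pm h η.f11 - pm h (α k).d.f11 := fun k => by
    rw [TwoF.f11_sub, sub_eq_add_neg η.f11, ← neg_one_smul ℂ, pm_add, pm_smul, neg_one_smul,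
      sub_eq_add_neg]
  have hs := fun k => I.t_pm _ (t11 (t k).d)
  have ht := fun k => I.t_sub _ _ hw (hs k)
  have pr : ∀ k, Pr h (pm h η.f11 - pm h (α k).d.f11) := fun k x =>
    e k ▸ A.prim_tr _ _ (K.herm.posDef x)
  have lo := fun k => e k ▸ low A K I hη hr (t k)
  have sq : Sq h fun k => pm h η.f11 - pm h (α k).d.f11 :=
    ⟨ht, pr, fun ε hε => (r2 ε hε).imp fun N o k hk l hl => by
      rw [sub_sub_sub_cancel_left]
      exact o l hl k hk, (wk A K I ht pr r3).1, (wk A K I ht pr r3).2⟩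
  obtain ⟨f, f1, f2, -⟩ := K.cut _ hη.2.2 1 one_pos
  have o : ∀ θ, ip11 h (mf f θ) (pm h η.f11) = ip11 h θ (pm h η.f11) := fun θ => by
    unfold ip11
    congr 1
    ext x
    by_cases hx : x ∈ supp2 η
    · simp [mf, f2 x hx]
    · simp [q11, pm, prim, (H332.eq_zero_of_notMem_supp2 hx).2.1]
  have lim := (squeeze_zero (fun k => sq_nonneg _) (fun k => I.cs _ _ (I.t_mf f _ f1 (ht k)) hw)
    (zero_mul (n11 h (pm h η.f11)) ▸ (g _ sq f f1).mul_const _)).sqrt
  simp only [Real.sqrt_sq (norm_nonneg _), Real.sqrt_zero, o,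
    ← tendsto_zero_iff_norm_tendsto_zero] at lim
  have l := (Complex.continuous_re.tendsto _).comp (r4.sub lim)
  rw [sub_zero, Complex.zero_re] at l
  refine le_of_tendsto' l fun k => Eq.trans_le ?_ (lo k)
  have := congrArg Complex.re (I.ip_add _ _ _ (ht k) (hs k) (ht k))
  rw [sub_add_cancel, I.ip_symm _ _ (ht k) hw, I.ip_symm _ _ (ht k) (hs k), Complex.add_re,
    Complex.conj_re, Complex.conj_re] at this
  rw [Function.comp_apply, Complex.sub_re, n11]
  linarith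

end Vale.Agent.P253Y.D
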