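import Vale.Agent.P253Y.D.Spec

/-!
# P253Y, block D: partition of unity and cut-off
-/

set_option linter.all false

open scoped Manifold ContDiff ComplexConjugate Matrix ComplexOrder Topology
open MeasureTheory Set Filter

noncomputable section

namespace Vale.Agent.P253Y.D

open Vale.Agent.P267 Vale.Agent.P267.FL
open Vale.Agent.P267.H469 (del11 cj11)

variable {X : Type} [TopologicalSpace X] [ChartedSpace C2 X] [IsManifold 𝓘(ℂ, C2) ω X] [T2Space X]
  [SigmaCompactSpace X] {h : X → Mat} {θ : ℕ → X → Mat} {f f' : X → ℝ}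

namespace Glo

theorem tf_zero : Tf (0 : X → ℝ) :=
  ⟨fun e _ => by rw [LB.loc0_zero]; exact contDiffOn_const (c := ((0 : ℝ) : ℂ)), HasCompactSupport.zero⟩

theorem tf_add (a : Tf f) (b : Tf f') : Tf (f + f') :=
  ⟨reg0_iff_at.2 fun x => by simpa using (a.1.at x).add (b.1.at x), a.2.add b.2⟩

theorem tf_rho (a : Tf f) (i : (pou X).ι) : Tf (f * (pou X).ρ i) :=
  ⟨by simpa using LB.reg0_zero_mul a.1 (reg0_rho _ i), a.2.mul_right⟩

theorem cj_add (a b : X → Mat) : cj11 (a + b) = cj11 a + cj11 b := by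
  funext x
  ext i j
  simp only [cj11, Pi.add_apply, Matrix.add_apply, Matrix.of_apply, map_add, neg_add]

theorem apx_zero (I : IP h) (s : Sq h θ) : Apx h θ 0 := fun ε hε => .of_forall fun k => by
  have e1 : del11 (0 : X → Mat) = 0 := by simpa using I.del_add 0 0 I.t_zero I.t_zero
  have e2 : ∀ g : X → Mat, wd 0 g = 0 := fun g => by simpa using I.wd_add 0 0 g tf_zero tf_zero
  have e3 : cj11 (0 : X → Mat) = 0 := by simpa using cj_add (0 : X → Mat) 0
  have e4 : mf 0 (θ k) = 0 := funext fun x => by simp [mf]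
  refine ⟨0, I.t_zero, fun x => by simp, ?_⟩
  simp [e1, e2, e3, e4, n11, ip11, n21, q11, q21, intX_zero, hε.le]

theorem apx_add (I : IP h) (s : Sq h θ) (a : Tf f) (b : Tf f') (ha : Apx h θ f)
    (hb : Apx h θ f') : Apx h θ (f + f') := fun ε hε => by
  filter_upwards [ha (ε / 4) (by positivity), hb (ε / 4) (by positivity)] with k
    ⟨y, y1, y2, y3, y4, y5⟩ ⟨z, z1, z2, z3, z4, z5⟩
  have key : ∀ y z g, T11 y → T11 z → T11 g → n21 h (del11 y - wd f g) ≤ ε / 4 →
      n21 h (del11 z - wd f' g) ≤ ε / 4 → n21 h (del11 (y + z) - wd (f + f') g) ≤ ε :=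
    fun y z g y1 z1 g1 y2 z2 => by
      rw [I.del_add y z y1 z1, I.wd_add f f' g a b, add_sub_add_comm]
      linarith [I.m_add _ _ (I.s_sub _ _ (I.t_del y y1) (I.t_wd f g a g1))
        (I.s_sub _ _ (I.t_del z z1) (I.t_wd f' g b g1))]
  have t := s.test k
  refine ⟨y + z, I.t_add y z y1 z1, fun x => ?_, ?_, key y z _ y1 z1 t y4 z4,
    cj_add y z ▸ key _ _ _ (I.t_cj y y1) (I.t_cj z z1) (I.t_cj _ t) y5 z5⟩
  · rw [Pi.add_apply, mul_add, Matrix.trace_add, y2 x, z2 x, add_zero]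
  · rw [show mf (f + f') (θ k) = mf f (θ k) + mf f' (θ k) from funext fun x => by
      simp [mf, add_smul], add_sub_add_comm]
    linarith [I.n_add _ _ (I.t_sub _ _ y1 (I.t_mf f _ a t)) (I.t_sub _ _ z1 (I.t_mf f' _ b t))]

theorem apx (I : IP h) (l : LOC h) (s : Sq h θ) (a : Tf f) : Apx h θ f := by
  classical
  obtain ⟨S, hS⟩ := Pou.exists_finset_one (pou X) a.2
  have key : ∀ S : Finset (pou X).ι, Tf (∑ i ∈ S, f * (pou X).ρ i) ∧
      Apx h θ (∑ i ∈ S, f * (pou X).ρ i) := fun S => by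
    induction S using Finset.induction with
    | empty => exact ⟨tf_zero, apx_zero I s⟩
    | insert i S hi ih =>
      rw [Finset.sum_insert hi]
      exact ⟨tf_add (tf_rho a i) ih.1, apx_add I s (tf_rho a i) ih.1 (l θ s _ ((pou X).mem i) _
        (tf_rho a i) (tsupport_mul_subset_right.trans ((pou X).sub i))) ih.2⟩
  have e : ∑ i ∈ S, f * (pou X).ρ i = f := funext fun x => by
    rw [← Finset.mul_sum, Pi.mul_apply, Finset.sum_apply]
    by_cases o : f x = 0
    · rw [o, zero_mul]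
    · rw [hS x (subset_tsupport f o), mul_one]
  exact e ▸ (key S).2

end Glo

open Glo in
/-- **GLO** -/
theorem glo (K : KD h) (I : IP h) (a : APR h) (l : LOC h) : GLO h := by
  intro θ s f hf
  obtain ⟨C, C0, hC⟩ := a f hf
  obtain ⟨D, D0, hD⟩ := I.n_mf f hf
  obtain ⟨N, hN⟩ := s.cau 1 one_pos
  set B := 2 + 2 * n11 h (θ N) with hB
  have B0 : 0 ≤ B := by linarith [I.n_nonneg _ (s.test N)]
  refine tendsto_order.2 ⟨fun b hb => .of_forall fun k =>
    hb.trans_le (I.n_nonneg _ (I.t_mf f _ hf (s.test k))), fun ε hε => ?_⟩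
  obtain ⟨δ, δ0, hδ⟩ := exists_pos_mul_lt hε (8 * C * (1 + B) + 2 * D)
  obtain ⟨χ, c1, c2, c3⟩ := K.cut _ hf.2 δ δ0
  filter_upwards [apx I l s c1 δ δ0, eventually_ge_atTop N] with k ⟨y, y1, y2, y3, y4, y5⟩ hk
  have t := s.test k
  have b1 : n11 h (θ k) ≤ B := by
    have := I.n_add _ _ (I.t_sub _ _ t (s.test N)) (s.test N)
    rw [sub_add_cancel] at this
    linarith [hN k hk N le_rfl]
  have key : ∀ y g, T11 y → T11 g → n11 h g ≤ B → n21 h (del11 y - wd χ g) ≤ δ →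
      n21 h (del11 y) ≤ 2 * δ * (1 + B) := fun y g y1 g1 g2 y2 => by
    have := I.m_add _ _ (I.s_sub _ _ (I.t_del y y1) (I.t_wd χ g c1 g1)) (I.t_wd χ g c1 g1)
    rw [sub_add_cancel] at this
    linarith [(I.m_wd χ δ g c1 c3 g1).trans (mul_le_mul_of_nonneg_left g2 δ0.le)]
  have b2 := (hC y y1 y2).trans (mul_le_mul_of_nonneg_left (add_le_add (key y _ y1 t b1 y4)
    (key _ _ (I.t_cj y y1) (I.t_cj _ t) ((I.n_cj _).trans_le b1) y5)) C0)
  have t2 := I.t_sub _ _ (I.t_mf χ _ c1 t) y1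
  have b3 := (hD _ t2).trans (mul_le_mul_of_nonneg_left (neg_sub y _ ▸ (I.n_neg _).trans_le y3) D0)
  have b4 := I.n_add _ _ (I.t_mf f y hf y1) (I.t_mf f _ hf t2)
  have e : mf f y + mf f (mf χ (θ k) - y) = mf f (θ k) := funext fun x => by
    by_cases o : f x = 0
    · simp [mf, o]
    · simp [mf, c2 x (subset_tsupport f o), smul_sub]
  rw [e] at b4
  linarith

end Vale.Agent.P253Y.D
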