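import Vale.Agent.P253Y.D.Spec

/-!
# P253Y, block D: test forms and `L²` products
-/

set_option linter.unusedSectionVars false

open scoped Manifold ContDiff ComplexConjugate Matrix ComplexOrder Topology
open MeasureTheory Set Filter

noncomputable section

namespace Vale.Agent.P253Y.D

open Vale.Agent.P267 Vale.Agent.P267.FL
open Vale.Agent.P267.H469 (del11 cj11)

namespace IpA

/-! ### algebra at a point -/

theorem q11_add (H A B C : Mat) : q11 H (A + B) C = q11 H A C + q11 H B C := by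
  simp only [q11, mul_add, add_mul, Matrix.trace_add]

theorem q11_add' (H A B C : Mat) : q11 H A (B + C) = q11 H A B + q11 H A C := by
  simp only [q11, Matrix.conjTranspose_add, mul_add, Matrix.trace_add]

theorem q11_smul (c : ℂ) (H A B : Mat) : q11 H (c • A) B = c * q11 H A B := by
  simp only [q11, Matrix.mul_smul, Matrix.smul_mul, Matrix.trace_smul, smul_eq_mul]
  ring

theorem q11_smul' (c : ℂ) (H A B : Mat) : q11 H A (c • B) = conj c * q11 H A B := by
  simp only [q11, Matrix.conjTranspose_smul, Matrix.mul_smul, Matrix.trace_smul, smul_eq_mul,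
    Complex.star_def]
  ring

theorem q11_zero (H B : Mat) : q11 H 0 B = 0 := by simp [q11]

theorem q11_neg (H A : Mat) : q11 H (-A) (-A) = q11 H A A := by simp [q11]

theorem q11_par (H A B : Mat) : q11 H (A + B) (A + B) + q11 H (A + (-1 : ℂ) • B) (A + (-1 : ℂ) • B) =
    2 * q11 H A A + 2 * q11 H B B := by
  simp only [q11_add, q11_add', q11_smul, q11_smul', map_neg, map_one]
  ring

theorem q21_zero (H : Mat) (s : Fin 2 → ℂ) : q21 H 0 s = 0 := by simp [q21]

theorem q21_par (H : Mat) (t s : Fin 2 → ℂ) :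
    q21 H (t + s) (t + s) + q21 H (t - s) (t - s) = 2 * q21 H t t + 2 * q21 H s s := by
  simp only [q21, Fin.sum_univ_two, Pi.add_apply, Pi.sub_apply, map_add, map_sub]
  ring

theorem re_le {a b c : ℂ} (h : a + b = c) (hb : 0 ≤ b) : a.re ≤ c.re := by
  rw [← h, Complex.add_re]
  exact le_add_of_nonneg_right (Complex.nonneg_iff.1 hb).1

theorem pb_pos {J H : Mat} (hJ : J.det ≠ 0) (hH : H.PosDef) : (pb J H).PosDef := by
  have h1 : (J.map conj).det = conj J.det := by
    simp only [Matrix.det_fin_two, Matrix.map_apply, map_sub, map_mul]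
  have h2 : IsUnit (J.map conj) :=
    (Matrix.isUnit_iff_isUnit_det _).2 (by rw [h1]; exact ((map_ne_zero _).2 hJ).isUnit)
  have h3 : (J.map conj)ᴴ = Jᵀ := by
    ext i j
    simp
  have h4 := hH.conjTranspose_mul_mul_same (Matrix.mulVec_injective_iff_isUnit.2 h2)
  rwa [h3] at h4

/-- the form `μ ∧ conj μ` -/
def sq (μ : Fin 2 → ℂ) : Mat := Matrix.of fun j k => μ j * conj (μ k)

theorem gr_pt (A : ALG) {H : Mat} (hH : H.PosDef) (μ : Fin 2 → ℂ) {ε : ℝ}
    (h : ‖(H⁻¹ * sq μ).trace‖ ≤ ε) : ((ε : ℂ) • H - sq μ).PosSemidef := by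
  have hd : H.det ≠ 0 := hH.det_pos.ne'
  have h1 : (H⁻¹ * sq μ).trace = q21 H (fun i => conj (μ i)) (fun i => conj (μ i)) := by
    simp only [q21, sq, Matrix.trace_fin_two, Matrix.mul_apply, Fin.sum_univ_two, Matrix.of_apply,
      Complex.conj_conj]
    ring
  have h2 : 0 ≤ (H⁻¹ * sq μ).trace := h1 ▸ A.nonneg' H _ hH
  have h3 : (H⁻¹ * sq μ).trace • H - sq μ = (H.det)⁻¹ • (H *
      Matrix.vecMulVec ![conj (μ 1), -conj (μ 0)] (star ![conj (μ 1), -conj (μ 0)]) * H) := by
    rw [H469.trinv]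
    have h4 := Matrix.det_fin_two H
    generalize H.det = d at hd h4
    ext i j
    simp only [Matrix.sub_apply, Matrix.smul_apply, Matrix.mul_apply, Matrix.vecMulVec_apply,
      Fin.sum_univ_two, sq, Matrix.of_apply, smul_eq_mul, Pi.star_apply, Matrix.cons_val_zero,
      Matrix.cons_val_one, map_neg, Complex.star_def, Complex.conj_conj]
    field_simp
    rw [h4]
    fin_cases i <;> fin_cases j <;> simp only [Fin.zero_eta, Fin.mk_one, Fin.isValue] <;> ring
  have h4 := (Matrix.posSemidef_vecMulVec_self_star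
    ![conj (μ 1), -conj (μ 0)]).conjTranspose_mul_mul_same H
  rw [hH.1.eq] at h4
  have h5 := h4.smul (inv_nonneg.2 hH.det_pos.le)
  rw [← h3] at h5
  have h6 : 0 ≤ (ε : ℂ) - (H⁻¹ * sq μ).trace := by
    rw [sub_nonneg, Complex.le_def]
    exact ⟨(Complex.re_le_norm _).trans h, by simpa using (Complex.nonneg_iff.1 h2).2.symm⟩
  have h7 := (hH.posSemidef.smul h6).add h5
  rwa [sub_smul, sub_add_sub_cancel] at h7

/-! ### smooth matrix valued functions -/

/-- smooth entries -/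
def Sm (U : Set C2) (G : C2 → Mat) : Prop := ∀ i j, ContDiffOn ℝ ∞ (fun z => G z i j) U

variable {U : Set C2} {G G' : C2 → Mat}

theorem Sm.mul (h : Sm U G) (h' : Sm U G') : Sm U fun z => G z * G' z := fun i j => by
  simp only [Matrix.mul_apply, Fin.sum_univ_two]
  exact ((h i 0).mul (h' 0 j)).add ((h i 1).mul (h' 1 j))

theorem Sm.ct (h : Sm U G) : Sm U fun z => (G z)ᴴ := fun i j => H469.conj_contDiffOn (h j i)

theorem Sm.det (h : Sm U G) : ContDiffOn ℝ ∞ (fun z => (G z).det) U := by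
  simp only [Matrix.det_fin_two]
  exact ((h 0 0).mul (h 1 1)).sub ((h 0 1).mul (h 1 0))

theorem Sm.trace (h : Sm U G) : ContDiffOn ℝ ∞ (fun z => (G z).trace) U := by
  simp only [Matrix.trace_fin_two]
  exact (h 0 0).add (h 1 1)

theorem Sm.inv (h : Sm U G) (hd : ∀ z ∈ U, (G z).det ≠ 0) : Sm U fun z => (G z)⁻¹ := fun i j => by
  simp only [Matrix.inv_def, Ring.inverse_eq_inv', Matrix.smul_apply, smul_eq_mul,
    Matrix.adjugate_fin_two]
  refine (h.det.inv hd).mul ?_
  fin_cases i <;> fin_cases j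
  · simpa using h 1 1
  · simpa using (h 0 1).neg
  · simpa using (h 1 0).neg
  · simpa using h 0 0

/-! ### charts -/

variable {X : Type} [TopologicalSpace X] [ChartedSpace C2 X] {h : X → Mat}

theorem cs_of {α β : Type} [Zero α] [Zero β] {f : X → α} {g : X → β} (hf : HasCompactSupport f)
    (h0 : ∀ x, f x = 0 → g x = 0) : HasCompactSupport g :=
  hf.mono fun x hx h1 => hx (h0 x h1)

theorem ev_chart {α : Type} [Zero α] {f : X → α} {x : X} (hx : x ∉ tsupport f) :
    ∀ᶠ z in 𝓝 (chartAt C2 x x), f ((chartAt C2 x).symm z) = 0 := by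
  have h1 := (chartAt C2 x).continuousAt_symm (mem_chart_target C2 x)
  rw [ContinuousAt, (chartAt C2 x).left_inv (mem_chart_source C2 x)] at h1
  exact h1.eventually (notMem_tsupport_iff_eventuallyEq.1 hx)

theorem loc11_pb (e : Ch X) (g : X → Mat) (z : C2) :
    loc11 e g z = pb (jac e (e.symm z)) (g (e.symm z)) := H469.loc11_mat e g z

theorem loc1_one (e : Ch X) (t : X → Fin 2 → ℂ) (z : C2) : loc1 1 e t z = fun i =>
    (jac e (e.symm z)).det * ∑ p, conj (jac e (e.symm z) p i) * t (e.symm z) p := by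
  funext i
  simp only [loc1, zpow_one, smul_eq_mul]

theorem loc2_one (e : Ch X) (b : X → ℂ) (z : C2) :
    loc2 1 e b z = (jac e (e.symm z)).det * conj (jac e (e.symm z)).det * b (e.symm z) := by
  simp only [loc2, zpow_one, smul_eq_mul, mul_assoc]

theorem loc11_fmul (e : Ch X) (φ : X → ℂ) (g : X → Mat) (z : C2) (i j : Fin 2) :
    loc11 e (fun x => φ x • g x) z i j = φ (e.symm z) * loc11 e g z i j := by
  simp only [loc11, Matrix.of_apply, Matrix.smul_apply, Fin.sum_univ_two, smul_eq_mul]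
  ring

theorem loc11_sq (e : Ch X) (μ : X → Fin 2 → ℂ) (z : C2) (i j : Fin 2) :
    loc11 e (fun x => sq (μ x)) z i j = loc10 e μ z i * conj (loc10 e μ z j) := by
  simp only [loc11, loc10, sq, Matrix.of_apply, Fin.sum_univ_two, smul_eq_mul, map_add, map_mul]
  ring

theorem loc1_wf (e : Ch X) (μ : X → Fin 2 → ℂ) (g : X → Mat) (z : C2) (j : Fin 2) :
    loc1 1 e (fun x => wf (μ x) (g x)) z j =
      loc10 e μ z 0 * loc11 e g z 1 j - loc10 e μ z 1 * loc11 e g z 0 j := by
  simp only [loc1, loc10, loc11, wf, Matrix.of_apply, Fin.sum_univ_two, zpow_one, smul_eq_mul,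
    Matrix.det_fin_two]
  ring

variable [IsManifold 𝓘(ℂ, C2) ω X] [T2Space X]

theorem cont0 {φ : X → ℂ} (hφ : Reg0 ∞ 0 φ) : Continuous φ := by
  refine continuous_iff_continuousAt.2 fun x => ?_
  have h1 := ((H469.r0comp hφ (chart_mem_atlas C2 x)).continuousOn.continuousAt
    (H469.near_target x)).comp ((chartAt C2 x).continuousAt (mem_chart_source C2 x))
  refine h1.congr ?_
  filter_upwards [(chartAt C2 x).open_source.mem_nhds (mem_chart_source C2 x)] with y hy
  simp only [Function.comp, (chartAt C2 x).left_inv hy]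

theorem bdd0 {φ : X → ℂ} (hφ : Reg0 ∞ 0 φ) (hc : HasCompactSupport φ) :
    ∃ C : ℝ, 0 ≤ C ∧ ∀ x, ‖φ x‖ ≤ C := by
  obtain ⟨C, hC⟩ := (cont0 hφ).bounded_above_of_compact_support hc
  exact ⟨max C 0, le_max_right _ _, fun x => (hC x).trans (le_max_left _ _)⟩

theorem loc11q (A : ALG) (h g g' : X → Mat) {e : Ch X} (he : e ∈ atlas C2 X) {z : C2}
    (hz : z ∈ e.target) : loc2 1 e (fun x => q11 (h x) (g x) (g' x)) z =
      q11 (loc11 e h z) (loc11 e g z) (loc11 e g' z) := by
  rw [loc2_one, loc11_pb, loc11_pb, loc11_pb,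
    A.cov11 _ _ _ _ (jac_det_ne_zero he (e.map_target hz))]

theorem loc21q (A : ALG) (h : X → Mat) (t s : X → Fin 2 → ℂ) {e : Ch X} (he : e ∈ atlas C2 X)
    {z : C2} (hz : z ∈ e.target) : loc2 1 e (fun x => q21 (h x) (t x) (s x)) z =
      q21 (loc11 e h z) (loc1 1 e t z) (loc1 1 e s z) := by
  rw [loc2_one, loc11_pb, loc1_one, loc1_one,
    A.cov21 _ _ _ _ (jac_det_ne_zero he (e.map_target hz))]

theorem sm_inv (hh : IsHerm h) {e : Ch X} (he : e ∈ atlas C2 X) :
    Sm e.target fun z => (loc11 e h z)⁻¹ :=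
  Sm.inv (hh.smooth e he) fun _ hz => H469.det_loc11_ne hh.posDef he hz

theorem reg11 (A : ALG) (hh : IsHerm h) {g g' : X → Mat} (hg : Reg11 ∞ g) (hg' : Reg11 ∞ g') :
    Reg2 ∞ 1 fun x => q11 (h x) (g x) (g' x) := fun e he => by
  refine ContDiffOn.congr ?_ fun z hz => loc11q A h g g' he hz
  exact (Sm.det (hh.smooth e he)).mul
    ((((sm_inv hh he).mul (hg e he)).mul (sm_inv hh he)).mul (Sm.ct (hg' e he))).trace

theorem reg21 (A : ALG) (hh : IsHerm h) {t s : X → Fin 2 → ℂ} (ht : Reg1 ∞ 1 t)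
    (hs : Reg1 ∞ 1 s) : Reg2 ∞ 1 fun x => q21 (h x) (t x) (s x) := fun e he => by
  refine ContDiffOn.congr ?_ fun z hz => loc21q A h t s he hz
  exact ContDiffOn.sum fun k _ => ContDiffOn.sum fun l _ => (sm_inv hh he k l).mul
    ((contDiffOn_pi.1 (ht e he) k).mul (H469.conj_contDiffOn (contDiffOn_pi.1 (hs e he) l)))

/-! ### test forms -/

variable {g g' a b c : X → Mat} {f f' : X → ℝ} {t s : X → Fin 2 → ℂ}

theorem r_add (hg : Reg11 ∞ g) (hg' : Reg11 ∞ g') : Reg11 ∞ (g + g') := fun e he i j =>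
  ((hg e he i j).add (hg' e he i j)).congr fun z _ => H469.loc11_add e z g g' i j

theorem r_fmul {φ : X → ℂ} (hφ : Reg0 ∞ 0 φ) (hg : Reg11 ∞ g) : Reg11 ∞ fun x => φ x • g x :=
  fun e he i j => ((H469.r0comp hφ he).mul (hg e he i j)).congr fun z _ => loc11_fmul e φ g z i j

theorem r_smul (c : ℂ) (hg : Reg11 ∞ g) : Reg11 ∞ (c • g) := fun e he i j =>
  ((hg e he i j).const_smul c).congr fun z _ => H469.loc11_smul e z c g i j

theorem t_add (hg : T11 g) (hg' : T11 g') : T11 (g + g') := ⟨r_add hg.1 hg'.1, hg.2.add hg'.2⟩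

theorem t_smul (c : ℂ) (hg : T11 g) : T11 (c • g) :=
  ⟨r_smul c hg.1, cs_of hg.2 fun x hx => by simp [hx]⟩

theorem t_sub (hg : T11 g) (hg' : T11 g') : T11 (g - g') := by
  have := t_add hg (t_smul (-1) hg')
  rwa [neg_one_smul, ← sub_eq_add_neg] at this

theorem t_zero : T11 (0 : X → Mat) :=
  ⟨fun e _ i j => (contDiffOn_const (c := (0 : ℂ))).congr fun z _ => by simp [loc11],
    HasCompactSupport.zero⟩

theorem t_mf (hf : Tf f) (hg : T11 g) : T11 (mf f g) :=
  ⟨r_fmul hf.1 hg.1, cs_of hg.2 fun x hx => by simp [mf, hx]⟩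

theorem t_cj (hg : T11 g) : T11 (cj11 g) :=
  ⟨H469.r11cj hg.1, cs_of hg.2 fun x hx => by ext i j; simp [cj11, hx]⟩

theorem t_pm (hh : IsHerm h) (hg : T11 g) : T11 (pm h g) := by
  refine ⟨?_, cs_of hg.2 fun x hx => by simp [pm, prim, hx]⟩
  have h1 := r_add hg.1 (r_smul (-1 / 2) (r_fmul (H469.reg_trh hh hg.1) hh.smooth))
  have h2 : pm h g = g + (-1 / 2 : ℂ) • fun x => trh h g x • h x := by
    funext x
    simp only [pm, prim, trh, Pi.add_apply, Pi.smul_apply]
    module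
  rwa [h2]

theorem t_del (hg : T11 g) : T1 1 (del11 g) := by
  refine ⟨H469.reg_del11 hg.1, HasCompactSupport.intro hg.2 fun x hx => ?_⟩
  have h1 : ∀ i j, (fun z => loc11 (chartAt C2 x) g z i j) =ᶠ[𝓝 (chartAt C2 x x)] fun _ => 0 :=
    fun i j => (ev_chart hx).mono fun z hz => by simp [loc11, hz]
  funext j
  simp only [del11, H469.dz_congr (h1 _ _), H469.dz_const, sub_zero, Pi.zero_apply]

theorem t_wd (hf : Tf f) (hg : T11 g) : T1 1 (wd f g) := by
  refine ⟨fun e he => contDiffOn_pi.2 fun j => ?_,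
    cs_of hg.2 fun x hx => by funext j; simp [wd, wf, hx]⟩
  have h1 := contDiffOn_pi.1 (H469.reg_del0 hf.1 e he)
  exact (((h1 0).mul (hg.1 e he 1 j)).sub ((h1 1).mul (hg.1 e he 0 j))).congr
    fun z _ => loc1_wf e _ g z j

theorem s_add (ht : T1 1 t) (hs : T1 1 s) : T1 1 (t + s) :=
  ⟨fun e he => ((ht.1 e he).add (hs.1 e he)).congr fun z _ =>
    funext fun i => H469.loc1_add e z 1 t s i, ht.2.add hs.2⟩

theorem s_sub (ht : T1 1 t) (hs : T1 1 s) : T1 1 (t - s) := by
  have := s_add (s := (-1 : ℂ) • s) ht ⟨fun e he => ((hs.1 e he).const_smul (-1 : ℂ)).congr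
    fun z _ => funext fun i => H469.loc1_smul e z (-1) 1 s i, cs_of hs.2 fun x hx => by simp [hx]⟩
  rwa [neg_one_smul, ← sub_eq_add_neg] at this

theorem del_mf (hf : Tf f) (hg : T11 g) :
    del11 (mf f g) = wd f g + fun x => (f x : ℂ) • del11 g x := by
  funext x j
  have h1 : ∀ i, (fun z => loc11 (chartAt C2 x) (mf f g) z i j) = fun z =>
      (f ((chartAt C2 x).symm z) : ℂ) * loc11 (chartAt C2 x) g z i j := fun i =>
    funext fun z => loc11_fmul _ (fun y => (f y : ℂ)) g z i j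
  have h2 : DifferentiableAt ℝ (fun z => (f ((chartAt C2 x).symm z) : ℂ)) (chartAt C2 x x) :=
    ((H469.r0comp hf.1 (chart_mem_atlas C2 x)).contDiffAt (H469.near_target x)).differentiableAt
      (by simp)
  have h3 := loc11_chartAt g x (jac_chartAt x)
  simp only [del11, h1, dz_mul h2 (H469.d11at hg.1 x _ _), h3, wd, wf, del0, Pi.add_apply,
    Pi.smul_apply, smul_eq_mul, (chartAt C2 x).left_inv (mem_chart_source C2 x)]
  ring

theorem wd_add (hf : Tf f) (hf' : Tf f') : wd (f + f') g = wd f g + wd f' g := by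
  have h1 : (fun y => ((f + f') y : ℂ)) = (fun y => (f y : ℂ)) + fun y => (f' y : ℂ) := by
    funext y
    simp
  funext x j
  unfold wd
  rw [h1, H469.del0_add hf.1 hf'.1]
  simp only [wf, Pi.add_apply]
  ring

theorem gr (A : ALG) (hh : IsHerm h) (hf : Tf f) : ∃ ε : ℝ, 0 ≤ ε ∧ Gr h f ε := by
  have h1 : Reg11 ∞ fun x => sq (del0 (fun y => (f y : ℂ)) x) := fun e he i j => by
    have h2 := contDiffOn_pi.1 (H469.reg_del0 hf.1 e he)
    exact ((h2 i).mul (H469.conj_contDiffOn (h2 j))).congr fun z _ => loc11_sq e _ z i j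
  obtain ⟨C, hC, h2⟩ := bdd0 (H469.reg_trh hh h1) (HasCompactSupport.intro hf.2 fun x hx => by
    have h3 : (fun z => (f ((chartAt C2 x).symm z) : ℂ)) =ᶠ[𝓝 (chartAt C2 x x)] fun _ => 0 :=
      (ev_chart hx).mono fun z hz => by simp [hz]
    have h4 : sq (del0 (fun y => (f y : ℂ)) x) = 0 := by
      ext i j
      simp only [sq, del0, Matrix.of_apply, H469.dz_congr h3, H469.dz_const, zero_mul,
        Matrix.zero_apply]
    simp only [trh, h4, mul_zero, Matrix.trace_zero])
  exact ⟨C, hC, fun x => gr_pt A (hh.posDef x) _ (h2 x)⟩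

/-! ### integrals -/

variable [SigmaCompactSpace X]

theorem mono {a b : X → ℂ} (ha : Reg2 ∞ 1 a) (hb : Reg2 ∞ 1 b) (ca : HasCompactSupport a)
    (cb : HasCompactSupport b) (hab : ∀ x, (a x).re ≤ (b x).re) : (intX a).re ≤ (intX b).re := by
  have r1 : Reg2 ∞ 1 fun x => b x - a x := by
    simpa [sub_eq_add_neg] using hb.add (ha.const_smul (-1))
  have c1 : HasCompactSupport fun x => b x - a x := cb.sub ca
  have c2 : HasCompactSupport fun x => conj (b x - a x) := cs_of c1 fun x hx => by simp [hx]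
  have r2 := r1.add (reg2_conj r1)
  have e1 : (fun x => (((b x - a x).re : ℝ) : ℂ)) =
      fun x => (1 / 2 : ℂ) * ((b x - a x) + conj (b x - a x)) := by
    funext x
    rw [Complex.add_conj]
    push_cast
    ring
  have h1 := intX_re_nonneg (β := fun x => (b x - a x).re)
    (by rw [e1]; exact (r2.const_smul (1 / 2)).zero_order) (cs_of c1 fun x hx => by simp [hx])
    fun x => by simpa using hab x
  rw [e1, intX_const_mul _ r2 (c1.add c2), intX_add r1 (reg2_conj r1) c1 c2, intX_conj r1 c1,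
    intX_sub hb ha cb ca, Complex.add_conj] at h1
  simp at h1
  linarith

theorem nonneg {b : X → ℂ} (hb : Reg2 ∞ 1 b) (cb : HasCompactSupport b) (h0 : ∀ x, 0 ≤ b x) :
    0 ≤ (intX b).re := by
  have := mono (a := fun _ => 0) (by simpa using hb.const_smul 0) hb HasCompactSupport.zero cb
    fun x => (Complex.nonneg_iff.1 (h0 x)).1
  rwa [intX_zero] at this

theorem mono_mul {a b : X → ℂ} (ha : Reg2 ∞ 1 a) (hb : Reg2 ∞ 1 b) (ca : HasCompactSupport a)
    (cb : HasCompactSupport b) {C : ℝ} (hab : ∀ x, (a x).re ≤ C * (b x).re) :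
    (intX a).re ≤ C * (intX b).re := by
  have := mono (b := fun x => (C : ℂ) * b x) ha (hb.const_smul C) ca
    (cs_of cb fun x hx => by simp [hx]) fun x => by simpa using hab x
  rwa [intX_const_mul _ hb cb, Complex.re_ofReal_mul] at this

theorem mono_two {a b c : X → ℂ} (ha : Reg2 ∞ 1 a) (hb : Reg2 ∞ 1 b) (hc : Reg2 ∞ 1 c)
    (ca : HasCompactSupport a) (cb : HasCompactSupport b) (cc : HasCompactSupport c)
    (hab : ∀ x, (a x).re ≤ (2 * b x + 2 * c x).re) :
    (intX a).re ≤ 2 * (intX b).re + 2 * (intX c).re := by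
  have := mono_mul (C := 2) ha (hb.add hc) ca (cb.add cc) fun x => by
    simpa [mul_add] using hab x
  rwa [intX_add hb hc cb cc, Complex.add_re, mul_add] at this

theorem cq (hg : T11 g) (g' : X → Mat) : HasCompactSupport fun x => q11 (h x) (g x) (g' x) :=
  cs_of hg.2 fun x hx => by rw [hx, q11_zero]

theorem cq' (ht : T1 1 t) : HasCompactSupport fun x => q21 (h x) (t x) (t x) :=
  cs_of ht.2 fun x hx => by rw [hx, q21_zero]

variable (A : ALG) (hh : IsHerm h)
include A hh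

theorem ip_add (ha : T11 a) (hb : T11 b) (hc : T11 c) :
    ip11 h (a + b) c = ip11 h a c + ip11 h b c := by
  simp only [ip11, Pi.add_apply, q11_add]
  exact intX_add (reg11 A hh ha.1 hc.1) (reg11 A hh hb.1 hc.1) (cq ha c) (cq hb c)

theorem ip_smul (c : ℂ) (ha : T11 a) (hb : T11 b) : ip11 h (c • a) b = c * ip11 h a b := by
  simp only [ip11, Pi.smul_apply, q11_smul]
  exact intX_const_mul c (reg11 A hh ha.1 hb.1) (cq ha b)

theorem ip_symm (ha : T11 a) (hb : T11 b) : ip11 h b a = conj (ip11 h a b) := by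
  rw [ip11, ip11, ← intX_conj (reg11 A hh ha.1 hb.1) (cq ha b)]
  exact congrArg intX (funext fun x => A.symm _ _ _ (hh.posDef x))

theorem n_nonneg (ha : T11 a) : 0 ≤ n11 h a :=
  nonneg (reg11 A hh ha.1 ha.1) (cq ha a) fun x => A.nonneg _ _ (hh.posDef x)

theorem cs (ha : T11 a) (hb : T11 b) : ‖ip11 h a b‖ ^ 2 ≤ n11 h a * n11 h b := by
  have na := n_nonneg A hh ha
  have nb := n_nonneg A hh hb
  have key : ∀ r : ℝ, 0 ≤ ‖ip11 h a b‖ ^ 2 * n11 h b * (r * r) + 2 * ‖ip11 h a b‖ ^ 2 * r +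
      n11 h a := fun r => by
    have hc := t_smul (r * ip11 h a b) hb
    have h1 := n_nonneg A hh (t_add ha hc)
    rw [n11, ip_add A hh ha hc (t_add ha hc), ip_smul A hh _ hb (t_add ha hc),
      ip_symm A hh (t_add ha hc) ha, ip_symm A hh (t_add ha hc) hb, ip_add A hh ha hc ha,
      ip_add A hh ha hc hb, ip_smul A hh _ hb ha, ip_smul A hh _ hb hb, ip_symm A hh ha hb] at h1
    have h2 : (ip11 h b b).im = 0 := Complex.conj_eq_iff_im.1 (ip_symm A hh hb hb).symm
    rw [n11, n11, Complex.sq_norm, Complex.normSq_apply]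
    generalize ip11 h a a = p at h1 ⊢
    generalize ip11 h a b = q at h1 ⊢
    generalize ip11 h b b = w at h1 h2 ⊢
    simp [h2] at h1
    linarith
  have h1 := discrim_le_zero key
  rw [discrim] at h1
  clear key
  generalize n11 h a = p at *
  generalize n11 h b = w at *
  rcases (sq_nonneg ‖ip11 h a b‖).eq_or_lt with h2 | h2
  · rw [← h2]
    positivity
  · refine le_of_mul_le_mul_left ?_ h2
    linarith

theorem n_mf (hf : Tf f) : ∃ C : ℝ, 0 ≤ C ∧ ∀ a, T11 a → n11 h (mf f a) ≤ C * n11 h a := by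
  obtain ⟨C, hC, h1⟩ := bdd0 hf.1 (cs_of hf.2 fun x hx => by simp [hx])
  refine ⟨C ^ 2, by positivity, fun a ha => ?_⟩
  have h2 := t_mf hf ha
  refine mono_mul (reg11 A hh h2.1 h2.1) (reg11 A hh ha.1 ha.1) (cq h2 _) (cq ha a) fun x => ?_
  have h3 := (Complex.nonneg_iff.1 (A.nonneg _ (a x) (hh.posDef x))).1
  have h4 : f x * f x ≤ C ^ 2 := by
    have h5 : |f x| ≤ C := by simpa using h1 x
    nlinarith [abs_nonneg (f x), abs_mul_abs_self (f x)]
  simp only [mf, q11_smul, q11_smul', Complex.conj_ofReal, Complex.re_ofReal_mul]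
  nlinarith

end IpA

open IpA in
theorem ip {X : Type} [TopologicalSpace X] [ChartedSpace C2 X] [IsManifold 𝓘(ℂ, C2) ω X]
    [T2Space X] [SigmaCompactSpace X] {h : X → Mat} (A : ALG) (hh : IsHerm h) : IP h where
  loc11q g g' _ he _ hz := loc11q A h g g' he hz
  loc21q t s _ he _ hz := loc21q A h t s he hz
  posDef e he z hz := by
    rw [loc11_pb]
    exact pb_pos (jac_det_ne_zero he (e.map_target hz)) (hh.posDef _)
  reg11 _ _ := reg11 A hh
  reg21 _ _ := reg21 A hh
  mono _ _ := mono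
  t_zero := t_zero
  t_add _ _ := t_add
  t_sub _ _ := t_sub
  t_smul c _ := t_smul c
  t_mf _ _ := t_mf
  t_cj _ := t_cj
  t_pm _ := t_pm hh
  t_del _ := t_del
  t_wd _ _ := t_wd
  s_add _ _ := s_add
  s_sub _ _ := s_sub
  del_add _ _ hg hg' := H469.del11_add hg.1 hg'.1
  del_mf _ _ := del_mf
  wd_add _ _ _ := wd_add
  ip_add _ _ _ := ip_add A hh
  ip_smul c _ _ := ip_smul A hh c
  ip_symm _ _ := ip_symm A hh
  n_nonneg _ := n_nonneg A hh
  cs _ _ := cs A hh
  n_add a b ha hb := mono_two (reg11 A hh (t_add ha hb).1 (t_add ha hb).1) (reg11 A hh ha.1 ha.1)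
    (reg11 A hh hb.1 hb.1) (cq (t_add ha hb) _) (cq ha a) (cq hb b) fun x =>
      re_le (q11_par (h x) (a x) (b x)) (A.nonneg _ _ (hh.posDef x))
  n_neg a := by simp only [n11, ip11, Pi.neg_apply, q11_neg]
  n_cj a := congrArg (fun b => (intX b).re) (funext fun x => A.q_cj _ (a x) (hh.posDef x))
  n_mf _ := n_mf A hh
  m_nonneg t ht := nonneg (reg21 A hh ht.1 ht.1) (cq' ht) fun x => A.nonneg' _ _ (hh.posDef x)
  m_add t s ht hs := mono_two (reg21 A hh (s_add ht hs).1 (s_add ht hs).1) (reg21 A hh ht.1 ht.1)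
    (reg21 A hh hs.1 hs.1) (cq' (s_add ht hs)) (cq' ht) (cq' hs) fun x =>
      re_le (q21_par (h x) (t x) (s x)) (A.nonneg' _ _ (hh.posDef x))
  m_wd f ε a hf hg ha := mono_mul (reg21 A hh (t_wd hf ha).1 (t_wd hf ha).1)
    (reg11 A hh ha.1 ha.1) (cq' (t_wd hf ha)) (cq ha a) fun x =>
      A.wf_le _ _ _ ε (hh.posDef x) (hg x)
  gr _ := gr A hh

end Vale.Agent.P253Y.D
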