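import Vale.Agent.P253Y.D.SpecM
import Vale.Agent.P253Z.B2
import Vale.Agent.P284Z.L.S3.A

/-!
# P253Y, block D: the Kähler data on the manifold with new preferred charts
-/

open scoped Manifold ContDiff Bundle Topology ComplexConjugate ComplexOrder Matrix
open Bundle Set Filter Vale.Agent.P253.Mfd

set_option linter.unusedSectionVars false

noncomputable section

namespace Vale.Agent.P253Y.D

open Vale.Agent.P267 Vale.Agent.P267.FL Vale.Agent.P253Z
open Vale.Agent.P272.K (Cm Chart)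
open Vale.Agent.P284Z.L.S3 (th_sm th_one th_zero th_bd cut_grad)

theorem dz_eq (j : Fin 2) (f : C2 → ℂ) : FL.dz j f = P272.K.dz j f := by
  funext z
  rw [FL.dz, P272.K.dz, smul_eq_mul, smul_eq_mul]
  ring

theorem dzb_eq (j : Fin 2) (f : C2 → ℂ) : FL.dzb j f = P272.K.dzb j f := by
  funext z
  rw [FL.dzb, P272.K.dzb, smul_eq_mul, smul_eq_mul]
  ring

variable {M : Type} [MetricSpace M] [ChartedSpace (Cm 2) M]
  [IsManifold 𝓘(ℂ, Cm 2) 1 M] [IsManifold 𝓘(ℝ, Cm 2) ∞ M]
  [RiemannianBundle (fun x : M => TangentSpace 𝓘(ℝ, Cm 2) x)]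
  [IsContMDiffRiemannianBundle 𝓘(ℝ, Cm 2) ∞ (Cm 2) (fun x : M => TangentSpace 𝓘(ℝ, Cm 2) x)]

theorem man (a : B1a 2 M) : MAN M := fun A =>
  isManifold_of_contDiffOn _ _ _ fun e e' he he' z hz => by
    simp only [modelWithCornersSelf_coe, modelWithCornersSelf_coe_symm, preimage_id_eq, id_eq,
      range_id, inter_univ, Function.id_comp, Function.comp_id] at hz ⊢
    exact (a.hol e e' he he' z hz.1 hz.2).contDiffAt.contDiffWithinAt

theorem cv_eq {H W : C2 → Mat} {z : C2} (h : H =ᶠ[𝓝 z] W) (c d a k : Fin 2) :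
    cv H z c d a k = P272.K.C2.RM c d W z a k := by
  have e : ∀ i j, (fun y => H y i j) =ᶠ[𝓝 z] fun y => W y i j := fun i j =>
    h.mono fun y hy => by simp only [hy]
  simp only [cv, dz_eq, dzb_eq, P272.K.C2.dz_congr _ (e _ _), P272.K.C2.dzb_congr _ (e _ _),
    P272.K.C2.dz_congr _ (P272.K.C2.dzb_eventuallyEq _ (e _ _)), h.self_of_nhds]
  simp only [P272.K.C2.RM, Matrix.add_apply, Matrix.neg_apply, Matrix.mul_apply, Finset.sum_mul]
  rw [Finset.sum_comm]
  rfl

theorem kdm (hK : IsKahler (Cm 2) M) (hp : ∀ x : M, PosBisectionalAt (Cm 2) x) (a : B1a 2 M)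
    (b : B1b 2 M) (ex : EXH 2 M) : KDM M := by
  intro A
  have L : ∀ e : Ch A.T, Hc (n := 2) (M := M) e → ∀ z ∈ e.target,
      loc11 (X := A.T) e (fun x => hm (A.ch x) (A.ch x x)) z = hm (M := M) e z := fun e he z hz => by
    have h1 := b.wch e _ he (A.hc (e.symm z)) _ (e.map_target hz) (A.mem _)
    have h2 : jac (X := A.T) e (e.symm z) = P272.K.jacM e (A.ch (e.symm z)) (e.symm z) :=
      Matrix.ext fun i j => congrFun (dz_eq _ _) _
    erw [e.right_inv hz] at h1
    rw [H469.loc11_mat, h1]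
    exact congrArg (fun J : Mat => Jᵀ * _ * J.map conj) h2
  have L' : ∀ e : Ch A.T, Hc (n := 2) (M := M) e → ∀ z ∈ e.target,
      loc11 (X := A.T) e (fun x => hm (A.ch x) (A.ch x x)) =ᶠ[𝓝 z] hm (M := M) e := fun e he z hz =>
    mem_of_superset (e.open_target.mem_nhds hz) (L e he)
  have S : ∀ e : Ch A.T, Hc (n := 2) (M := M) e → ∀ i j, ContDiffOn ℝ ∞
      (fun z => loc11 (X := A.T) e (fun x => hm (A.ch x) (A.ch x x)) z i j) e.target :=
    fun e he i j => ContDiffOn.congr (fun z hz => (b.wsm e he z hz i j).contDiffWithinAt)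
      fun z hz => by rw [L e he z hz]
  refine ⟨fun x => hm (A.ch x) (A.ch x x), ⟨fun x => b.wpos _ (A.hc x) _ ((A.ch x).map_source (A.mem x)),
    S⟩, fun e he => ⟨S e he, fun z hz => (L e he z hz).symm ▸ b.wpos e he z hz, fun z hz j k l => ?_⟩,
    fun e he z hz u v hu hv => ?_, fun K hK ε hε => ?_⟩
  · have e1 : ∀ i j, (fun y => loc11 (X := A.T) e (fun x => hm (A.ch x) (A.ch x x)) y i j) =ᶠ[𝓝 z]
        fun y => hm (M := M) e y i j := fun i j => (L' e he z hz).mono fun y hy => by simp only [hy]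
    rw [dz_eq, dz_eq, P272.K.C2.dz_congr _ (e1 _ _), P272.K.C2.dz_congr _ (e1 _ _)]
    exact b.wcl e he z hz j k l
  · have hU : ∀ᶠ y in 𝓝 z, y ∈ e.target := e.open_target.mem_nhds hz
    have h1 := B2A.rm_eq (localKahler_chartG hK he) hz
      (fun j k => (b.wsm e he z hz j k).of_le B2A.two_le) (hU.mono fun y hy => b.wpos e he y hy)
      (hU.mono fun y hy => b.quad e he y hy) b.levi u v
    refine ((Rc_pos_chartG hK he hz (hp _) _ _ hu hv).trans_eq h1.symm).trans_eq (congrArg _ ?_)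
    simp only [cv_eq (L' e he z hz), B2A.quad_eq, Fin.sum_univ_two, Matrix.add_apply,
      Matrix.smul_apply, smul_eq_mul]
    have e1 : B2A.mat (chartG (M := M) e) = hm (M := M) e := rfl
    rw [e1]
    ring
  · obtain ⟨η, C, h1, h0, h2, h3⟩ := ex
    obtain ⟨B, hB⟩ := th_bd
    obtain ⟨R, hR⟩ := hK.bddAbove_image (a.sm_cont η h1).continuousOn
    have t := ((tendsto_one_div_add_atTop_nhds_zero_nat (𝕜 := ℝ)).pow 2).const_mul (B * C)
    simp only [ne_eq, OfNat.ofNat_ne_zero, not_false_eq_true, zero_pow, mul_zero] at t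
    obtain ⟨ν, n1, n2⟩ := ((t.eventually_le_const hε).and
      (tendsto_natCast_atTop_atTop.eventually_ge_atTop R)).exists
    refine ⟨fun x => P284Z.L.S3.th (η x / (ν + 1)), ⟨fun e he => ?_, ?_⟩, fun x hx => th_one ?_,
      fun x => ?_⟩
    · refine ContDiffOn.congr (fun z hz => (Complex.ofRealCLM.contDiff.contDiffAt.comp z
        (th_sm.contDiffAt.comp z ((h1 e he z hz).div_const (ν + 1)))).contDiffWithinAt) fun z _ => ?_
      rw [loc0, zpow_zero, one_smul]
      rfl
    · refine HasCompactSupport.intro (h2 (2 * (ν + 1))) fun x hx => th_zero ?_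
      rw [le_div_iff₀ (by positivity)]
      exact (not_le.1 hx).le
    · rw [div_le_one (by positivity)]
      linarith [hR ⟨x, hx, rfl⟩]
    · have hz := (A.ch x).map_source (A.mem x)
      have h4 := cut_grad (m := ν + 1) hB ((h1 _ (A.hc x) _ hz).differentiableAt (by simp))
        EventuallyEq.rfl (w := hm (A.ch x) (A.ch x x)) (K := C) (by
          convert h3 _ (A.hc x) _ hz using 2
          ext j k
          simp only [P284.H650.gg, P284.H650.rk1, P284.H650.dzv, P284.H650.dzbv,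
            P272.K.AMP.dzb_real_eq, Matrix.of_apply])
      have h5 := (b.wpos _ (A.hc x) _ hz).posSemidef.smul
        (Complex.zero_le_real.2 (sub_nonneg.2 n1))
      have h6 := h4.add h5
      rw [sub_add_eq_add_sub, ← add_smul, ← Complex.ofReal_add,
        show B / (ν + 1) ^ 2 * C + (ε - B * C * (1 / (ν + 1)) ^ 2) = ε by rw [div_pow]; ring] at h6
      simp only [del0, dz_eq]
      exact h6

end Vale.Agent.P253Y.D
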