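import Vale.Agent.P253Y.D.Spec
import Vale.Agent.P284.H419.K.Weak

/-!
# P253Y, block D: Friedrichs' lemma in a chart
-/

open scoped Manifold ContDiff ComplexConjugate Matrix ComplexOrder Topology ENNReal
open MeasureTheory Set Filter

noncomputable section

namespace Vale.Agent.P253Y.D

open Vale.Agent.P267 Vale.Agent.P267.FL
open Vale.Agent.P284.H419.K

namespace Lc

/-- matrices with the sup norm -/
abbrev V : Type := Fin 2 → Fin 2 → ℂ

/-- vectors -/
abbrev W : Type := Fin 2 → ℂ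

theorem eLp_eq {g : C2 → ℂ} (hg : MemLp g 2 volume) :
    eLpNorm g 2 volume = ENNReal.ofReal (√(∫ z, ‖g z‖ ^ 2)) := by
  rw [hg.eLpNorm_eq_integral_rpow_norm (by norm_num) (by norm_num), Real.sqrt_eq_rpow]
  simp

variable {Y : Type} [NormedAddCommGroup Y]

theorem sq_le {f : C2 → Y} {g : C2 → ℂ} (hg : Continuous g) (h : ∀ z, ‖g z‖ ≤ ‖f z‖) {δ : ℝ}
    (hδ : 0 ≤ δ) (e : eLpNorm f 2 volume ≤ ENNReal.ofReal (√δ)) : ∫ z, ‖g z‖ ^ 2 ≤ δ := by
  have h1 := (eLpNorm_mono (μ := volume) (p := 2) h).trans e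
  rw [eLp_eq ⟨hg.aestronglyMeasurable, h1.trans_lt ENNReal.ofReal_lt_top⟩,
    ENNReal.ofReal_le_ofReal_iff (Real.sqrt_nonneg _)] at h1
  exact (Real.sqrt_le_sqrt_iff hδ).1 h1

theorem cs_of {κ : Type} [Fintype κ] {p : κ → Y → ℂ} (hp : ∀ y, ‖y‖ ≤ ∑ i, ‖p i y‖)
    (hpc : ∀ i, Continuous (p i)) (hp0 : ∀ i, p i 0 = 0) {u : ℕ → C2 → Y}
    (hc : ∀ k, Continuous (u k)) {S : Set C2} (hS : IsCompact S) (h0 : ∀ k, ∀ z ∉ S, u k z = 0)
    (h : ∀ ε : ℝ, 0 < ε → ∃ N, ∀ k, N ≤ k → ∀ l, N ≤ l →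
      ∑ i, ∫ z, ‖p i (u k z - u l z)‖ ^ 2 ≤ ε) : CS volume u := by
  have h1 : ∀ k l i, Continuous fun z => p i (u k z - u l z) := fun k l i =>
    (hpc i).comp ((hc k).sub (hc l))
  have h2 : ∀ i, Tendsto (fun q : ℕ × ℕ => ∫ z, ‖p i (u q.1 z - u q.2 z)‖ ^ 2) atTop (𝓝 0) := by
    refine fun i => tendsto_order.2 ⟨fun a ha => Eventually.of_forall fun q =>
      ha.trans_le (by positivity), fun a ha => ?_⟩
    obtain ⟨N, hN⟩ := h (a / 2) (half_pos ha)
    filter_upwards [eventually_ge_atTop (N, N)] with q hq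
    exact ((Finset.single_le_sum (f := fun i => ∫ z, ‖p i (u q.1 z - u q.2 z)‖ ^ 2)
      (fun _ _ => by positivity) (Finset.mem_univ i)).trans (hN _ hq.1 _ hq.2)).trans_lt
      (half_lt_self ha)
  have h3 := tendsto_finsetSum Finset.univ fun i _ => ENNReal.tendsto_ofReal (h2 i).sqrt
  simp only [Real.sqrt_zero, ENNReal.ofReal_zero, Finset.sum_const_zero] at h3
  refine tendsto_of_tendsto_of_tendsto_of_le_of_le tendsto_const_nhds h3 (fun _ => zero_le)
    fun q => ?_
  refine (eLpNorm_mono_real (g := ∑ i, fun z => ‖p i (u q.1 z - u q.2 z)‖)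
    fun z => by simpa using hp _).trans ((eLpNorm_sum_le
      (fun i _ => (h1 _ _ i).norm.aestronglyMeasurable) (by norm_num)).trans_eq ?_)
  refine Finset.sum_congr rfl fun i _ => ?_
  rw [eLpNorm_norm, eLp_eq ((h1 _ _ i).memLp_of_hasCompactSupport
    (HasCompactSupport.intro hS fun z hz => by simp [h0 _ z hz, hp0]))]

theorem norm_W {Z : Type} [NormedAddCommGroup Z] (y : Fin 2 → Z) : ‖y‖ ≤ ∑ i, ‖y i‖ :=
  (pi_norm_le_iff_of_nonneg (by positivity)).2 fun i =>
    Finset.single_le_sum (f := fun i => ‖y i‖) (fun _ _ => norm_nonneg _) (Finset.mem_univ i)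

/-- the four real directions -/
def vv : Fin 4 → C2 := ![Pi.single 0 1, Pi.single 0 Complex.I, Pi.single 1 1, Pi.single 1 Complex.I]

/-- the symbol of `∂` -/
def MM : Fin 4 → V →L[ℝ] W :=
  ![(1 / 2 : ℂ) • ContinuousLinearMap.proj 1, (-Complex.I / 2) • ContinuousLinearMap.proj 1,
    (-1 / 2 : ℂ) • ContinuousLinearMap.proj 0, (Complex.I / 2) • ContinuousLinearMap.proj 0]

/-- `∂` for functions with values in `V` -/
def dV (w : C2 → V) : C2 → W := d11 fun z => Matrix.of (w z)

theorem dV_eq {w : C2 → V} (hw : Differentiable ℝ w) (z : C2) :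
    dV w z = ∑ l, MM l (fderiv ℝ w z (vv l)) := by
  have h : ∀ i j v, fderiv ℝ (fun y => w y i j) z v = fderiv ℝ w z v i j := fun i j v => by
    rw [((hasFDerivAt_pi'.1 (hasFDerivAt_pi'.1 (hw z).hasFDerivAt i)) j).fderiv]
    rfl
  funext j
  simp only [dV, d11, dz, Matrix.of_apply, h]
  simp [Fin.sum_univ_four, MM, vv]
  ring

theorem core {L : C2 → V →L[ℝ] V} (hL : ContDiff ℝ ∞ L) (hs : HasCompactSupport L) :
    ∃ (A : Fin 4 → C2 → V →L[ℝ] W) (B : C2 → V →L[ℝ] W), Good A B ∧
      ∀ w, ContDiff ℝ ∞ w → Pop A vv B w = dV fun z => L z (w z) := by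
  refine ⟨fun l z => (MM l).comp (L z), fun z => ∑ l, (MM l).comp (fderiv ℝ L z (vv l)),
    ⟨fun l => contDiff_const.clm_comp hL, fun l => hs.comp_left (g := (MM l).comp) (by simp),
      ContDiff.sum fun l _ => contDiff_const.clm_comp (dir_smooth hL _), ?_⟩,
    fun w hw => funext fun z => ?_⟩
  · refine HasCompactSupport.intro (hs.fderiv ℝ) fun z hz => ?_
    simp [image_eq_zero_of_notMem_tsupport hz]
  · rw [dV_eq ((hL.clm_apply hw).differentiable (by simp)),
      fderiv_clm_apply (hL.differentiable (by simp) z) (hw.differentiable (by simp) z)]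
    simp [Pop, Finset.sum_add_distrib]

theorem app {L : C2 → V →L[ℝ] V} (hL : ContDiff ℝ ∞ L) (hs : HasCompactSupport L) {S : Set C2}
    (hS : IsCompact S) {u : ℕ → C2 → V} {a : ℕ → C2 → W} (hu : ∀ k, ContDiff ℝ ∞ (u k))
    (hu0 : ∀ k, ∀ z ∉ S, u k z = 0) (ha : ∀ k, Continuous (a k)) (ha0 : ∀ k, ∀ z ∉ S, a k z = 0)
    (hcu : CS volume u)
    (hca : ∀ ε : ℝ, 0 < ε → ∃ N, ∀ k, N ≤ k → ∀ l, N ≤ l → l1 (a k - a l) ≤ ε)
    (hw : ∀ ψ : C2 → ℝ, ContDiff ℝ ∞ ψ → HasCompactSupport ψ → ∀ j, Tendsto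
      (fun k => ∫ z, (ψ z : ℂ) * (dV (fun y => L y (u k y)) z j - a k z j)) atTop (𝓝 0))
    {ε : ℝ} (hε : 0 < ε) : ∀ᶠ m in atTop, ∀ᶠ k in atTop,
      l1 (dV (fun z => L z (Mo volume m (u k) z)) - a k) ≤ ε := by
  obtain ⟨A, B, hG, hP⟩ := core hL hs
  have h1 := loc_main (v := vv) hG hS hu hu0 ha ha0 hcu
    (cs_of (p := fun i (y : W) => y i) norm_W continuous_apply (fun _ => rfl) ha hS ha0 hca)
    (Eventually.of_forall fun m z => ?_) (ε := ENNReal.ofReal (√(ε / 2))) (by simpa using hε)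
  · filter_upwards [h1] with m hm
    filter_upwards [hm] with k hk
    have h2 := mo_smooth (μ := volume) m (hu k).continuous
    have h3 := fun j => sq_le ((continuous_apply j).comp ((hG.smooth (v := vv) h2).continuous.sub
      (ha k))) (fun z => norm_le_pi_norm _ j) (half_pos hε).le hk
    rw [← hP _ h2, l1, Fin.sum_univ_two]
    exact (add_le_add (h3 0) (h3 1)).trans_eq (add_halves ε)
  · have h2 : ContDiff ℝ ∞ fun y : C2 => ro volume m (z - y) :=
      (ro_smooth volume m).comp (contDiff_const.sub contDiff_id)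
    have h3 : HasCompactSupport fun y : C2 => ro volume m (z - y) :=
      (ro_supp volume m).comp_homeomorph (Homeomorph.subLeft z)
    refine tendsto_pi_nhds.2 fun j => (hw _ h2 h3 j).congr fun k => ?_
    have h4 : Integrable (fun y => ro volume m (z - y) • (Pop A vv B (u k) - a k) y) volume :=
      (h2.continuous.smul ((hG.smooth (hu k)).continuous.sub
        (ha k))).integrable_of_hasCompactSupport h3.smul_right
    rw [mo_apply', eval_integral fun i => h4.eval i, hP _ (hu k)]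
    simp

/-- the trace -/
def tv (H : Mat) (A : V) : ℂ :=
  (H.det)⁻¹ * (H 1 1 * A 0 0 - H 0 1 * A 1 0 - H 1 0 * A 0 1 + H 0 0 * A 1 1)

/-- the primitive part times a constant -/
def Lm (c : ℝ) (H : Mat) : V →L[ℝ] V :=
  LinearMap.toContinuousLinearMap
    { toFun := fun A i j => c * (A i j - tv H A / 2 * H i j)
      map_add' := fun A B => by
        ext i j
        simp [tv]
        ring
      map_smul' := fun r A => by
        ext i j
        simp [tv]
        ring }

theorem Lm_apply (c : ℝ) (H : Mat) (A : V) (i j : Fin 2) :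
    Lm c H A i j = c * (A i j - tv H A / 2 * H i j) := rfl

theorem Lm_eq (c : ℝ) (H : Mat) (A : V) :
    Matrix.of (Lm c H A) = (c : ℂ) • prim H (Matrix.of A) := by
  ext i j
  simp [Lm_apply, prim, H469.trinv, tv]

/-- the conjugation -/
def cj : V →L[ℝ] V :=
  LinearMap.toContinuousLinearMap
    { toFun := fun A i j => -conj (A j i)
      map_add' := fun A B => by
        ext i j
        simp
        ring
      map_smul' := fun r A => by
        ext i j
        simp }

theorem Lm_smooth {U S : Set C2} {H : C2 → Mat} (hU : IsOpen U)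
    (hH : ∀ i j, ContDiffOn ℝ ∞ (fun y => H y i j) U) (hp : ∀ z ∈ U, (H z).PosDef)
    (hS : IsClosed S) (hSU : S ⊆ U) {κ : C2 → ℝ} (hκ : ContDiff ℝ ∞ κ) (h0 : ∀ z ∉ S, κ z = 0) :
    ContDiff ℝ ∞ fun z => Lm (κ z) (H z) := by
  refine contDiff_clm_apply_iff.2 fun A => contDiff_pi.2 fun i => contDiff_pi.2 fun j =>
    contDiff_iff_contDiffAt.2 fun z => ?_
  by_cases hz : z ∈ S
  · have hd : ContDiffOn ℝ ∞ (fun z => (H z).det) U := by
      simp only [Matrix.det_fin_two]
      exact ((hH 0 0).mul (hH 1 1)).sub ((hH 0 1).mul (hH 1 0))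
    exact ((Complex.ofRealCLM.contDiff.comp hκ).contDiffOn.mul
      (contDiffOn_const.sub ((((hd.inv fun z hz => (hp z hz).det_pos.ne').mul
        (((((hH 1 1).mul contDiffOn_const).sub ((hH 0 1).mul contDiffOn_const)).sub
          ((hH 1 0).mul contDiffOn_const)).add
          ((hH 0 0).mul contDiffOn_const))).div_const 2).mul (hH i j)))).contDiffAt
      (hU.mem_nhds (hSU hz))
  · refine (contDiffAt_const (c := (0 : ℂ))).congr_of_eventuallyEq ?_
    filter_upwards [hS.isOpen_compl.mem_nhds hz] with y hy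
    simp [Lm_apply, h0 y hy]

end Lc

open Lc

theorem lc (A : ALG) : LC := by
  intro U H hU hH hp S hS hSU
  obtain ⟨S', hS', h1, h2⟩ := exists_compact_between hS hU hSU
  obtain ⟨κ, k0, k1, -⟩ := exists_contMDiffMap_zero_one_of_isClosed (n := ⊤) 𝓘(ℝ, C2)
    (isOpen_interior (s := S')).isClosed_compl hS.isClosed (disjoint_compl_left_iff_subset.2 h1)
  have k2 : ∀ z ∉ S', κ z = 0 := fun z hz => k0 fun h => hz (interior_subset h)
  refine ⟨S', hS', h1.trans interior_subset, h2, fun u a a' hu ha ha' h0 ht hc hw ε hε => ?_⟩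
  have hL := Lm_smooth hU hH hp hS'.isClosed h2 κ.contMDiff.contDiff k2
  set L : C2 → V →L[ℝ] V := fun z => Lm (κ z) (H z) with hLd
  have hL0 : ∀ z ∉ S', L z = 0 := fun z hz => by
    ext B i j
    simp [hLd, Lm_apply, k2 z hz]
  have hs : HasCompactSupport L := HasCompactSupport.intro hS' hL0
  set w : ℕ → C2 → V := fun k z i j => u k z i j
  have w0 : ∀ k, ∀ z ∉ S, w k z = 0 := fun k z hz => (h0 k z hz).1
  have hLu : ∀ k z, L z (w k z) = w k z := fun k z => by
    by_cases hz : z ∈ S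
    · have h3 : tv (H z) (w k z) = 0 := (H469.trinv _ _).symm.trans (ht k z (hSU hz))
      ext i j
      simp [hLd, Lm_apply, k1 hz, h3]
    · rw [w0 k z hz, map_zero]
  have hu' : ∀ k, ContDiff ℝ ∞ (w k) := fun k =>
    contDiff_pi.2 fun i => contDiff_pi.2 fun j => hu k i j
  have hcu : CS volume w :=
    cs_of (p := fun (i : Fin 2 × Fin 2) (y : V) => y i.1 i.2)
      (fun y => (norm_W y).trans (by
        rw [Fintype.sum_prod_type]
        exact Finset.sum_le_sum fun i _ => norm_W _))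
      (fun i => by fun_prop) (fun _ => rfl) (fun k => (hu' k).continuous) hS w0
      fun ε hε => (hc ε hε).imp fun N h k hk l hl => by
        rw [Fintype.sum_prod_type]
        exact (h k hk l hl).1
  obtain ⟨K, hK⟩ := exists_bd hL.continuous hs
  have e1 := app hL hs hS hu' w0
    (fun k => continuous_pi fun j => (ha k j).continuous) (fun k z hz => (h0 k z hz).2.1) hcu
    (fun ε hε => (hc ε hε).imp fun N h k hk l hl => (h k hk l hl).2.1)
    (fun ψ p q j => by
      simp only [hLu]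
      exact (hw ψ p q j).1) hε
  have e2 := app (L := fun z => cj.comp (L z)) (contDiff_const.clm_comp hL)
    (hs.comp_left (g := cj.comp) (by simp)) hS hu' w0
    (fun k => continuous_pi fun j => (ha' k j).continuous) (fun k z hz => (h0 k z hz).2.2) hcu
    (fun ε hε => (hc ε hε).imp fun N h k hk l hl => (h k hk l hl).2.2)
    (fun ψ p q j => by
      simp only [ContinuousLinearMap.comp_apply, hLu]
      exact (hw ψ p q j).2) hε
  have e3 := mo_unif hcu (fun k => (hu' k).continuous)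
    (fun k => HasCompactSupport.intro hS (w0 k))
    (ε := ENNReal.ofReal (√(ε / 4)) / K) (ENNReal.div_pos (by simpa using hε) (by simp))
  obtain ⟨m, m1, m2, m3⟩ := (e1.and (e2.and e3)).exists
  filter_upwards [m1, m2, m3] with k n1 n2 n3
  have hy := hL.clm_apply (mo_smooth (μ := volume) m (hu' k).continuous)
  refine ⟨fun z => Matrix.of (L z (Mo volume m (w k) z)),
    fun i j => contDiff_pi.1 (contDiff_pi.1 hy i) j, fun z hz => by simp [hL0 z hz],
    fun z hz => ?_, ?_, n1, n2⟩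
  · simp only [hLd]
    rw [Lm_eq, Matrix.mul_smul, Matrix.trace_smul, A.prim_tr _ _ (hp z hz), smul_zero]
  · have h3 := (eLp_clm (μ := volume) hK (Mo volume m (w k) - w k)).trans
      ((mul_le_mul_right n3 _).trans ENNReal.mul_div_le)
    have h4 := fun i j => sq_le (g := fun z => (L z (Mo volume m (w k) z) - w k z) i j)
      ((continuous_apply_apply i j).comp (hy.continuous.sub (hu' k).continuous))
      (fun z => ((norm_le_pi_norm _ j).trans (norm_le_pi_norm _ i)).trans_eq
        (by simp [hLu])) (by positivity) h3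
    simp only [l11, Fin.sum_univ_two]
    exact (add_le_add (add_le_add (h4 0 0) (h4 0 1)) (add_le_add (h4 1 0) (h4 1 1))).trans_eq
      (by ring)

end Vale.Agent.P253Y.D
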