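import Vale.Agent.P253Y.D.Spec

/-!
# P253Y, block D: approximation with support in a chart
-/

set_option linter.unusedSectionVars false
set_option linter.unusedVariables false

open scoped Manifold ContDiff ComplexConjugate Matrix ComplexOrder Topology
open MeasureTheory Set Filter

noncomputable section

namespace Vale.Agent.P253Y.D

open Vale.Agent.P267 Vale.Agent.P267.FL
open Vale.Agent.P267.H469 (del11 cj11)

variable {X : Type} [TopologicalSpace X] [ChartedSpace C2 X] [IsManifold 𝓘(ℂ, C2) ω X]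
  [T2Space X] [SigmaCompactSpace X] {h : X → Mat}

namespace Lc

/-- a `(1,1)`-form in a chart, extended by zero -/
def r11 (e : Ch X) (g : X → Mat) : C2 → Mat := e.target.indicator (loc11 e g)

/-- a `(2,1)`-form in a chart, extended by zero -/
def r1 (e : Ch X) (t : X → Fin 2 → ℂ) : C2 → Fin 2 → ℂ := e.target.indicator (loc1 1 e t)

theorem r11_sub (e : Ch X) (g g' : X → Mat) : r11 e (g - g') = r11 e g - r11 e g' := by
  funext z
  by_cases hz : z ∈ e.target
  · simp only [r11, indicator_of_mem hz, Pi.sub_apply, H469.loc11_mat, mul_sub, sub_mul]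
  · simp only [r11, indicator_of_notMem hz, Pi.sub_apply, sub_zero]

theorem r1_sub (e : Ch X) (t s : X → Fin 2 → ℂ) : r1 e (t - s) = r1 e t - r1 e s := by
  funext z
  by_cases hz : z ∈ e.target
  · funext j
    simp only [r1, indicator_of_mem hz, Pi.sub_apply, loc1, Fin.sum_univ_two, smul_eq_mul]
    ring
  · simp only [r1, indicator_of_notMem hz, Pi.sub_apply, sub_zero]

theorem r11_cj (e : Ch X) (g : X → Mat) : (fun z => cjm (r11 e g z)) = r11 e (cj11 g) := by
  funext z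
  ext i j
  by_cases hz : z ∈ e.target
  · simp only [r11, indicator_of_mem hz, cjm, Matrix.of_apply, H469.loc11_cj11]
  · simp [r11, indicator_of_notMem hz, cjm]

theorem mf_sub (f : X → ℝ) (g g' : X → Mat) : mf f g - mf f g' = mf f (g - g') := by
  funext x
  simp only [mf, Pi.sub_apply, smul_sub]

theorem wd_sub (f : X → ℝ) (g g' : X → Mat) : wd f g - wd f g' = wd f (g - g') := by
  funext x j
  simp only [wd, wf, Pi.sub_apply, Matrix.sub_apply]
  ring

theorem cj_sub (g g' : X → Mat) : cj11 g - cj11 g' = cj11 (g - g') := by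
  funext x
  ext i j
  simp only [cj11, Pi.sub_apply, Matrix.sub_apply, Matrix.of_apply, map_sub]
  ring

theorem cj_mf (f : X → ℝ) (g : X → Mat) : cj11 (mf f g) = mf f (cj11 g) := by
  funext x
  ext i j
  simp only [cj11, mf, Matrix.smul_apply, Matrix.of_apply, smul_eq_mul, map_mul,
    Complex.conj_ofReal, mul_neg]

theorem cj_zero {g : X → Mat} {x : X} (hx : g x = 0) : cj11 g x = 0 := by
  ext i j
  simp [cj11, hx]

theorem mf_zero {f : X → ℝ} (g : X → Mat) {x : X} (hx : x ∉ tsupport f) : mf f g x = 0 := by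
  simp [mf, image_eq_zero_of_notMem_tsupport hx]

theorem wd_zero {f : X → ℝ} (g : X → Mat) {x : X} (hx : x ∉ tsupport f) : wd f g x = 0 := by
  have h1 : ∀ i, del0 (fun y => (f y : ℂ)) x i = 0 := fun i => by
    have h2 : (fun z => (f ((chartAt C2 x).symm z) : ℂ)) =ᶠ[𝓝 (chartAt C2 x x)] fun _ => 0 := by
      filter_upwards [(tendsto_symm_nhds (mem_chart_source C2 x)).eventually
        (notMem_tsupport_iff_eventuallyEq.1 hx)] with z hz
      simp [hz]
    rw [del0, dz_congr h2, H469.dz_const]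
  funext j
  simp [wd, wf, h1]

theorem del_zero {g : X → Mat} {K : Set X} (hK : IsClosed K) (h0 : ∀ x ∉ K, g x = 0) {x : X}
    (hx : x ∉ K) : del11 g x = 0 := by
  have h1 : ∀ i j, (fun z => loc11 (chartAt C2 x) g z i j) =ᶠ[𝓝 (chartAt C2 x x)] fun _ => 0 := by
    intro i j
    filter_upwards [(tendsto_symm_nhds (mem_chart_source C2 x)).eventually
      (hK.isOpen_compl.mem_nhds hx)] with z hz
    simp [loc11, h0 _ hz]
  funext j
  simp [del11, dz_congr (h1 _ _)]

theorem d11_r11 {e : Ch X} (he : e ∈ atlas C2 X) {g : X → Mat} (hg : Reg11 ∞ g) {S : Set C2}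
    (hS : IsClosed S) (hSe : S ⊆ e.target) (h0 : ∀ z ∉ S, r11 e g z = 0) :
    d11 (r11 e g) = r1 e (del11 g) := by
  funext z j
  by_cases hz : z ∈ e.target
  · have h1 : ∀ i, (fun y => r11 e g y i j) =ᶠ[𝓝 z] fun y => loc11 e g y i j := fun i => by
      filter_upwards [e.open_target.mem_nhds hz] with y hy
      rw [r11, indicator_of_mem hy]
    rw [d11, dz_congr (h1 1), dz_congr (h1 0), r1, indicator_of_mem hz,
      H469.del11_law (H469.r11mono hg H469.one_le_infty) he hz]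
  · have h1 : ∀ i, (fun y => r11 e g y i j) =ᶠ[𝓝 z] fun _ => 0 := fun i => by
      filter_upwards [hS.isOpen_compl.mem_nhds fun h => hz (hSe h)] with y hy
      rw [h0 y hy]
      rfl
    rw [d11, dz_congr (h1 1), dz_congr (h1 0), r1, indicator_of_notMem hz, H469.dz_const,
      H469.dz_const, sub_zero]
    rfl

section

variable {e : Ch X} {f : X → ℝ}

theorem cpt (hf : Tf f) (hs : tsupport f ⊆ e.source) : IsCompact (e '' tsupport f) :=
  hf.2.isCompact.image_of_continuousOn (e.continuousOn.mono hs)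

theorem tgt (hs : tsupport f ⊆ e.source) : e '' tsupport f ⊆ e.target := by
  rintro _ ⟨x, hx, rfl⟩
  exact e.map_source (hs hx)

theorem off (hs : tsupport f ⊆ e.source) {S : Set C2} (hS : e '' tsupport f ⊆ S) {x : X}
    (hx : x ∉ e.symm '' S) : x ∉ tsupport f :=
  fun h => hx ⟨e x, hS (mem_image_of_mem _ h), e.left_inv (hs h)⟩

theorem ind_zero (hs : tsupport f ⊆ e.source) {z : C2} (hz : z ∉ e '' tsupport f) :
    e.target.indicator (fun z => (f (e.symm z) : ℂ)) z = 0 := by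
  by_cases h1 : z ∈ e.target
  · rw [indicator_of_mem h1, image_eq_zero_of_notMem_tsupport
      fun h => hz ⟨_, h, e.right_inv h1⟩, Complex.ofReal_zero]
  · exact indicator_of_notMem h1 _

theorem ind_smooth (he : e ∈ atlas C2 X) (hf : Tf f) (hs : tsupport f ⊆ e.source) :
    ContDiff ℝ ∞ (e.target.indicator fun z => (f (e.symm z) : ℂ)) := by
  rw [contDiff_iff_contDiffAt]
  intro z
  by_cases h1 : z ∈ e.target
  · refine ((H469.r0comp hf.1 he).contDiffAt (e.open_target.mem_nhds h1)).congr_of_eventuallyEq ?_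
    filter_upwards [e.open_target.mem_nhds h1] with y hy
    exact indicator_of_mem hy _
  · refine (contDiffAt_const (c := (0 : ℂ))).congr_of_eventuallyEq ?_
    filter_upwards [(cpt hf hs).isClosed.isOpen_compl.mem_nhds fun h => h1 (tgt hs h)] with y hy
    exact ind_zero hs hy

theorem int_pair (he : e ∈ atlas C2 X) {b t : X → Fin 2 → ℂ} (hb : T1 0 b) (ht : Reg1 ∞ 1 t)
    (h0 : ∀ x ∉ e.source, b x = 0) :
    intX (fun x => b x 0 * t x 1 - b x 1 * t x 0) = 4 * ∫ z in e.target,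
      (loc1 0 e b z 0 * loc1 1 e t z 1 - loc1 0 e b z 1 * loc1 1 e t z 0) := by
  have hc : HasCompactSupport fun x => b x 0 * t x 1 - b x 1 * t x 0 :=
    hb.2.mono fun x hx h => hx (by simp [h])
  have hr : Reg2 ∞ 1 fun x => b x 0 * t x 1 - b x 1 * t x 0 := reg2_iff.2 fun x =>
    At2.wedge_smul (reg1_iff.1 hb.1 x) (reg1_iff.1 ht x)
  rw [intX_chart (integrableX_of_reg hr.zero_order hc) hc he fun x hx => by simp [h0 x hx]]
  congr 1
  refine setIntegral_congr_fun e.open_target.measurableSet fun z hz => ?_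
  exact loc2_bilin11 (κ₁ := 0) (κ₂ := 1) (ContinuousLinearMap.mul ℂ ℂ) he hz b t

theorem weak (I : IP h) (C : CMP h) (he : e ∈ atlas C2 X) (hf : Tf f)
    (hs : tsupport f ⊆ e.source) {θ : ℕ → X → Mat} (hθ : ∀ k, T11 (θ k)) (hw : Wk θ)
    {ψ : C2 → ℝ} (hψ : ContDiff ℝ ∞ ψ) (j : Fin 2) :
    Tendsto (fun k => ∫ z, (ψ z : ℂ) * (d11 (r11 e (mf f (θ k))) z j - r1 e (wd f (θ k)) z j))
      atTop (𝓝 0) := by
  obtain ⟨φ, hφ⟩ : ∃ φ : C2 → ℂ,
    φ = fun z => ψ z * e.target.indicator (fun z => (f (e.symm z) : ℂ)) z := ⟨_, rfl⟩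
  have h1 : ContDiff ℝ ∞ φ :=
    hφ ▸ (Complex.ofRealCLM.contDiff.comp hψ).mul (ind_smooth he hf hs)
  obtain ⟨c, hc⟩ : ∃ c : Fin 2 → ℂ, ∀ t : Fin 2 → ℂ, c 0 * t 1 - c 1 * t 0 = t j := by
    fin_cases j
    · exact ⟨![0, -1], fun t => by simp⟩
    · exact ⟨![1, 0], fun t => by simp⟩
  obtain ⟨b, hb, b0, b1⟩ := C.ext1 e he _ (cpt hf hs) (tgt hs) (fun z i => φ z * c i)
    (fun i => h1.mul contDiff_const) fun z hz => by
      funext i
      simp [hφ, ind_zero hs hz]
  have h2 := (hw b hb).const_mul (1 / 4 : ℂ)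
  rw [mul_zero] at h2
  refine h2.congr fun k => ?_
  have hm := I.t_mf f _ hf (hθ k)
  rw [int_pair he hb (I.t_del _ (hθ k)).1 fun x hx => b0 x fun ⟨z, hz, e1⟩ =>
      hx (e1 ▸ e.map_target (tgt hs hz)), ← mul_assoc, show (1 / 4 : ℂ) * 4 = 1 by norm_num,
    one_mul, d11_r11 he hm.1 (cpt hf hs).isClosed (tgt hs)
      (C.res11 e he _ (cpt hf hs) (tgt hs) _ hm.1 fun x hx => mf_zero _ (off hs le_rfl hx)).1,
    ← integral_indicator e.open_target.measurableSet]
  refine integral_congr_ae (Eventually.of_forall fun z => ?_)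
  have h3 : r1 e (del11 (mf f (θ k))) z j - r1 e (wd f (θ k)) z j =
      r1 e (fun x => (f x : ℂ) • del11 (θ k) x) z j := by
    rw [← Pi.sub_apply, ← Pi.sub_apply, ← r1_sub, I.del_mf f _ hf (hθ k), add_sub_cancel_left]
  beta_reduce
  rw [h3]
  by_cases hz : z ∈ e.target
  · rw [indicator_of_mem hz, b1 z hz, r1, indicator_of_mem hz]
    have h4 : loc1 1 e (fun x => (f x : ℂ) • del11 (θ k) x) z j =
        f (e.symm z) * loc1 1 e (del11 (θ k)) z j := by
      simp only [loc1, Pi.smul_apply, smul_eq_mul, Fin.sum_univ_two]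
      ring
    rw [h4, ← hc (loc1 1 e (del11 (θ k)) z), hφ]
    simp only [indicator_of_mem hz]
    ring
  · simp [r1, indicator_of_notMem hz]

end

end Lc

open Lc in
theorem loc (A : ALG) (hh : IsHerm h) (I : IP h) (C : CMP h) (L : LC) : LOC h := by
  intro θ hθ e he f hf hs
  have hS := cpt hf hs
  have hSe := tgt hs
  obtain ⟨S', hS', hSS, hS'e, hL⟩ := L e.target (loc11 e h) e.open_target (hh.smooth e he)
    (I.posDef e he) _ hS hSe
  have m0 : ∀ (g : X → Mat) {S : Set C2}, e '' tsupport f ⊆ S → ∀ x ∉ e.symm '' S, mf f g x = 0 :=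
    fun g S h1 x hx => mf_zero _ (off hs h1 hx)
  have w0 : ∀ (g : X → Mat) {S : Set C2}, e '' tsupport f ⊆ S → ∀ x ∉ e.symm '' S, wd f g x = 0 :=
    fun g S h1 x hx => wd_zero _ (off hs h1 hx)
  have hc : ∀ k, T11 (cj11 (θ k)) := fun k => I.t_cj _ (hθ.test k)
  have q1 := fun k => C.res11 e he _ hS hSe _ (I.t_mf f _ hf (hθ.test k)).1 (m0 _ le_rfl)
  have q2 := fun k => C.res1 e he _ hS hSe _ (I.t_wd f _ hf (hθ.test k)).1 (w0 _ le_rfl)
  have q3 := fun k => C.res1 e he _ hS hSe _ (I.t_wd f _ hf (hc k)).1 (w0 _ le_rfl)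
  obtain ⟨c, c0, c1, c2⟩ := C.cmp e he S' hS' hS'e
  have key := hL (fun k => r11 e (mf f (θ k))) (fun k => r1 e (wd f (θ k)))
    (fun k => r1 e (wd f (cj11 (θ k)))) (fun k => (q1 k).2) (fun k => (q2 k).2)
    (fun k => (q3 k).2) (fun k z hz => ⟨(q1 k).1 z hz, (q2 k).1 z hz, (q3 k).1 z hz⟩) ?_ ?_ ?_
  · intro ε hε
    have hcε : ∀ {a : ℝ}, a ≤ ε / (c + 1) → c * a ≤ ε := fun {a} ha => by
      refine (mul_le_mul_of_nonneg_left ha c0).trans ?_
      rw [← mul_div_assoc, div_le_iff₀ (by positivity)]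
      nlinarith
    filter_upwards [key (ε / (c + 1)) (by positivity)] with k ⟨y, y1, y2, y3, y4, y5, y6⟩
    obtain ⟨g, g1, g2, g3⟩ := C.ext11 e he S' hS' hS'e y y1 y2
    have hK : IsClosed (e.symm '' S') :=
      (hS'.image_of_continuousOn (e.continuousOn_symm.mono hS'e)).isClosed
    have hy : r11 e g = y := by
      funext z
      by_cases hz : z ∈ e.target
      · rw [r11, indicator_of_mem hz, g3 z hz]
      · rw [r11, indicator_of_notMem hz, y2 z fun h => hz (hS'e h)]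
    have g4 := I.t_cj g g1
    have g5 : ∀ x ∉ e.symm '' S', cj11 g x = 0 := fun x hx => cj_zero (g2 x hx)
    have hn : ∀ g' g'' : X → Mat, T11 g' → T11 g'' → (∀ x ∉ e.symm '' S', g' x = 0) →
        l1 (d11 (r11 e g') - r1 e (wd f g'')) ≤ ε / (c + 1) → n21 h (del11 g' - wd f g'') ≤ ε := by
      intro g' g'' a1 a2 a3 a4
      rw [d11_r11 he a1.1 hS'.isClosed hS'e (C.res11 e he _ hS' hS'e _ a1.1 a3).1, ← r1_sub] at a4
      refine (c2 _ (I.s_sub _ _ (I.t_del _ a1) (I.t_wd f _ hf a2)).1 fun x hx => ?_).1.trans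
        (hcε a4)
      rw [Pi.sub_apply, del_zero hK a3 hx, w0 _ hSS x hx, sub_zero]
    refine ⟨g, g1, fun x => ?_, ?_, hn _ _ g1 (hθ.test k) g2 (hy ▸ y5),
      hn _ _ g4 (hc k) g5 (by rw [← r11_cj, hy]; exact y6)⟩
    · by_cases hx : x ∈ e.symm '' S'
      · obtain ⟨z, hz, rfl⟩ := hx
        have := H469.trh_chart h g he (hS'e hz)
        rw [g3 z (hS'e hz), y3 z (hS'e hz)] at this
        exact this
      · rw [g2 x hx, mul_zero, Matrix.trace_zero]
    · rw [← hy, ← r11_sub] at y4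
      refine (c1 _ (I.t_sub _ _ g1 (I.t_mf f _ hf (hθ.test k))).1 fun x hx => ?_).1.trans (hcε y4)
      rw [Pi.sub_apply, g2 x hx, m0 _ hSS x hx, sub_zero]
  · intro k z hz
    rw [r11, indicator_of_mem hz, ← H469.trh_chart h _ he hz, trh, mf, Matrix.mul_smul,
      Matrix.trace_smul, hθ.pr k, smul_zero]
  · intro ε hε
    obtain ⟨a, a0, ha⟩ := I.n_mf f hf
    obtain ⟨b, b0, hb⟩ := I.gr f hf
    obtain ⟨N, hN⟩ := hθ.cau (ε / (c * (a + b) + 1)) (by positivity)
    refine ⟨N, fun k hk l hl => ?_⟩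
    have t1 := I.t_sub _ _ (hθ.test k) (hθ.test l)
    have t2 := I.t_cj _ t1
    have n0 := I.n_nonneg _ t1
    have n1 : (c * (a + b) + 1) * n11 h (θ k - θ l) ≤ ε := by
      rw [mul_comm, ← le_div_iff₀ (by positivity)]
      exact hN k hk l hl
    have n2 := mul_nonneg (mul_nonneg c0 a0) n0
    have n3 := mul_nonneg (mul_nonneg c0 b0) n0
    refine ⟨?_, ?_, ?_⟩
    · rw [← r11_sub, mf_sub]
      refine (c1 _ (I.t_mf f _ hf t1).1 (m0 _ hSS)).2.trans ?_
      have := mul_le_mul_of_nonneg_left (ha _ t1) c0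
      nlinarith
    · rw [← r1_sub, wd_sub]
      refine (c2 _ (I.t_wd f _ hf t1).1 (w0 _ hSS)).2.trans ?_
      have := mul_le_mul_of_nonneg_left (I.m_wd f b _ hf hb t1) c0
      nlinarith
    · rw [← r1_sub, wd_sub, cj_sub]
      refine (c2 _ (I.t_wd f _ hf t2).1 (w0 _ hSS)).2.trans ?_
      have := mul_le_mul_of_nonneg_left (I.m_wd f b _ hf hb t2) c0
      rw [I.n_cj] at this
      nlinarith
  · intro ψ hψ _ j
    refine ⟨weak I C he hf hs hθ.test hθ.wk hψ j, ?_⟩
    simp only [r11_cj, cj_mf]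
    exact weak I C he hf hs hc hθ.wkc hψ j

end Vale.Agent.P253Y.D
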