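import Vale.Agent.P253Y.D.Spec

/-!
# P253Y, block D, row MIN: minimizing sequences
-/

open scoped ComplexConjugate Topology
open Filter

namespace Vale.Agent.P253Y.D

theorem min : MIN := by
  intro W _ _ ip ha hs hc h0 R w
  have ha' : ∀ a b c, ip a (b + c) = ip a b + ip a c := fun a b c => by
    rw [hc (b + c), ha, map_add, ← hc, ← hc]
  have hs' : ∀ (c : ℂ) a b, ip a (c • b) = conj c * ip a b := fun c a b => by
    rw [hc (c • b), hs, map_mul, ← hc]
  have ex : ∀ a b (c : ℂ), (ip (a + c • b) (a + c • b)).re =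
      (ip a a).re + 2 * (conj c * ip a b).re + ‖c‖ ^ 2 * (ip b b).re := fun a b c => by
    simp only [ha, ha', hs, hs', hc a b, Complex.sq_norm, Complex.normSq_apply, Complex.add_re,
      Complex.mul_re, Complex.mul_im, Complex.conj_re, Complex.conj_im]
    ring
  have par : ∀ a b, (ip (a - b) (a - b)).re + (ip (a + b) (a + b)).re =
      2 * (ip a a).re + 2 * (ip b b).re := fun a b => by
    have e1 := ex a b 1
    have e2 := ex a b (-1)
    simp only [one_smul, neg_smul, ← sub_eq_add_neg, map_one, map_neg, one_mul, neg_mul,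
      Complex.neg_re, norm_neg, norm_one] at e1 e2
    linarith
  have bd : BddBelow (Set.range fun r : R => (ip (w - r) (w - r)).re) :=
    ⟨0, Set.forall_mem_range.2 fun _ => h0 _⟩
  set d := ⨅ r : R, (ip (w - r) (w - r)).re
  have lo : ∀ r ∈ R, d ≤ (ip (w - r) (w - r)).re := fun r hr => ciInf_le bd ⟨r, hr⟩
  choose r hr using fun k : ℕ => exists_lt_of_ciInf_lt
    (lt_add_of_pos_right d (Nat.one_div_pos_of_nat (n := k)))
  have t0 := tendsto_one_div_add_atTop_nhds_zero_nat (𝕜 := ℝ)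
  have key : ∀ k, ∀ s ∈ R, ‖ip (w - r k) s‖ ^ 2 ≤ (ip s s).re * (1 / (k + 1)) := fun k s hs => by
    have := discrim_le_zero (a := ‖ip (w - r k) s‖ ^ 2 * (ip s s).re)
      (b := -2 * ‖ip (w - r k) s‖ ^ 2) (c := 1 / (k + 1)) fun τ => by
        have e1 := ex (w - r k) s (-(τ * ip (w - r k) s))
        have e2 := lo _ (R.add_mem (r k).2 (R.smul_mem (τ * ip (w - r k) s) hs))
        rw [← sub_sub, sub_eq_add_neg (w - _), ← neg_smul, e1, map_neg, map_mul, neg_mul, mul_assoc,
          Complex.conj_mul', Complex.conj_ofReal, norm_neg, norm_mul, Complex.norm_real, mul_pow,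
          Real.norm_eq_abs, sq_abs] at e2
        norm_cast at e2
        linarith [hr k]
    rw [discrim] at this
    rcases (sq_nonneg ‖ip (w - r k) s‖).eq_or_lt with o | o
    · exact o ▸ mul_nonneg (h0 s) Nat.one_div_pos_of_nat.le
    · exact le_of_mul_le_mul_left (by linarith) o
  have lim : ∀ (s : ℕ → W) (C : ℝ), (∀ k, s k ∈ R) → (∀ k, (ip (s k) (s k)).re ≤ C) →
      Tendsto (fun k => ip (w - r k) (s k)) atTop (𝓝 0) := fun s C h1 h2 => by
    refine tendsto_zero_iff_norm_tendsto_zero.2 ?_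
    have := (squeeze_zero (fun k => sq_nonneg _) (fun k => (key k _ (h1 k)).trans
      (mul_le_mul_of_nonneg_right (h2 k) Nat.one_div_pos_of_nat.le))
      (mul_zero C ▸ t0.const_mul C)).sqrt
    simpa only [Real.sqrt_sq (norm_nonneg _), Real.sqrt_zero] using this
  refine ⟨fun k => r k, fun k => (r k).2, fun ε hε => ?_, fun s hs => lim _ _ (fun _ => hs)
    fun _ => le_rfl, lim _ (2 * (ip w w).re + 2 * (d + 1)) (fun k => (r k).2) fun k => ?_⟩
  · obtain ⟨N, hN⟩ := eventually_atTop.1 (t0.eventually (gt_mem_nhds (by linarith : 0 < ε / 4)))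
    refine ⟨N, fun k hk l hl => ?_⟩
    have e1 := par (w - r l) (w - r k)
    have e2 := lo _ (R.smul_mem (1 / 2) (R.add_mem (r l).2 (r k).2))
    have e3 := ex (w - (1 / 2 : ℂ) • (r l + r k)) (w - (1 / 2 : ℂ) • (r l + r k)) 1
    rw [show w - (1 / 2 : ℂ) • ((r l : W) + r k) + (1 : ℂ) • (w - (1 / 2 : ℂ) • (r l + r k)) =
      w - r l + (w - r k) by module, map_one, one_mul, norm_one] at e3
    rw [sub_sub_sub_cancel_left] at e1
    linarith [hr k, hr l, hN k hk, hN l hl]
  · have e1 := par w (w - r k)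
    rw [sub_sub_cancel] at e1
    linarith [hr k, h0 (w + (w - r k)), (Nat.one_div_le_one_div k.zero_le : (1 : ℝ) / _ ≤ _),
      show (1 : ℝ) / ((0 : ℕ) + 1) = 1 by simp]

end Vale.Agent.P253Y.D
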