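import Vale.Agent.P253Y.D.Spec

/-!
# P253Y, block D, row POS: the curvature term is positive on primitive forms
-/

open scoped ContDiff ComplexConjugate Matrix ComplexOrder Topology
open Set Filter

noncomputable section

namespace Vale.Agent.P253Y.D

open Vale.Agent.P267 Vale.Agent.P267.FL

namespace Ps

theorem unif {Y V : Type} [TopologicalSpace Y] [NormedAddCommGroup V] [NormedSpace ℝ V]
    [ProperSpace V] {S : Set Y} (hS : IsCompact S) {f g : Y → V → ℝ}
    (cf : ContinuousOn (fun q : Y × V => f q.1 q.2) (S ×ˢ univ))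
    (cg : ContinuousOn (fun q : Y × V => g q.1 q.2) (S ×ˢ univ))
    (hf : ∀ z ∈ S, ∀ v, v ≠ 0 → 0 < f z v) (h1 : ∀ z (c : ℝ) v, f z (c • v) = c ^ 2 * f z v)
    (h2 : ∀ z (c : ℝ) v, g z (c • v) = c ^ 2 * g z v) :
    ∃ C : ℝ, 0 < C ∧ ∀ z ∈ S, ∀ v, g z v ≤ C * f z v := by
  have h3 : ∀ q ∈ S ×ˢ Metric.sphere (0 : V) 1, 0 < f q.1 q.2 := fun q hq =>
    hf _ hq.1 _ (Metric.ne_of_mem_sphere hq.2 one_ne_zero)
  have h4 := prod_mono (Subset.refl S) (subset_univ (Metric.sphere (0 : V) 1))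
  obtain ⟨C, hC⟩ := (hS.prod (isCompact_sphere (0 : V) 1)).bddAbove_image
    ((cg.mono h4).div (cf.mono h4) fun q hq => (h3 q hq).ne')
  refine ⟨max C 1, lt_max_of_lt_right one_pos, fun z hz v => ?_⟩
  rcases eq_or_ne v 0 with rfl | h
  · have a := h1 z 0 0
    have b := h2 z 0 0
    rw [zero_smul] at a b
    rw [a, b]
    simp
  have h5 : (z, ‖v‖⁻¹ • v) ∈ S ×ˢ Metric.sphere (0 : V) 1 :=
    ⟨hz, mem_sphere_zero_iff_norm.2 (norm_smul_inv_norm h)⟩
  have h6 := (div_le_iff₀ (h3 _ h5)).1 ((hC ⟨_, h5, rfl⟩).trans (le_max_left C 1))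
  simp only [h1, h2] at h6
  rw [mul_left_comm] at h6
  exact le_of_mul_le_mul_left h6 (by have := norm_pos_iff.2 h; positivity)

/-- the symmetric tensor -/
def W (v : ℂ × ℂ × ℂ) : Mat := !![v.1, v.2.1; v.2.1, v.2.2]

/-- the matrix without trace -/
def V (v : ℂ × ℂ × ℂ) : Mat := !![-v.2.1, -v.2.2; v.1, v.2.1]

theorem factor {v : ℂ × ℂ × ℂ} (h : v ≠ 0) : ∃ x y : C2, x ≠ 0 ∧ y ≠ 0 ∧ x 0 * y 0 = v.1 ∧
    (x 0 * y 1 + x 1 * y 0) / 2 = v.2.1 ∧ x 1 * y 1 = v.2.2 := by
  obtain ⟨a, b, c⟩ := v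
  by_cases ha : a = 0
  · refine ⟨![0, 1], ![2 * b, c], fun e => one_ne_zero (congrFun e 1), fun e => h ?_, by simp [ha],
      by simp, by simp⟩
    have h1 : 2 * b = 0 := congrFun e 0
    have h2 : c = 0 := congrFun e 1
    rw [ha, h2, (mul_eq_zero.1 h1).resolve_left two_ne_zero]
    rfl
  obtain ⟨s, hs⟩ := IsAlgClosed.exists_pow_nat_eq (b ^ 2 - a * c) two_pos
  refine ⟨![1, (b + s) / a], ![a, b - s], fun e => one_ne_zero (congrFun e 0),
    fun e => ha (congrFun e 0), one_mul _, ?_, ?_⟩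
  · change (1 * (b - s) + (b + s) / a * a) / 2 = b
    field_simp
    ring
  · change (b + s) / a * (b - s) = c
    field_simp
    linear_combination -hs

theorem sum_eq {R : Fin 2 → Fin 2 → Fin 2 → Fin 2 → ℂ} (h1 : ∀ c d a k, R c d a k = R a d c k)
    (h2 : ∀ c d a k, R c d a k = R c k a d) (x y : C2) :
    ∑ c, ∑ d, ∑ a, ∑ k, R c d a k *
      (W (x 0 * y 0, (x 0 * y 1 + x 1 * y 0) / 2, x 1 * y 1) a c *
        conj (W (x 0 * y 0, (x 0 * y 1 + x 1 * y 0) / 2, x 1 * y 1) k d)) =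
      ∑ c, ∑ d, ∑ a, ∑ k, R c d a k * (y c * conj (y d) * (x a * conj (x k))) := by
  simp only [Fin.sum_univ_two, W, Matrix.of_apply, Matrix.cons_val', Matrix.cons_val_zero,
    Matrix.cons_val_one, Matrix.cons_val_fin_one, fun d k => h1 1 d 0 k, fun c a => h2 c 1 a 0,
    map_mul, map_add, map_div₀, map_ofNat]
  ring

variable {U : Set C2} {H : C2 → Mat} {z : C2}

theorem sm (hU : IsOpen U) (h : KOn U H) (hz : z ∈ U) (i j : Fin 2) :
    ContDiffAt ℝ ∞ (fun y => H y i j) z := (h.sm i j).contDiffAt (hU.mem_nhds hz)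

theorem clb (hU : IsOpen U) (h : KOn U H) (hz : z ∈ U) (a d k : Fin 2) :
    dzb d (fun y => H y a k) z = dzb k (fun y => H y a d) z := by
  have e : ∀ i j, (fun y => H y i j) =ᶠ[𝓝 z] fun y => conj (H y j i) := fun i j =>
    mem_of_superset (hU.mem_nhds hz) fun y hy => ((h.pos y hy).1.apply i j).symm
  have d1 := fun i j => (sm hU h hz i j).differentiableAt (by simp)
  rw [dzb_congr (e a k), dzb_congr (e a d), dzb_conj (d1 _ _), dzb_conj (d1 _ _), h.cl z hz]

theorem cv1 (hU : IsOpen U) (h : KOn U H) (hz : z ∈ U) (c d a k : Fin 2) :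
    cv H z c d a k = cv H z a d c k := by
  have e : dz c (fun y => H y a k) =ᶠ[𝓝 z] dz a fun y => H y c k :=
    mem_of_superset (hU.mem_nhds hz) fun y hy => h.cl y hy a k c
  have t := fun i j => (sm hU h hz i j).of_le (m := 2) (by norm_cast)
  simp only [cv, h.cl z hz a _ c]
  rw [dz_dzb_comm (t a k), dz_dzb_comm (t c k), dzb_congr e]

theorem cv2 (hU : IsOpen U) (h : KOn U H) (hz : z ∈ U) (c d a k : Fin 2) :
    cv H z c d a k = cv H z c k a d := by
  have e : dzb d (fun y => H y a k) =ᶠ[𝓝 z] dzb k fun y => H y a d :=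
    mem_of_superset (hU.mem_nhds hz) fun y hy => clb hU h hy a d k
  simp only [cv, clb hU h hz _ d k]
  rw [dz_congr e]

theorem cH (hU : IsOpen U) (h : KOn U H) (hz : z ∈ U) : ContinuousAt H z :=
  continuousAt_pi.2 fun i => continuousAt_pi.2 fun j => (sm hU h hz i j).continuousAt

theorem cinv (hU : IsOpen U) (h : KOn U H) (hz : z ∈ U) : ContinuousAt (fun y => (H y)⁻¹) z :=
  (continuousAt_matrix_inv _ (by
    rw [Ring.inverse_eq_inv']
    exact continuousAt_inv₀ (h.pos z hz).det_pos.ne')).comp (cH hU h hz)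

theorem ccv (hU : IsOpen U) (h : KOn U H) (hz : z ∈ U) (c d a k : Fin 2) :
    ContinuousAt (fun y => cv H y c d a k) z := by
  have h1 := fun i j l => contDiffAt_dz (m := ∞) (sm hU h hz i j) (by norm_cast) l
  have h2 := fun i j l => contDiffAt_dzb (m := ∞) (sm hU h hz i j) (by norm_cast) l
  refine (contDiffAt_dz (m := ∞) (h2 a k d) (by norm_cast) c).continuousAt.neg.add
    (tendsto_finsetSum _ fun q _ => tendsto_finsetSum _ fun p _ => ?_)
  exact ((h1 a q c).continuousAt.mul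
    (continuousAt_pi.1 (continuousAt_pi.1 (cinv hU h hz) q) p)).mul (h2 p k d).continuousAt

theorem cW : Continuous W := by
  refine continuous_matrix fun i j => ?_
  fin_cases i <;> fin_cases j <;> simp [W] <;> fun_prop

theorem cV : Continuous V := by
  refine continuous_matrix fun i j => ?_
  fin_cases i <;> fin_cases j <;> simp [V] <;> fun_prop

theorem W_smul (c : ℝ) (v : ℂ × ℂ × ℂ) : W (c • v) = (c : ℂ) • W v := by
  ext i j
  fin_cases i <;> fin_cases j <;> simp [W]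

theorem V_smul (c : ℝ) (v : ℂ × ℂ × ℂ) : V (c • v) = (c : ℂ) • V v := by
  ext i j
  fin_cases i <;> fin_cases j <;> simp [V]

theorem q_smul (c : ℝ) (H A : Mat) :
    q11 H ((c : ℂ) • A) ((c : ℂ) • A) = ((c ^ 2 : ℝ) : ℂ) * q11 H A A := by
  simp only [q11, Matrix.conjTranspose_smul, Matrix.mul_smul, Matrix.smul_mul, Matrix.trace_smul,
    smul_eq_mul, RCLike.star_def, Complex.conj_ofReal, Complex.ofReal_pow]
  ring

theorem param {H A : Mat} (hH : H.PosDef) (h : (H⁻¹ * A).trace = 0) :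
    ∃ v, A = V v * H ∧ wv H A = W v := by
  rw [Matrix.trace_mul_comm, Matrix.trace_fin_two] at h
  have h1 : (A * H⁻¹) 0 0 = -(A * H⁻¹) 1 1 := eq_neg_of_add_eq_zero_left h
  refine ⟨((A * H⁻¹) 1 0, (A * H⁻¹) 1 1, -(A * H⁻¹) 0 1), ?_, ?_⟩
  · refine (Matrix.nonsing_inv_mul_cancel_right H A hH.det_pos.ne'.isUnit).symm.trans ?_
    congr 1
    ext i j
    fin_cases i <;> fin_cases j <;> simp [V, h1]
  · ext i j
    fin_cases i <;> fin_cases j <;> simp [W, wv, h1]

end Ps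

open Ps in
theorem pos (_ : ALG) : POS := by
  intro U H hU h hB S hS hSU
  refine (unif hS
    (f := fun z v => (∑ c, ∑ d, ∑ a, ∑ k, cv H z c d a k * (W v a c * conj (W v k d))).re)
    (g := fun z v => (q11 (H z) (V v * H z) (V v * H z)).re)
    (fun q hq => ContinuousAt.continuousWithinAt ?_) (fun q hq => ContinuousAt.continuousWithinAt ?_)
    (fun z hz v hv => ?_) (fun z c v => ?_) fun z c v => ?_).imp
    fun C hC => ⟨hC.1, fun z hz A hA => ?_⟩
  · have h1 : ∀ i j, ContinuousAt (fun q : C2 × ℂ × ℂ × ℂ => W q.2 i j) q := fun i j =>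
      ((cW.comp continuous_snd).matrix_elem i j).continuousAt
    refine Complex.continuous_re.continuousAt.comp (tendsto_finsetSum _ fun c _ =>
      tendsto_finsetSum _ fun d _ => tendsto_finsetSum _ fun a _ => tendsto_finsetSum _ fun k _ => ?_)
    exact ((ccv hU h (hSU hq.1) c d a k).comp continuousAt_fst).mul
      ((h1 a c).mul (Complex.continuous_conj.continuousAt.comp (h1 k d)))
  · have h1 : Continuous fun t : Mat × Mat × Mat =>
        (t.1.det * (t.2.1 * (t.2.2 * t.1) * t.2.1 * (t.2.2 * t.1)ᴴ).trace).re := by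
      fun_prop
    exact h1.continuousAt.comp (f := fun q : C2 × ℂ × ℂ × ℂ => (H q.1, (H q.1)⁻¹, V q.2))
      (((cH hU h (hSU hq.1)).comp continuousAt_fst).prodMk
        (((cinv hU h (hSU hq.1)).comp continuousAt_fst).prodMk (cV.comp continuous_snd).continuousAt))
  · obtain ⟨x, y, hx, hy, e1, e2, e3⟩ := factor hv
    have h1 := hB z (hSU hz) y x hy hx
    rwa [← sum_eq (cv1 hU h (hSU hz)) (cv2 hU h (hSU hz)), e1, e2, e3] at h1
  · rw [W_smul, ← Complex.re_ofReal_mul]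
    simp only [Finset.mul_sum, Matrix.smul_apply, smul_eq_mul, map_mul, Complex.conj_ofReal,
      Complex.ofReal_pow]
    refine congrArg _ (Finset.sum_congr rfl fun _ _ => Finset.sum_congr rfl fun _ _ =>
      Finset.sum_congr rfl fun _ _ => Finset.sum_congr rfl fun _ _ => ?_)
    ring
  · rw [V_smul, Matrix.smul_mul, q_smul, Complex.re_ofReal_mul]
  · obtain ⟨v, h1, h2⟩ := param (h.pos z (hSU hz)) hA
    rw [Rq, h2]
    exact h1 ▸ hC.2 z hz v

end Vale.Agent.P253Y.D
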