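import Vale.Agent.P253Y.D.SpecM
import Vale.Agent.P267.H332.Pair.Deck

/-!
# P253Y, block D: transport of forms along an open embedding (row TRF)
-/

open scoped Manifold ContDiff ComplexConjugate Topology
open MeasureTheory Set Filter

noncomputable section

namespace Vale.Agent.P253Y.D

open Vale.Agent.P267 Vale.Agent.P267.FL

namespace Trf

/-- a chart which is holomorphic in both directions is in the maximal atlas -/
theorem mem_max {M : Type} [TopologicalSpace M] [ChartedSpace C2 M] [IsManifold 𝓘(ℂ, C2) 1 M]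
    (c : Ch M) (h1 : MDifferentiableOn 𝓘(ℂ, C2) 𝓘(ℂ, C2) c c.source)
    (h2 : MDifferentiableOn 𝓘(ℂ, C2) 𝓘(ℂ, C2) c.symm c.target) :
    c ∈ IsManifold.maximalAtlas 𝓘(ℂ, C2) 1 M := by
  intro e he
  have k1 : ContDiffOn ℂ 1 (e ∘ c.symm) (c.symm.trans e).source := by
    refine (P253.Mfd.contDiffOn_of_differentiableOn_complex (c.symm.trans e).open_source
      ?_).of_le (by simp)
    rw [← mdifferentiableOn_iff_differentiableOn]
    exact (mdifferentiableOn_atlas he).comp (h2.mono inter_subset_left) fun z hz => hz.2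
  have k2 : ContDiffOn ℂ 1 (c ∘ e.symm) (e.symm.trans c).source := by
    refine (P253.Mfd.contDiffOn_of_differentiableOn_complex (e.symm.trans c).open_source
      ?_).of_le (by simp)
    rw [← mdifferentiableOn_iff_differentiableOn]
    exact h1.comp ((mdifferentiableOn_atlas_symm he).mono inter_subset_left) fun z hz => hz.2
  simp only [contDiffGroupoid, mem_groupoid_of_pregroupoid, contDiffPregroupoid, mfld_simps] at *
  exact ⟨⟨k1, k2⟩, k2, k1⟩

variable {X Y : Type} [TopologicalSpace X] [TopologicalSpace Y]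

open Classical in
/-- extension by zero -/
def ex {β : Type} [Zero β] (ι : OpenPartialHomeomorph Y X) (s : Y → β) (x : X) : β :=
  if x ∈ ι.target then s (ι.symm x) else 0

variable {ι : OpenPartialHomeomorph Y X}

theorem ex_app {β : Type} [Zero β] (s : Y → β) {y : Y} (hy : y ∈ ι.source) :
    ex ι s (ι y) = s y := by
  rw [ex, if_pos (ι.map_source hy), ι.left_inv hy]

theorem ex_out {β : Type} [Zero β] (s : Y → β) {x : X} (hx : x ∉ ι.target) : ex ι s x = 0 := by
  rw [ex, if_neg hx]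

theorem ex_zero {β : Type} [Zero β] {s : Y → β} {K : Set Y} (h : ∀ y ∉ K, s y = 0) {x : X}
    (hx : x ∉ ι '' K) : ex ι s x = 0 := by
  by_cases ht : x ∈ ι.target
  · rw [ex, if_pos ht]
    exact h _ fun hK => hx ⟨_, hK, ι.right_inv ht⟩
  · exact ex_out s ht

theorem img_compact {K : Set Y} (hK : IsCompact K) (hs : K ⊆ ι.source) : IsCompact (ι '' K) :=
  hK.image_of_continuousOn (ι.continuousOn.mono hs)

theorem img_sub {K : Set Y} (hs : K ⊆ ι.source) : ι '' K ⊆ ι.target := by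
  rintro _ ⟨y, hy, rfl⟩
  exact ι.map_source (hs hy)

theorem ex_cont [T2Space X] {r : Y → ℝ} (hr : Continuous r) {K : Set Y} (hK : IsCompact K)
    (hs : K ⊆ ι.source) (h : ∀ y ∉ K, r y = 0) : Continuous (ex ι r) := by
  refine continuous_iff_continuousAt.2 fun x => ?_
  by_cases hx : x ∈ ι.target
  · refine (hr.continuousAt.comp (ι.continuousAt_symm hx)).congr ?_
    filter_upwards [ι.open_target.mem_nhds hx] with w hw
    rw [ex, if_pos hw]
    rfl
  · refine (continuousAt_const (y := (0 : ℝ))).congr ?_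
    filter_upwards [(img_compact hK hs).isClosed.isOpen_compl.mem_nhds
      fun h' => hx (img_sub hs h')] with w hw
    exact (ex_zero h hw).symm

variable [ChartedSpace C2 X] [ChartedSpace C2 Y]

variable (ι) in
/-- the preferred charts correspond -/
def Ad : Prop := ∀ y ∈ ι.source, chartAt C2 (ι y) = ι.symm.trans (chartAt C2 y)

theorem jac_eq (hG : Ad ι) (e : Ch Y) {z : C2} (hz : z ∈ (ι.symm.trans e).target) :
    jac (ι.symm.trans e) (ι (e.symm z)) = jac e (e.symm z) := by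
  have hy : e.symm z ∈ ι.source := hz.2
  ext p i
  rw [jac, jac, jacM, jacM, Matrix.of_apply, Matrix.of_apply, hG _ hy]
  have h1 : (ι.symm.trans e) (ι (e.symm z)) = e (e.symm z) := by
    change e (ι.symm (ι (e.symm z))) = _
    rw [ι.left_inv hy]
  rw [h1, e.right_inv hz.1]
  refine dz_congr ?_ i
  filter_upwards [(ι.symm.trans e).open_target.mem_nhds hz] with w hw
  change chartAt C2 (e.symm z) (ι.symm (ι (e.symm w))) p = _
  rw [ι.left_inv hw.2]

theorem loc0_eq (hG : Ad ι) (κ : ℤ) (e : Ch Y) (s : Y → ℂ) {z : C2}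
    (hz : z ∈ (ι.symm.trans e).target) : loc0 κ (ι.symm.trans e) (ex ι s) z = loc0 κ e s z := by
  change (jac (ι.symm.trans e) (ι (e.symm z))).det ^ κ • ex ι s (ι (e.symm z)) = _
  rw [jac_eq hG e hz, ex_app s hz.2, loc0]

theorem loc2_eq (hG : Ad ι) (κ : ℤ) (e : Ch Y) (s : Y → ℂ) {z : C2}
    (hz : z ∈ (ι.symm.trans e).target) : loc2 κ (ι.symm.trans e) (ex ι s) z = loc2 κ e s z := by
  change (jac (ι.symm.trans e) (ι (e.symm z))).det ^ κ •
    conj (jac (ι.symm.trans e) (ι (e.symm z))).det • ex ι s (ι (e.symm z)) = _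
  rw [jac_eq hG e hz, ex_app s hz.2, loc2]

theorem loc11_eq (hG : Ad ι) (e : Ch Y) (s : Y → Mat) {z : C2}
    (hz : z ∈ (ι.symm.trans e).target) : loc11 (ι.symm.trans e) (ex ι s) z = loc11 e s z := by
  change (Matrix.of fun i j => ∑ p, ∑ q, (jac (ι.symm.trans e) (ι (e.symm z)) p i *
    conj (jac (ι.symm.trans e) (ι (e.symm z)) q j)) • ex ι s (ι (e.symm z)) p q) = _
  rw [jac_eq hG e hz, ex_app s hz.2, loc11]

theorem ctr (hG : Ad ι) {y : Y} (hy : y ∈ ι.source) :
    chartAt C2 (ι y) (ι y) = chartAt C2 y y := by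
  rw [hG y hy]
  change chartAt C2 y (ι.symm (ι y)) = _
  rw [ι.left_inv hy]

omit [ChartedSpace C2 X] in
theorem ev_tgt {y : Y} (hy : y ∈ ι.source) :
    ∀ᶠ z in 𝓝 (chartAt C2 y y), z ∈ (ι.symm.trans (chartAt C2 y)).target := by
  refine (ι.symm.trans (chartAt C2 y)).open_target.mem_nhds ⟨mem_chart_target C2 y, ?_⟩
  change (chartAt C2 y).symm (chartAt C2 y y) ∈ ι.source
  rwa [(chartAt C2 y).left_inv (mem_chart_source C2 y)]

theorem loc0_ev (hG : Ad ι) (κ : ℤ) (s : Y → ℂ) {y : Y} (hy : y ∈ ι.source) :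
    loc0 κ (chartAt C2 (ι y)) (ex ι s) =ᶠ[𝓝 (chartAt C2 y y)] loc0 κ (chartAt C2 y) s := by
  rw [hG y hy]
  exact (ev_tgt hy).mono fun z hz => loc0_eq hG κ _ s hz

theorem loc2_ev (hG : Ad ι) (κ : ℤ) (s : Y → ℂ) {y : Y} (hy : y ∈ ι.source) :
    loc2 κ (chartAt C2 (ι y)) (ex ι s) =ᶠ[𝓝 (chartAt C2 y y)] loc2 κ (chartAt C2 y) s := by
  rw [hG y hy]
  exact (ev_tgt hy).mono fun z hz => loc2_eq hG κ _ s hz

theorem loc11_ev (hG : Ad ι) (s : Y → Mat) {y : Y} (hy : y ∈ ι.source) (i j : Fin 2) :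
    (fun z => loc11 (chartAt C2 (ι y)) (ex ι s) z i j) =ᶠ[𝓝 (chartAt C2 y y)]
      fun z => loc11 (chartAt C2 y) s z i j := by
  rw [hG y hy]
  refine (ev_tgt hy).mono fun z hz => ?_
  change loc11 _ (ex ι s) z i j = loc11 _ s z i j
  rw [loc11_eq hG _ s hz]

variable [T2Space X] {K : Set Y}

omit [ChartedSpace C2 Y] in
theorem ev_out {β : Type} [Zero β] {s : Y → β} (hK : IsCompact K) (hs : K ⊆ ι.source)
    (h : ∀ y ∉ K, s y = 0) {x : X} (hx : x ∉ ι.target) :
    ∀ᶠ z in 𝓝 (chartAt C2 x x), ex ι s ((chartAt C2 x).symm z) = 0 := by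
  have h1 : (ι '' K)ᶜ ∈ 𝓝 ((chartAt C2 x).symm (chartAt C2 x x)) := by
    rw [(chartAt C2 x).left_inv (mem_chart_source C2 x)]
    exact (img_compact hK hs).isClosed.isOpen_compl.mem_nhds fun h' => hx (img_sub hs h')
  filter_upwards [((chartAt C2 x).continuousAt_symm (mem_chart_target C2 x)).eventually_mem h1]
    with z hz
  exact ex_zero h hz

omit [ChartedSpace C2 Y] in
theorem loc0_out (κ : ℤ) {s : Y → ℂ} (hK : IsCompact K) (hs : K ⊆ ι.source)
    (h : ∀ y ∉ K, s y = 0) {x : X} (hx : x ∉ ι.target) :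
    loc0 κ (chartAt C2 x) (ex ι s) =ᶠ[𝓝 (chartAt C2 x x)] fun _ => 0 := by
  filter_upwards [ev_out hK hs h hx] with z hz
  rw [loc0, hz, smul_zero]

omit [ChartedSpace C2 Y] in
theorem loc2_out (κ : ℤ) {s : Y → ℂ} (hK : IsCompact K) (hs : K ⊆ ι.source)
    (h : ∀ y ∉ K, s y = 0) {x : X} (hx : x ∉ ι.target) :
    loc2 κ (chartAt C2 x) (ex ι s) =ᶠ[𝓝 (chartAt C2 x x)] fun _ => 0 := by
  filter_upwards [ev_out hK hs h hx] with z hz
  rw [loc2, hz, smul_zero, smul_zero]

omit [ChartedSpace C2 Y] in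
theorem loc11_out {s : Y → Mat} (hK : IsCompact K) (hs : K ⊆ ι.source)
    (h : ∀ y ∉ K, s y = 0) {x : X} (hx : x ∉ ι.target) (i j : Fin 2) :
    (fun z => loc11 (chartAt C2 x) (ex ι s) z i j) =ᶠ[𝓝 (chartAt C2 x x)] fun _ => 0 := by
  filter_upwards [ev_out hK hs h hx] with z hz
  simp [loc11, hz]

variable (ι) in
/-- the transported form -/
def tr (η : TwoF Y) : TwoF X := ⟨ex ι η.f20, ex ι η.f11, ex ι η.f02⟩

omit [ChartedSpace C2 X] [ChartedSpace C2 Y] [T2Space X] in
theorem tr_wedge (η : TwoF Y) : (tr ι η).wedge (tr ι η) = ex ι (η.wedge η) := by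
  funext x
  by_cases hx : x ∈ ι.target <;> simp [tr, TwoF.wedge, ex, hx]

omit [ChartedSpace C2 X] [ChartedSpace C2 Y] [T2Space X] in
theorem tr_real {η : TwoF Y} (h : η.Real) : (tr ι η).Real := by
  intro x
  by_cases hx : x ∈ ι.target
  · simpa [tr, ex, hx] using h (ι.symm x)
  · simp [tr, ex, hx]

theorem tr_closed (hG : Ad ι) {η : TwoF Y} (h : η.Closed) (hK : IsCompact (H332.supp2 η))
    (hs : H332.supp2 η ⊆ ι.source) : (tr ι η).Closed := by
  have z1 : ∀ y ∉ H332.supp2 η, η.f20 y = 0 := fun y hy => (H332.eq_zero_of_notMem_supp2 hy).1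
  have z2 : ∀ y ∉ H332.supp2 η, η.f11 y = 0 := fun y hy => (H332.eq_zero_of_notMem_supp2 hy).2.1
  have z3 : ∀ y ∉ H332.supp2 η, η.f02 y = 0 := fun y hy => (H332.eq_zero_of_notMem_supp2 hy).2.2
  refine ⟨fun x j => ?_, fun x i => ?_⟩
  · by_cases hx : x ∈ ι.target
    · obtain ⟨y, hy, rfl⟩ : ∃ y ∈ ι.source, ι y = x := ⟨_, ι.map_target hx, ι.right_inv hx⟩
      rw [← h.1 y j]
      simp only [TwoF.d21, dbar0, tr, ctr hG hy]
      rw [dzb_congr (loc0_ev hG 1 η.f20 hy), dz_congr (loc11_ev hG η.f11 hy 1 j),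
        dz_congr (loc11_ev hG η.f11 hy 0 j)]
    · simp only [TwoF.d21, dbar0, tr]
      rw [dzb_congr (loc0_out 1 hK hs z1 hx), dz_congr (loc11_out hK hs z2 hx 1 j),
        dz_congr (loc11_out hK hs z2 hx 0 j)]
      simp
  · by_cases hx : x ∈ ι.target
    · obtain ⟨y, hy, rfl⟩ : ∃ y ∈ ι.source, ι y = x := ⟨_, ι.map_target hx, ι.right_inv hx⟩
      rw [← h.2 y i]
      simp only [TwoF.d12, tr, ctr hG hy]
      rw [dz_congr (loc2_ev hG 0 η.f02 hy), dzb_congr (loc11_ev hG η.f11 hy i 1),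
        dzb_congr (loc11_ev hG η.f11 hy i 0)]
    · simp only [TwoF.d12, tr]
      rw [dz_congr (loc2_out 0 hK hs z3 hx), dzb_congr (loc11_out hK hs z2 hx i 1),
        dzb_congr (loc11_out hK hs z2 hx i 0)]
      simp

omit [ChartedSpace C2 X] in
theorem tr_supp {η : TwoF Y} (hK : IsCompact (H332.supp2 η)) (hs : H332.supp2 η ⊆ ι.source) :
    IsCompact (H332.supp2 (tr ι η)) := by
  refine (img_compact hK hs).of_isClosed_subset isClosed_closure
    (closure_minimal (fun x hx => ?_) (img_compact hK hs).isClosed)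
  by_contra hx'
  have z1 : ex ι η.f20 x = 0 := ex_zero (fun y hy => (H332.eq_zero_of_notMem_supp2 hy).1) hx'
  have z2 : ex ι η.f11 x = 0 := ex_zero (fun y hy => (H332.eq_zero_of_notMem_supp2 hy).2.1) hx'
  have z3 : ex ι η.f02 x = 0 := ex_zero (fun y hy => (H332.eq_zero_of_notMem_supp2 hy).2.2) hx'
  simp [tr, z1, z2, z3] at hx

variable [IsManifold 𝓘(ℂ, C2) ω X] [IsManifold 𝓘(ℂ, C2) ω Y] {n : WithTop ℕ∞}

theorem reg0_ex (hG : Ad ι) {κ : ℤ} {s : Y → ℂ} (hr : Reg0 n κ s) (hK : IsCompact K)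
    (hs : K ⊆ ι.source) (h : ∀ y ∉ K, s y = 0) : Reg0 n κ (ex ι s) := by
  rw [reg0_iff] at hr ⊢
  intro x
  by_cases hx : x ∈ ι.target
  · obtain ⟨y, hy, rfl⟩ : ∃ y ∈ ι.source, ι y = x := ⟨_, ι.map_target hx, ι.right_inv hx⟩
    rw [ctr hG hy]
    exact (hr y).congr_of_eventuallyEq (loc0_ev hG κ s hy)
  · exact contDiffAt_const.congr_of_eventuallyEq (loc0_out κ hK hs h hx)

theorem reg2_ex (hG : Ad ι) {κ : ℤ} {s : Y → ℂ} (hr : Reg2 n κ s) (hK : IsCompact K)
    (hs : K ⊆ ι.source) (h : ∀ y ∉ K, s y = 0) : Reg2 n κ (ex ι s) := by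
  rw [reg2_iff] at hr ⊢
  intro x
  by_cases hx : x ∈ ι.target
  · obtain ⟨y, hy, rfl⟩ : ∃ y ∈ ι.source, ι y = x := ⟨_, ι.map_target hx, ι.right_inv hx⟩
    rw [ctr hG hy]
    exact (hr y).congr_of_eventuallyEq (loc2_ev hG κ s hy)
  · exact contDiffAt_const.congr_of_eventuallyEq (loc2_out κ hK hs h hx)

theorem reg11_ex (hG : Ad ι) {s : Y → Mat} (hr : Reg11 n s) (hK : IsCompact K)
    (hs : K ⊆ ι.source) (h : ∀ y ∉ K, s y = 0) : Reg11 n (ex ι s) := by
  rw [H332.reg11_iff] at hr ⊢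
  intro x i j
  by_cases hx : x ∈ ι.target
  · obtain ⟨y, hy, rfl⟩ : ∃ y ∈ ι.source, ι y = x := ⟨_, ι.map_target hx, ι.right_inv hx⟩
    rw [ctr hG hy]
    exact (hr y i j).congr_of_eventuallyEq (loc11_ev hG s hy i j)
  · exact contDiffAt_const.congr_of_eventuallyEq (loc11_out hK hs h hx i j)

theorem tr_mem (hG : Ad ι) {η : TwoF Y} (h : η ∈ H332.HR Y) (hs : H332.supp2 η ⊆ ι.source) :
    tr ι η ∈ H332.HR X := by
  obtain ⟨⟨h1, h2, hK⟩, h4⟩ := h
  exact ⟨⟨⟨reg0_ex hG h1.s20 hK hs fun y hy => (H332.eq_zero_of_notMem_supp2 hy).1,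
    reg11_ex hG h1.s11 hK hs fun y hy => (H332.eq_zero_of_notMem_supp2 hy).2.1,
    reg2_ex hG h1.s02 hK hs fun y hy => (H332.eq_zero_of_notMem_supp2 hy).2.2⟩,
    tr_closed hG h2 hK hs, tr_supp hK hs⟩, tr_real h4⟩

variable [SigmaCompactSpace X] [T2Space Y] [SigmaCompactSpace Y]

theorem intX_ex (hG : Ad ι) (hA : ∀ e ∈ atlas C2 Y, ι.symm.trans e ∈ atlas C2 X) {b : Y → ℂ}
    (hr : Reg2 0 1 b) (hK : IsCompact K) (hs : K ⊆ ι.source) (h : ∀ y ∉ K, b y = 0) :
    intX (ex ι b) = intX b := by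
  have : LocallyCompactSpace Y := ChartedSpace.locallyCompactSpace C2 Y
  obtain ⟨N, e, r, he, hrc, hrk, hrs, hsum⟩ := exists_finite_pou hK
  obtain ⟨L, hL, hKL, hLs⟩ := exists_compact_between hK ι.open_source hs
  obtain ⟨f, hf1, hf0, -, -⟩ := exists_continuous_one_zero_of_isCompact hK
    (isClosed_compl_iff.mpr (isOpen_interior (s := L))) (by
      rw [Set.disjoint_compl_right_iff_subset]; exact hKL)
  set ρ : Fin N → Y → ℝ := fun i y => f y * r i y with hρ
  have hc : ∀ i, Continuous (ρ i) := fun i => f.continuous.mul (hrc i)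
  have hS : ∀ i, IsCompact (L ∩ tsupport (r i)) := fun i => hL.inter_right isClosed_closure
  have hz : ∀ i, ∀ y ∉ L ∩ tsupport (r i), ρ i y = 0 := by
    intro i y hy
    by_cases h1 : y ∈ L
    · have : r i y = 0 := image_eq_zero_of_notMem_tsupport fun h2 => hy ⟨h1, h2⟩
      simp [hρ, this]
    · have : f y = 0 := hf0 fun h2 => h1 (interior_subset h2)
      simp [hρ, this]
  have hSs : ∀ i, L ∩ tsupport (r i) ⊆ ι.source := fun i => inter_subset_left.trans hLs
  have h1 : ∀ y ∈ K, ∑ i, ρ i y = 1 := by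
    intro y hy
    have : f y = 1 := hf1 hy
    simp only [hρ, this, one_mul]
    exact hsum y hy
  have tb : tsupport b ⊆ K := closure_minimal (fun y hy => by
    by_contra h'
    exact hy (h y h')) hK.isClosed
  have tb' : tsupport (ex ι b) ⊆ ι '' K := closure_minimal (fun x hx => by
    by_contra h'
    exact hx (ex_zero h h')) (img_compact hK hs).isClosed
  have tr' : ∀ i, tsupport (ex ι (ρ i)) ⊆ ι '' (L ∩ tsupport (r i)) := fun i =>
    closure_minimal (fun x hx => by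
      by_contra h'
      exact hx (ex_zero (hz i) h')) (img_compact (hS i) (hSs i)).isClosed
  have e1 := hasInt_intX hr (hK.of_isClosed_subset isClosed_closure tb) N e ρ he hc
    (fun i => HasCompactSupport.intro (hS i) (hz i))
    (fun i => (tsupport_mul_subset_right).trans (hrs i)) fun y hy => h1 y (tb hy)
  have e2 := hasInt_intX (reg2_ex hG hr hK hs h)
    ((img_compact hK hs).of_isClosed_subset isClosed_closure tb') N
    (fun i => ι.symm.trans (e i)) (fun i => ex ι (ρ i)) (fun i => hA _ (he i))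
    (fun i => ex_cont (hc i) (hS i) (hSs i) (hz i))
    (fun i => (img_compact (hS i) (hSs i)).of_isClosed_subset isClosed_closure (tr' i))
    (fun i x hx => by
      obtain ⟨y, hy, rfl⟩ := tr' i hx
      refine ⟨ι.map_source (hSs i hy), ?_⟩
      change ι.symm (ι y) ∈ (e i).source
      rw [ι.left_inv (hSs i hy)]
      exact hrs i hy.2)
    (fun x hx => by
      obtain ⟨y, hy, rfl⟩ := tb' hx
      simp only [ex_app _ (hs hy)]
      exact h1 y hy)
  rw [← e1, ← e2]
  refine Finset.sum_congr rfl fun i _ => ?_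
  have hm := (ι.symm.trans (e i)).open_target.measurableSet
  rw [setIntegral_eq_of_subset_of_forall_sdiff_eq_zero (e i).open_target.measurableSet
    (t := (e i).target) (s := (ι.symm.trans (e i)).target) inter_subset_left]
  · refine setIntegral_congr_fun hm fun z hz' => ?_
    change (4 * ((ex ι (ρ i) (ι ((e i).symm z)) : ℝ) : ℂ)) * loc2 1 (ι.symm.trans (e i)) (ex ι b) z = _
    rw [loc2_eq hG 1 _ b hz', ex_app _ hz'.2]
  · intro z hz'
    have : ρ i ((e i).symm z) = 0 := hz i _ fun h2 => hz'.2 ⟨hz'.1, hSs i h2⟩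
    simp [this]

end Trf

open Trf

variable {M : Type} [MetricSpace M] [ChartedSpace C2 M] [SigmaCompactSpace M]
  [IsManifold 𝓘(ℂ, C2) 1 M]

/-- **TRF** -/
theorem trf (a : P253Z.B1a 2 M) (m : MAN M) : TRF M := by
  classical
  intro hF Y _ _ _ _ _ ι h1 h2 η hη hs
  have : IsManifold 𝓘(ℂ, C2) 1 Y := IsManifold.of_le (n := ω) le_top
  have hc : ∀ e ∈ atlas C2 Y, P253Z.Hc (n := 2) (M := M) (ι.symm.trans e) := by
    intro e he
    refine mem_max _ ?_ ?_
    · exact (mdifferentiableOn_atlas he).comp (h2.mono inter_subset_left) fun z hz => hz.2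
    · exact h1.comp ((mdifferentiableOn_atlas_symm he).mono inter_subset_left) fun z hz => hz.2
  let A : Atl M :=
    { ch := fun x => if x ∈ ι.target then ι.symm.trans (chartAt C2 (ι.symm x)) else chartAt C2 x
      hc := fun x => by
        split_ifs
        · exact hc _ (chart_mem_atlas C2 _)
        · exact a.chart x
      mem := fun x => by
        split_ifs with hx
        · exact ⟨hx, mem_chart_source C2 _⟩
        · exact mem_chart_source C2 x }
  have := m A
  let ι' : OpenPartialHomeomorph Y A.T := ι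
  have hG : Ad ι' := by
    intro y hy
    change (if ι y ∈ ι.target then ι.symm.trans (chartAt C2 (ι.symm (ι y))) else _) = _
    rw [if_pos (ι.map_source hy), ι.left_inv hy]
    rfl
  have h3 := hF A _ (tr_mem hG hη hs)
  rwa [tr_wedge, intX_ex hG hc (H332.reg2_wedge hη.1.1 hη.1.1).zero_order hη.1.2.2 hs
    fun y hy => by
      obtain ⟨z1, z2, z3⟩ := H332.eq_zero_of_notMem_supp2 hy
      simp [TwoF.wedge, z1, z2, z3]] at h3

end Vale.Agent.P253Y.D
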