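import Vale.Agent.P253Y.D.Alg
import Vale.Agent.P253Y.D.Ip
import Vale.Agent.P253Y.D.Bl
import Vale.Agent.P253Y.D.Pos
import Vale.Agent.P253Y.D.Apr
import Vale.Agent.P253Y.D.Lc
import Vale.Agent.P253Y.D.Cmp
import Vale.Agent.P253Y.D.Loc
import Vale.Agent.P253Y.D.Glo
import Vale.Agent.P253Y.D.Min
import Vale.Agent.P253Y.D.Fin
import Vale.Agent.P253Y.D.Kdm
import Vale.Agent.P253Y.D.Trf
import Vale.Agent.P253Z.B1a
import Vale.Agent.P253Z.B1b
import Vale.Agent.P253Z.EXH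

/-!
# P253Y, block D: the theorem
-/

open scoped Manifold ContDiff Bundle
open Bundle Vale.Agent.P253.Mfd
open Vale.Agent.P272.K (Cm)

noncomputable section

namespace Vale.Agent.P253Y.D

open Vale.Agent.P267 Vale.Agent.P267.FL

theorem fin_of_kd {X : Type} [TopologicalSpace X] [ChartedSpace C2 X] [IsManifold 𝓘(ℂ, C2) ω X]
    [T2Space X] [SigmaCompactSpace X] {h : X → Mat} (K : KD h) : FIN X :=
  have I := ip alg K.herm
  fin alg K I (glo K I (apr alg (bl alg) (pos alg) K I)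
    (loc alg K.herm I (cmp alg K.herm I) (lc alg))) min

variable {M : Type} [MetricSpace M] [ChartedSpace (Cm 2) M]
  [IsManifold 𝓘(ℂ, Cm 2) 1 M] [IsManifold 𝓘(ℝ, Cm 2) ∞ M]
  [RiemannianBundle (fun x : M => TangentSpace 𝓘(ℝ, Cm 2) x)]
  [IsContMDiffRiemannianBundle 𝓘(ℝ, Cm 2) ∞ (Cm 2) (fun x : M => TangentSpace 𝓘(ℝ, Cm 2) x)]
  [IsRiemannianManifold 𝓘(ℝ, Cm 2) M] [CompleteSpace M] [ConnectedSpace M] [NoncompactSpace M]

/-- **BOC** -/
theorem boc (hK : IsKahler (Cm 2) M) (hp : ∀ x : M, PosBisectionalAt (Cm 2) x) : BOC M := by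
  borelize M
  have : ProperSpace M := properSpace_riemannian (Cm 2) M
  have a : P253Z.B1a 2 M := P253Z.b1a
  have b := P253Z.b1b hK a
  refine trf a (man a) fun A => ?_
  have := man a A
  obtain ⟨h, K⟩ := kdm hK hp a b (P253Z.exh hK a b) A
  exact fin_of_kd K

end Vale.Agent.P253Y.D
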