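import Vale.Agent.P253Y.D.Spec

/-!
# P253Y, block D: algebra at a point
-/

open scoped ComplexConjugate Matrix ComplexOrder MatrixOrder

noncomputable section

namespace Vale.Agent.P253Y.D

namespace AlgP

variable {H J : Mat}

theorem exists_sq (hH : H.PosSemidef) : ∃ B : Mat, H = Bᴴ * B :=
  CStarAlgebra.nonneg_iff_eq_star_mul_self.1 hH.nonneg

theorem tr_nonneg {P Q : Mat} (hP : P.PosSemidef) (hQ : Q.PosSemidef) : 0 ≤ (P * Q).trace := by
  obtain ⟨B, rfl⟩ := exists_sq hP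
  rw [Matrix.mul_assoc, Matrix.trace_mul_comm]
  exact (hQ.mul_mul_conjTranspose_same B).trace_nonneg

theorem det_conj (hH : H.PosDef) : conj H.det = H.det := by
  rw [starRingEnd_apply, ← Matrix.det_conjTranspose, hH.isHermitian.eq]

theorem inv_mul (hH : H.PosDef) : H⁻¹ * H = 1 :=
  Matrix.nonsing_inv_mul _ hH.det_pos.ne'.isUnit

theorem mul_inv (hH : H.PosDef) : H * H⁻¹ = 1 :=
  Matrix.mul_nonsing_inv _ hH.det_pos.ne'.isUnit

theorem tr_conj (hH : H.PosDef) (A : Mat) : conj (H⁻¹ * A).trace = (H⁻¹ * Aᴴ).trace := by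
  rw [starRingEnd_apply, ← Matrix.trace_conjTranspose, Matrix.conjTranspose_mul,
    hH.inv.isHermitian.eq, Matrix.trace_mul_comm]

theorem q11_eq (H A B : Mat) : q11 H A B = H.det * (H⁻¹ * (A * H⁻¹ * Bᴴ)).trace := by
  simp only [q11, Matrix.mul_assoc]

theorem nonneg (A : Mat) (hH : H.PosDef) : 0 ≤ q11 H A A := by
  rw [q11_eq]
  exact mul_nonneg hH.det_pos.le (tr_nonneg hH.inv.posSemidef
    (hH.inv.posSemidef.mul_mul_conjTranspose_same A))

theorem pos {A : Mat} (hH : H.PosDef) (hA : A ≠ 0) : 0 < q11 H A A := by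
  refine (nonneg A hH).lt_of_ne' fun h => hA ?_
  have h1 := (mul_eq_zero.1 h).resolve_left hH.det_pos.ne'
  obtain ⟨B, hB⟩ := exists_sq hH.inv.posSemidef
  have h2 : B * A * Bᴴ = 0 := by
    rw [← Matrix.trace_mul_conjTranspose_self_eq_zero_iff, ← h1, hB]
    simp only [Matrix.conjTranspose_mul, Matrix.conjTranspose_conjTranspose, Matrix.mul_assoc]
    rw [Matrix.trace_mul_comm Bᴴ]
    simp only [Matrix.mul_assoc]
  have h3 : H * (H⁻¹ * A * H⁻¹) * H = A := by
    rw [← Matrix.mul_assoc, ← Matrix.mul_assoc, mul_inv hH, Matrix.one_mul, Matrix.mul_assoc,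
      inv_mul hH, Matrix.mul_one]
  have h4 : H⁻¹ * A * H⁻¹ = Bᴴ * (B * A * Bᴴ) * B := by
    rw [hB]; simp only [Matrix.mul_assoc]
  rw [← h3, h4, h2]
  simp

theorem symm (A B : Mat) (hH : H.PosDef) : q11 H B A = conj (q11 H A B) := by
  rw [q11_eq, q11_eq, map_mul, det_conj hH, tr_conj hH]
  simp only [Matrix.conjTranspose_mul, Matrix.conjTranspose_conjTranspose, Matrix.mul_assoc,
    hH.inv.isHermitian.eq]

theorem q21_eq (H : Mat) (t s : Fin 2 → ℂ) : q21 H t s = t ⬝ᵥ (H⁻¹ *ᵥ star s) := by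
  simp only [q21, dotProduct, Matrix.mulVec, Fin.sum_univ_two, Pi.star_apply, starRingEnd_apply]
  ring

theorem two (N A C : Mat) : (N * A).trace * (N * C).trace - (N * A * N * C).trace =
    N.det * (A 0 0 * C 1 1 + A 1 1 * C 0 0 - A 0 1 * C 1 0 - A 1 0 * C 0 1) := by
  simp only [Matrix.trace_fin_two, Matrix.mul_apply, Fin.sum_univ_two, Matrix.det_fin_two]
  ring

theorem wq_eq (A B : Mat) (hH : H.PosDef) :
    wq A B = H.det * ((H⁻¹ * A).trace * conj (H⁻¹ * B).trace) - q11 H A B := by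
  rw [tr_conj hH, q11, ← mul_sub, two, ← mul_assoc, ← Matrix.det_mul, mul_inv hH, Matrix.det_one,
    one_mul]
  rfl

theorem prim_tr (A : Mat) (hH : H.PosDef) : (H⁻¹ * prim H A).trace = 0 := by
  rw [prim, Matrix.mul_sub, Matrix.mul_smul, inv_mul hH, Matrix.trace_sub, Matrix.trace_smul,
    Matrix.trace_one]
  simp

theorem q_prim {A : Mat} (B : Mat) (hH : H.PosDef) (hA : (H⁻¹ * A).trace = 0) :
    q11 H A (prim H B) = q11 H A B := by
  rw [q11, q11, prim, Matrix.conjTranspose_sub, Matrix.conjTranspose_smul, hH.isHermitian.eq,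
    Matrix.mul_sub, Matrix.mul_smul, Matrix.mul_assoc _ H⁻¹ H, inv_mul hH, Matrix.mul_one,
    Matrix.trace_sub, Matrix.trace_smul, hA, smul_zero, sub_zero]

theorem wq_ge (A : Mat) (hH : H.PosDef) : -(q11 H (prim H A) (prim H A)).re ≤ (wq A A).re := by
  have h1 : q11 H (prim H A) A =
      q11 H A A - H.det * ((H⁻¹ * A).trace * conj (H⁻¹ * A).trace) / 2 := by
    rw [q11, q11, prim, Matrix.mul_sub, Matrix.mul_smul, inv_mul hH, Matrix.sub_mul,
      Matrix.sub_mul, Matrix.smul_mul, Matrix.smul_mul, Matrix.one_mul, Matrix.trace_sub,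
      Matrix.trace_smul, tr_conj hH, smul_eq_mul]
    ring
  have h2 : 0 ≤ H.det * ((H⁻¹ * A).trace * conj (H⁻¹ * A).trace) :=
    mul_nonneg hH.det_pos.le (mul_star_self_nonneg _)
  have h3 := (Complex.le_def.1 h2).1
  rw [q_prim A hH (prim_tr A hH), h1, wq_eq A A hH]
  generalize H.det * ((H⁻¹ * A).trace * conj (H⁻¹ * A).trace) = w at h3 ⊢
  simp only [Complex.sub_re, Complex.div_ofNat_re, Complex.zero_re] at h3 ⊢
  linarith

theorem cjm_eq (A : Mat) : cjm A = -Aᴴ := rfl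

theorem adj_eq (hH : H.PosDef) : H.adjugate = H.det • H⁻¹ := by
  rw [Matrix.inv_def, smul_smul, Ring.inverse_eq_inv', mul_inv_cancel₀ hH.det_pos.ne', one_smul]

theorem adj_psd {S : Mat} (hS : S.PosSemidef) : S.adjugate.PosSemidef := by
  have h : S.adjugate = !![(0 : ℂ), 1; -1, 0] * Sᵀ * !![(0 : ℂ), 1; -1, 0]ᴴ := by
    ext i j
    fin_cases i <;> fin_cases j <;>
      simp [Matrix.adjugate_fin_two, Matrix.mul_apply, Fin.sum_univ_two, Matrix.vecMul, dotProduct]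
  rw [h]
  exact hS.transpose.mul_mul_conjTranspose_same _

theorem wf_le (A : Mat) (μ : Fin 2 → ℂ) (ε : ℝ) (hH : H.PosDef)
    (h : ((ε : ℂ) • H - Matrix.of fun j k => μ j * conj (μ k)).PosSemidef) :
    (q21 H (wf μ A) (wf μ A)).re ≤ ε * (q11 H A A).re := by
  have h1 := tr_nonneg (adj_psd h) (hH.inv.posSemidef.mul_mul_conjTranspose_same A)
  have h2 : ((ε : ℂ) • H - Matrix.of fun j k => μ j * conj (μ k)).adjugate =
      (ε : ℂ) • H.adjugate - (Matrix.of fun j k => μ j * conj (μ k)).adjugate := by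
    ext i j
    fin_cases i <;> fin_cases j <;> simp [Matrix.adjugate_fin_two] <;> ring
  have h3 : ((Matrix.of fun j k => μ j * conj (μ k)).adjugate * (A * H⁻¹ * Aᴴ)).trace =
      q21 H (wf μ A) (wf μ A) := by
    simp [Matrix.adjugate_fin_two, Matrix.trace_fin_two, Matrix.mul_apply, Fin.sum_univ_two, q21,
      wf, Matrix.vecMul, dotProduct]
    ring
  rw [h2, adj_eq hH, Matrix.sub_mul, Matrix.trace_sub, h3, Matrix.smul_mul, Matrix.smul_mul,
    Matrix.trace_smul, Matrix.trace_smul, smul_eq_mul, smul_eq_mul, ← q11_eq] at h1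
  have h4 := (Complex.le_def.1 h1).1
  simp only [Complex.sub_re, Complex.re_ofReal_mul, Complex.zero_re] at h4
  linarith

theorem pb_ct (J A : Mat) : (pb J A)ᴴ = pb J Aᴴ := by
  rw [pb, pb, Matrix.conjTranspose_mul, Matrix.conjTranspose_mul, Matrix.mul_assoc]
  congr 1
  ext i j
  simp

theorem det_bar (J : Mat) : (J.map conj).det = conj J.det := ((starRingEnd ℂ).map_det J).symm

theorem pb_det (J H : Mat) : (pb J H).det = J.det * conj J.det * H.det := by
  rw [pb, Matrix.det_mul, Matrix.det_mul, det_bar, Matrix.det_transpose]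
  ring

theorem pb_inv (J H : Mat) : (pb J H)⁻¹ = (J.map conj)⁻¹ * (H⁻¹ * Jᵀ⁻¹) := by
  rw [pb, Matrix.mul_inv_rev, Matrix.mul_inv_rev]

theorem ubar (hJ : J.det ≠ 0) : IsUnit (J.map conj).det := by
  rw [det_bar]; exact ((map_ne_zero _).2 hJ).isUnit

theorem utr (hJ : J.det ≠ 0) : IsUnit Jᵀ.det := by
  rw [Matrix.det_transpose]; exact hJ.isUnit

theorem inv_pb (hJ : J.det ≠ 0) (H A : Mat) :
    (pb J H)⁻¹ * pb J A = (J.map conj)⁻¹ * (H⁻¹ * A) * J.map conj := by
  rw [pb_inv, pb]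
  simp only [Matrix.mul_assoc, Matrix.nonsing_inv_mul_cancel_left _ _ (utr hJ)]

theorem pb_mul_inv (hJ : J.det ≠ 0) (H A : Mat) :
    pb J A * (pb J H)⁻¹ = Jᵀ * (A * H⁻¹) * Jᵀ⁻¹ := by
  rw [pb_inv, pb]
  simp only [Matrix.mul_assoc, Matrix.mul_nonsing_inv_cancel_left _ _ (ubar hJ)]

theorem tr_bar (hJ : J.det ≠ 0) (A : Mat) : ((J.map conj)⁻¹ * A * J.map conj).trace = A.trace := by
  rw [Matrix.trace_mul_comm, ← Matrix.mul_assoc, Matrix.mul_nonsing_inv _ (ubar hJ), Matrix.one_mul]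

theorem cov11 (H A B : Mat) (hJ : J.det ≠ 0) :
    q11 (pb J H) (pb J A) (pb J B) = J.det * conj J.det * q11 H A B := by
  rw [q11, q11, pb_det, pb_ct, Matrix.mul_assoc, inv_pb hJ, inv_pb hJ, mul_assoc _ H.det,
    ← tr_bar hJ (H⁻¹ * A * H⁻¹ * Bᴴ)]
  simp only [Matrix.mul_assoc, Matrix.mul_nonsing_inv_cancel_left _ _ (ubar hJ)]

theorem vec_eq (J : Mat) (t : Fin 2 → ℂ) :
    (fun i => J.det * ∑ p, conj (J p i) * t p) = J.det • (t ᵥ* J.map conj) := by
  funext i
  simp only [Matrix.vecMul, dotProduct, Pi.smul_apply, smul_eq_mul, Matrix.map_apply, mul_comm]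

theorem cov21 (H : Mat) (t s : Fin 2 → ℂ) (hJ : J.det ≠ 0) :
    q21 (pb J H) (fun i => J.det * ∑ p, conj (J p i) * t p)
      (fun i => J.det * ∑ p, conj (J p i) * s p) = J.det * conj J.det * q21 H t s := by
  have h1 : (J.map conj)ᴴ = Jᵀ := by ext i j; simp
  rw [q21_eq, q21_eq, vec_eq, vec_eq, star_smul, Matrix.star_vecMul, h1, Matrix.mulVec_smul,
    smul_dotProduct, dotProduct_smul, ← Matrix.dotProduct_mulVec, Matrix.mulVec_mulVec,
    Matrix.mulVec_mulVec, pb_inv, Matrix.mul_nonsing_inv_cancel_left _ _ (ubar hJ),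
    Matrix.nonsing_inv_mul_cancel_right _ _ (utr hJ), smul_eq_mul, smul_eq_mul, mul_assoc]
  rfl

theorem yf_eq (H G : Mat) (t : Fin 2 → ℂ) : yf H G t = t ᵥ* (G * H⁻¹)ᴴ := rfl

theorem cov_yf (H A : Mat) (t : Fin 2 → ℂ) (hJ : J.det ≠ 0) :
    yf (pb J H) (pb J A) (fun i => J.det * ∑ p, conj (J p i) * t p) =
      fun i => J.det * ∑ p, conj (J p i) * yf H A t p := by
  have h1 : Jᵀᴴ = J.map conj := rfl
  rw [vec_eq, vec_eq, yf_eq, yf_eq, pb_mul_inv hJ, Matrix.smul_vecMul, Matrix.vecMul_vecMul,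
    Matrix.vecMul_vecMul, Matrix.conjTranspose_mul, Matrix.conjTranspose_mul Jᵀ,
    Matrix.conjTranspose_nonsing_inv, h1, Matrix.mul_nonsing_inv_cancel_left _ _ (ubar hJ)]

end AlgP

open AlgP in
theorem alg : ALG where
  nonneg _ A hH := nonneg A hH
  pos _ _ hH hA := pos hH hA
  symm _ A B hH := symm A B hH
  nonneg' H t hH := by
    have h := hH.inv.posSemidef.dotProduct_mulVec_nonneg (star t)
    rwa [star_star, ← q21_eq] at h
  pos' H t hH ht := by
    have h := hH.inv.dotProduct_mulVec_pos (star_ne_zero.2 ht)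
    rwa [star_star, ← q21_eq] at h
  symm' H t s hH := by
    have h : ∀ k l, conj (H⁻¹ k l) = H⁻¹ l k := fun k l => hH.inv.isHermitian.apply l k
    simp only [q21, Fin.sum_univ_two, map_add, map_mul, h, Complex.conj_conj]
    ring
  wq_eq _ A B hH := wq_eq A B hH
  prim_tr _ A hH := prim_tr A hH
  q_prim _ _ B hH hA := q_prim B hH hA
  wq_ge _ A hH := wq_ge A hH
  cj_tr H A hH := by rw [cjm_eq, tr_conj hH, Matrix.mul_neg, Matrix.trace_neg]
  q_cj H A _ := by
    rw [q11, q11, cjm_eq, Matrix.conjTranspose_neg, Matrix.conjTranspose_conjTranspose,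
      Matrix.mul_neg, Matrix.mul_neg, Matrix.neg_mul, Matrix.neg_mul, neg_neg, Matrix.mul_assoc,
      Matrix.trace_mul_comm, ← Matrix.mul_assoc]
  wf_le _ A μ ε hH h := wf_le A μ ε hH h
  cov11 _ H A B hJ := cov11 H A B hJ
  cov21 _ H t s hJ := cov21 H t s hJ
  cov_prim J H A hJ := by
    rw [prim, prim, inv_pb hJ, tr_bar hJ]
    simp only [pb, Matrix.mul_sub, Matrix.sub_mul, Matrix.mul_smul, Matrix.smul_mul]
  cov_ph J H A hJ := by
    rw [ph, ph, pb_mul_inv hJ, pb_ct, pb, pb]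
    simp only [Matrix.mul_assoc, Matrix.nonsing_inv_mul_cancel_left _ _ (utr hJ)]
  cov_yf _ H A t hJ := cov_yf H A t hJ

end Vale.Agent.P253Y.D
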