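import Vale.Agent.P253Y.D.Defs
import Vale.Agent.P267.H928.Int.FLLin
import Vale.Agent.P267.H469.Tr

/-!
# P253Y, block D: definitions and statements of the rows

A `(1,1)`-form is a matrix valued function `g` (`∑ g_{ij} dz_i ∧ dz̄_j`), a `(2,1)`-form is a vector valued
function `t` (`∑ t_j dz_0 ∧ dz_1 ∧ dz̄_j`, that is `Reg1 _ 1`), densities are coefficients of
`dz_0 ∧ dz_1 ∧ dz̄_0 ∧ dz̄_1` (that is `Reg2 _ 1`). See notes/P253Y_D.md.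
-/

open scoped Manifold ContDiff ComplexConjugate Matrix ComplexOrder Topology
open MeasureTheory Set Filter

noncomputable section

namespace Vale.Agent.P253Y.D

open Vale.Agent.P267 Vale.Agent.P267.FL
open Vale.Agent.P267.H469 (del11 cj11)

/-- two by two matrices -/
abbrev Mat : Type := Matrix (Fin 2) (Fin 2) ℂ

/-! ### algebra at a point -/

/-- the Hermitian product of `(1,1)`-forms, times the volume -/
def q11 (H A B : Mat) : ℂ := H.det * (H⁻¹ * A * H⁻¹ * Bᴴ).trace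

/-- the Hermitian product of `(2,1)`-forms, times the volume -/
def q21 (H : Mat) (t s : Fin 2 → ℂ) : ℂ := ∑ k, ∑ l, H⁻¹ k l * (t k * conj (s l))

/-- the primitive part -/
def prim (H A : Mat) : Mat := A - ((H⁻¹ * A).trace / 2) • H

/-- the conjugate form -/
def cjm (A : Mat) : Mat := Matrix.of fun i j => -conj (A j i)

/-- `A ∧ conj B` -/
def wq (A B : Mat) : ℂ :=
  A 0 0 * conj (B 1 1) + A 1 1 * conj (B 0 0) - A 0 1 * conj (B 0 1) - A 1 0 * conj (B 1 0)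

/-- `μ ∧ A` for a `(1,0)`-form `μ` -/
def wf (μ : Fin 2 → ℂ) (A : Mat) (j : Fin 2) : ℂ := μ 0 * A 1 j - μ 1 * A 0 j

/-- the `(2,1)`-form `∂θ_k ∧ conj v^k`, where `t = ∂θ`, `v = G H⁻¹` -/
def yf (H G : Mat) (t : Fin 2 → ℂ) (f : Fin 2) : ℂ := ∑ k, t k * conj ((G * H⁻¹) f k)

/-- the `(1,1)`-form `θ_k ∧ conj v^k` -/
def ph (H G : Mat) : Mat := G * H⁻¹ * Gᴴ

/-- the tensor `w^{ac} = ε^{ce} v_e^a` -/
def wv (H A : Mat) (a c : Fin 2) : ℂ := if c = 0 then (A * H⁻¹) 1 a else -(A * H⁻¹) 0 a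

/-- the pull-back -/
def pb (J A : Mat) : Mat := Jᵀ * A * J.map conj

/-! ### calculus in a chart -/

/-- `∂` of a `(1,1)`-form -/
def d11 (G : C2 → Mat) (z : C2) (j : Fin 2) : ℂ :=
  dz 0 (fun y => G y 1 j) z - dz 1 (fun y => G y 0 j) z

/-- `∂̄` of a `(2,1)`-form -/
def db1 (t : C2 → Fin 2 → ℂ) (z : C2) : ℂ := dzb 0 (fun y => t y 1) z - dzb 1 (fun y => t y 0) z

/-- the curvature tensor `R_{c d̄ a k̄}` -/
def cv (H : C2 → Mat) (z : C2) (c d a k : Fin 2) : ℂ :=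
  -dz c (dzb d fun y => H y a k) z +
    ∑ q, ∑ p, dz c (fun y => H y a q) z * (H z)⁻¹ q p * dzb d (fun y => H y p k) z

/-- the curvature term -/
def Rq (H : C2 → Mat) (z : C2) (A : Mat) : ℂ :=
  ∑ c, ∑ d, ∑ a, ∑ k, cv H z c d a k * (wv (H z) A a c * conj (wv (H z) A k d))

/-- a Kähler metric on `U` -/
structure KOn (U : Set C2) (H : C2 → Mat) : Prop where
  sm : ∀ i j, ContDiffOn ℝ ∞ (fun y => H y i j) U
  pos : ∀ z ∈ U, (H z).PosDef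
  cl : ∀ z ∈ U, ∀ j k l, dz l (fun y => H y j k) z = dz j (fun y => H y l k) z

/-- positive bisectional curvature on `U` -/
def BOn (U : Set C2) (H : C2 → Mat) : Prop :=
  ∀ z ∈ U, ∀ u v : C2, u ≠ 0 → v ≠ 0 →
    0 < (∑ c, ∑ d, ∑ a, ∑ k, cv H z c d a k * (u c * conj (u d) * (v a * conj (v k)))).re

/-- the square of the flat `L²` norm of a matrix valued function -/
def l11 (u : C2 → Mat) : ℝ := ∑ i, ∑ j, ∫ z, ‖u z i j‖ ^ 2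

/-- the square of the flat `L²` norm of a vector valued function -/
def l1 (u : C2 → Fin 2 → ℂ) : ℝ := ∑ j, ∫ z, ‖u z j‖ ^ 2

/-! ### global objects -/

variable {X : Type} [TopologicalSpace X] [ChartedSpace C2 X]

/-- test functions -/
def Tf (f : X → ℝ) : Prop := Reg0 ∞ 0 (fun x => (f x : ℂ)) ∧ HasCompactSupport f

/-- test `(1,1)`-forms -/
def T11 (g : X → Mat) : Prop := Reg11 ∞ g ∧ HasCompactSupport g

/-- test `(0,1)`-forms (`κ = 0`) and test `(2,1)`-forms (`κ = 1`) -/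
def T1 (κ : ℤ) (t : X → Fin 2 → ℂ) : Prop := Reg1 ∞ κ t ∧ HasCompactSupport t

/-- primitive forms -/
def Pr (h g : X → Mat) : Prop := ∀ x, ((h x)⁻¹ * g x).trace = 0

/-- the `L²` product of `(1,1)`-forms -/
def ip11 (h g g' : X → Mat) : ℂ := intX fun x => q11 (h x) (g x) (g' x)

/-- the square of the `L²` norm of a `(1,1)`-form -/
def n11 (h g : X → Mat) : ℝ := (ip11 h g g).re

/-- the square of the `L²` norm of a `(2,1)`-form -/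
def n21 (h : X → Mat) (t : X → Fin 2 → ℂ) : ℝ := (intX fun x => q21 (h x) (t x) (t x)).re

/-- `f g` -/
def mf (f : X → ℝ) (g : X → Mat) : X → Mat := fun x => (f x : ℂ) • g x

/-- `∂f ∧ g` -/
def wd (f : X → ℝ) (g : X → Mat) : X → Fin 2 → ℂ :=
  fun x => wf (del0 (fun y => (f y : ℂ)) x) (g x)

/-- the primitive part -/
def pm (h g : X → Mat) : X → Mat := fun x => prim (h x) (g x)

/-- `i∂f ∧ ∂̄f ≤ ε h` -/
def Gr (h : X → Mat) (f : X → ℝ) (ε : ℝ) : Prop :=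
  ∀ x, ((ε : ℂ) • h x - Matrix.of fun j k =>
    del0 (fun y => (f y : ℂ)) x j * conj (del0 (fun y => (f y : ℂ)) x k)).PosSemidef

/-- a complete Kähler metric with positive bisectional curvature -/
structure KD (h : X → Mat) : Prop where
  herm : IsHerm h
  kon : ∀ e ∈ atlas C2 X, KOn e.target (loc11 e h)
  bon : ∀ e ∈ atlas C2 X, BOn e.target (loc11 e h)
  cut : ∀ K, IsCompact K → ∀ ε : ℝ, 0 < ε → ∃ χ, Tf χ ∧ (∀ x ∈ K, χ x = 1) ∧ Gr h χ ε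

/-- `∂θ_k → 0` weakly -/
def Wk (θ : ℕ → X → Mat) : Prop :=
  ∀ b, T1 0 b → Tendsto (fun k => intX fun x => b x 0 * del11 (θ k) x 1 - b x 1 * del11 (θ k) x 0)
    atTop (𝓝 0)

/-- a Cauchy sequence of primitive test forms with `dθ_k → 0` weakly -/
structure Sq (h : X → Mat) (θ : ℕ → X → Mat) : Prop where
  test : ∀ k, T11 (θ k)
  pr : ∀ k, Pr h (θ k)
  cau : ∀ ε : ℝ, 0 < ε → ∃ N, ∀ k, N ≤ k → ∀ l, N ≤ l → n11 h (θ k - θ l) ≤ ε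
  wk : Wk θ
  wkc : Wk fun k => cj11 (θ k)

/-! ### the rows -/

/-- **ALG**: algebra at a point -/
structure ALG : Prop where
  nonneg : ∀ H A : Mat, H.PosDef → 0 ≤ q11 H A A
  pos : ∀ H A : Mat, H.PosDef → A ≠ 0 → 0 < q11 H A A
  symm : ∀ H A B : Mat, H.PosDef → q11 H B A = conj (q11 H A B)
  nonneg' : ∀ (H : Mat) (t : Fin 2 → ℂ), H.PosDef → 0 ≤ q21 H t t
  pos' : ∀ (H : Mat) (t : Fin 2 → ℂ), H.PosDef → t ≠ 0 → 0 < q21 H t t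
  symm' : ∀ (H : Mat) (t s : Fin 2 → ℂ), H.PosDef → q21 H s t = conj (q21 H t s)
  wq_eq : ∀ H A B : Mat, H.PosDef →
    wq A B = H.det * ((H⁻¹ * A).trace * conj (H⁻¹ * B).trace) - q11 H A B
  prim_tr : ∀ H A : Mat, H.PosDef → (H⁻¹ * prim H A).trace = 0
  q_prim : ∀ H A B : Mat, H.PosDef → (H⁻¹ * A).trace = 0 → q11 H A (prim H B) = q11 H A B
  /-- `A ∧ conj A ≥ - |A_0|² vol` -/
  wq_ge : ∀ H A : Mat, H.PosDef → -(q11 H (prim H A) (prim H A)).re ≤ (wq A A).re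
  cj_tr : ∀ H A : Mat, H.PosDef → (H⁻¹ * cjm A).trace = -conj (H⁻¹ * A).trace
  q_cj : ∀ H A : Mat, H.PosDef → q11 H (cjm A) (cjm A) = q11 H A A
  wf_le : ∀ (H A : Mat) (μ : Fin 2 → ℂ) (ε : ℝ), H.PosDef →
    ((ε : ℂ) • H - Matrix.of fun j k => μ j * conj (μ k)).PosSemidef →
    (q21 H (wf μ A) (wf μ A)).re ≤ ε * (q11 H A A).re
  cov11 : ∀ J H A B : Mat, J.det ≠ 0 →
    q11 (pb J H) (pb J A) (pb J B) = J.det * conj J.det * q11 H A B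
  cov21 : ∀ (J H : Mat) (t s : Fin 2 → ℂ), J.det ≠ 0 →
    q21 (pb J H) (fun i => J.det * ∑ p, conj (J p i) * t p)
      (fun i => J.det * ∑ p, conj (J p i) * s p) = J.det * conj J.det * q21 H t s
  cov_prim : ∀ J H A : Mat, J.det ≠ 0 → prim (pb J H) (pb J A) = pb J (prim H A)
  cov_ph : ∀ J H A : Mat, J.det ≠ 0 → ph (pb J H) (pb J A) = pb J (ph H A)
  cov_yf : ∀ (J H A : Mat) (t : Fin 2 → ℂ), J.det ≠ 0 →
    yf (pb J H) (pb J A) (fun i => J.det * ∑ p, conj (J p i) * t p) =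
      fun i => J.det * ∑ p, conj (J p i) * yf H A t p

/-- **IP**: test forms and `L²` products -/
structure IP (h : X → Mat) : Prop where
  loc11q : ∀ g g' : X → Mat, ∀ e ∈ atlas C2 X, ∀ z ∈ e.target,
    loc2 1 e (fun x => q11 (h x) (g x) (g' x)) z = q11 (loc11 e h z) (loc11 e g z) (loc11 e g' z)
  loc21q : ∀ t s : X → Fin 2 → ℂ, ∀ e ∈ atlas C2 X, ∀ z ∈ e.target,
    loc2 1 e (fun x => q21 (h x) (t x) (s x)) z = q21 (loc11 e h z) (loc1 1 e t z) (loc1 1 e s z)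
  posDef : ∀ e ∈ atlas C2 X, ∀ z ∈ e.target, (loc11 e h z).PosDef
  reg11 : ∀ g g' : X → Mat, Reg11 ∞ g → Reg11 ∞ g' → Reg2 ∞ 1 fun x => q11 (h x) (g x) (g' x)
  reg21 : ∀ t s : X → Fin 2 → ℂ, Reg1 ∞ 1 t → Reg1 ∞ 1 s →
    Reg2 ∞ 1 fun x => q21 (h x) (t x) (s x)
  mono : ∀ a b : X → ℂ, Reg2 ∞ 1 a → Reg2 ∞ 1 b → HasCompactSupport a → HasCompactSupport b →
    (∀ x, (a x).re ≤ (b x).re) → (intX a).re ≤ (intX b).re
  t_zero : T11 (0 : X → Mat)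
  t_add : ∀ g g' : X → Mat, T11 g → T11 g' → T11 (g + g')
  t_sub : ∀ g g' : X → Mat, T11 g → T11 g' → T11 (g - g')
  t_smul : ∀ (c : ℂ) (g : X → Mat), T11 g → T11 (c • g)
  t_mf : ∀ (f : X → ℝ) (g : X → Mat), Tf f → T11 g → T11 (mf f g)
  t_cj : ∀ g : X → Mat, T11 g → T11 (cj11 g)
  t_pm : ∀ g : X → Mat, T11 g → T11 (pm h g)
  t_del : ∀ g : X → Mat, T11 g → T1 1 (del11 g)
  t_wd : ∀ (f : X → ℝ) (g : X → Mat), Tf f → T11 g → T1 1 (wd f g)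
  s_add : ∀ t s : X → Fin 2 → ℂ, T1 1 t → T1 1 s → T1 1 (t + s)
  s_sub : ∀ t s : X → Fin 2 → ℂ, T1 1 t → T1 1 s → T1 1 (t - s)
  del_add : ∀ g g' : X → Mat, T11 g → T11 g' → del11 (g + g') = del11 g + del11 g'
  del_mf : ∀ (f : X → ℝ) (g : X → Mat), Tf f → T11 g →
    del11 (mf f g) = wd f g + fun x => (f x : ℂ) • del11 g x
  wd_add : ∀ (f f' : X → ℝ) (g : X → Mat), Tf f → Tf f' → wd (f + f') g = wd f g + wd f' g
  ip_add : ∀ a b c : X → Mat, T11 a → T11 b → T11 c → ip11 h (a + b) c = ip11 h a c + ip11 h b c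
  ip_smul : ∀ (c : ℂ) (a b : X → Mat), T11 a → T11 b → ip11 h (c • a) b = c * ip11 h a b
  ip_symm : ∀ a b : X → Mat, T11 a → T11 b → ip11 h b a = conj (ip11 h a b)
  n_nonneg : ∀ a : X → Mat, T11 a → 0 ≤ n11 h a
  cs : ∀ a b : X → Mat, T11 a → T11 b → ‖ip11 h a b‖ ^ 2 ≤ n11 h a * n11 h b
  n_add : ∀ a b : X → Mat, T11 a → T11 b → n11 h (a + b) ≤ 2 * n11 h a + 2 * n11 h b
  n_neg : ∀ a : X → Mat, n11 h (-a) = n11 h a
  n_cj : ∀ a : X → Mat, n11 h (cj11 a) = n11 h a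
  n_mf : ∀ f : X → ℝ, Tf f → ∃ C : ℝ, 0 ≤ C ∧ ∀ a, T11 a → n11 h (mf f a) ≤ C * n11 h a
  m_nonneg : ∀ t : X → Fin 2 → ℂ, T1 1 t → 0 ≤ n21 h t
  m_add : ∀ t s : X → Fin 2 → ℂ, T1 1 t → T1 1 s → n21 h (t + s) ≤ 2 * n21 h t + 2 * n21 h s
  m_wd : ∀ (f : X → ℝ) (ε : ℝ) (a : X → Mat), Tf f → Gr h f ε → T11 a →
    n21 h (wd f a) ≤ ε * n11 h a
  gr : ∀ f : X → ℝ, Tf f → ∃ ε : ℝ, 0 ≤ ε ∧ Gr h f ε

/-- **BL**: the Bochner inequality in a chart -/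
def BL : Prop :=
  ∀ (U : Set C2) (H G : C2 → Mat), IsOpen U → KOn U H →
    (∀ i j, ContDiffOn ℝ ∞ (fun y => G y i j) U) → (∀ y ∈ U, ((H y)⁻¹ * G y).trace = 0) → ∀ z ∈ U,
    (Rq H z (G z)).re ≤ (q21 (H z) (d11 G z) (d11 G z)).re +
      (q21 (H z) (d11 (fun y => cjm (G y)) z) (d11 (fun y => cjm (G y)) z)).re -
      2 * (db1 (fun y => yf (H y) (G y) (d11 G y)) z).re +
      (db1 (d11 fun y => ph (H y) (G y)) z).re

/-- **POS**: the curvature term is positive on primitive forms -/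
def POS : Prop :=
  ∀ (U : Set C2) (H : C2 → Mat), IsOpen U → KOn U H → BOn U H → ∀ S, IsCompact S → S ⊆ U →
    ∃ C : ℝ, 0 < C ∧ ∀ z ∈ S, ∀ A : Mat, ((H z)⁻¹ * A).trace = 0 →
      (q11 (H z) A A).re ≤ C * (Rq H z A).re

/-- **APR**: the a priori inequality -/
def APR (h : X → Mat) : Prop :=
  ∀ f : X → ℝ, Tf f → ∃ C : ℝ, 0 ≤ C ∧ ∀ g, T11 g → Pr h g →
    n11 h (mf f g) ≤ C * (n21 h (del11 g) + n21 h (del11 (cj11 g)))

/-- **LC**: Friedrichs' lemma in a chart -/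
def LC : Prop :=
  ∀ (U : Set C2) (H : C2 → Mat), IsOpen U → (∀ i j, ContDiffOn ℝ ∞ (fun y => H y i j) U) →
    (∀ z ∈ U, (H z).PosDef) → ∀ S, IsCompact S → S ⊆ U →
    ∃ S', IsCompact S' ∧ S ⊆ S' ∧ S' ⊆ U ∧
    ∀ (u : ℕ → C2 → Mat) (a a' : ℕ → C2 → Fin 2 → ℂ),
    (∀ k i j, ContDiff ℝ ∞ fun z => u k z i j) → (∀ k j, ContDiff ℝ ∞ fun z => a k z j) →
    (∀ k j, ContDiff ℝ ∞ fun z => a' k z j) →
    (∀ k, ∀ z ∉ S, u k z = 0 ∧ a k z = 0 ∧ a' k z = 0) →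
    (∀ k, ∀ z ∈ U, ((H z)⁻¹ * u k z).trace = 0) →
    (∀ ε : ℝ, 0 < ε → ∃ N, ∀ k, N ≤ k → ∀ l, N ≤ l →
      l11 (u k - u l) ≤ ε ∧ l1 (a k - a l) ≤ ε ∧ l1 (a' k - a' l) ≤ ε) →
    (∀ ψ : C2 → ℝ, ContDiff ℝ ∞ ψ → HasCompactSupport ψ → ∀ j,
      Tendsto (fun k => ∫ z, (ψ z : ℂ) * (d11 (u k) z j - a k z j)) atTop (𝓝 0) ∧
      Tendsto (fun k => ∫ z, (ψ z : ℂ) * (d11 (fun y => cjm (u k y)) z j - a' k z j))
        atTop (𝓝 0)) →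
    ∀ ε : ℝ, 0 < ε → ∀ᶠ k in atTop, ∃ y : C2 → Mat, (∀ i j, ContDiff ℝ ∞ fun z => y z i j) ∧
      (∀ z ∉ S', y z = 0) ∧ (∀ z ∈ U, ((H z)⁻¹ * y z).trace = 0) ∧ l11 (y - u k) ≤ ε ∧
      l1 (d11 y - a k) ≤ ε ∧ l1 (d11 (fun z => cjm (y z)) - a' k) ≤ ε

/-- **CMP**: forms with support in a chart -/
structure CMP (h : X → Mat) : Prop where
  ext11 : ∀ e ∈ atlas C2 X, ∀ S, IsCompact S → S ⊆ e.target → ∀ u : C2 → Mat,
    (∀ i j, ContDiff ℝ ∞ fun z => u z i j) → (∀ z ∉ S, u z = 0) →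
    ∃ g, T11 g ∧ (∀ x ∉ e.symm '' S, g x = 0) ∧ ∀ z ∈ e.target, loc11 e g z = u z
  ext1 : ∀ e ∈ atlas C2 X, ∀ S, IsCompact S → S ⊆ e.target → ∀ u : C2 → Fin 2 → ℂ,
    (∀ j, ContDiff ℝ ∞ fun z => u z j) → (∀ z ∉ S, u z = 0) →
    ∃ b, T1 0 b ∧ (∀ x ∉ e.symm '' S, b x = 0) ∧ ∀ z ∈ e.target, loc1 0 e b z = u z
  res11 : ∀ e ∈ atlas C2 X, ∀ S, IsCompact S → S ⊆ e.target → ∀ g : X → Mat, Reg11 ∞ g →
    (∀ x ∉ e.symm '' S, g x = 0) → (∀ z ∉ S, e.target.indicator (loc11 e g) z = 0) ∧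
      ∀ i j, ContDiff ℝ ∞ fun z => e.target.indicator (loc11 e g) z i j
  res1 : ∀ e ∈ atlas C2 X, ∀ S, IsCompact S → S ⊆ e.target → ∀ t : X → Fin 2 → ℂ, Reg1 ∞ 1 t →
    (∀ x ∉ e.symm '' S, t x = 0) → (∀ z ∉ S, e.target.indicator (loc1 1 e t) z = 0) ∧
      ∀ j, ContDiff ℝ ∞ fun z => e.target.indicator (loc1 1 e t) z j
  cmp : ∀ e ∈ atlas C2 X, ∀ S, IsCompact S → S ⊆ e.target → ∃ C : ℝ, 0 ≤ C ∧
    (∀ g : X → Mat, Reg11 ∞ g → (∀ x ∉ e.symm '' S, g x = 0) →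
      n11 h g ≤ C * l11 (e.target.indicator (loc11 e g)) ∧
      l11 (e.target.indicator (loc11 e g)) ≤ C * n11 h g) ∧
    ∀ t : X → Fin 2 → ℂ, Reg1 ∞ 1 t → (∀ x ∉ e.symm '' S, t x = 0) →
      n21 h t ≤ C * l1 (e.target.indicator (loc1 1 e t)) ∧
      l1 (e.target.indicator (loc1 1 e t)) ≤ C * n21 h t

/-- `f θ_k` is approximated in the graph norm -/
def Apx (h : X → Mat) (θ : ℕ → X → Mat) (f : X → ℝ) : Prop :=
  ∀ ε : ℝ, 0 < ε → ∀ᶠ k in atTop, ∃ y, T11 y ∧ Pr h y ∧ n11 h (y - mf f (θ k)) ≤ ε ∧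
    n21 h (del11 y - wd f (θ k)) ≤ ε ∧ n21 h (del11 (cj11 y) - wd f (cj11 (θ k))) ≤ ε

/-- **LOC**: approximation, support in a chart -/
def LOC (h : X → Mat) : Prop :=
  ∀ θ, Sq h θ → ∀ e ∈ atlas C2 X, ∀ f, Tf f → tsupport f ⊆ e.source → Apx h θ f

/-- **GLO**: the sequence tends to zero on compact sets -/
def GLO (h : X → Mat) : Prop :=
  ∀ θ, Sq h θ → ∀ f, Tf f → Tendsto (fun k => n11 h (mf f (θ k))) atTop (𝓝 0)

/-- **MIN**: minimizing sequences in a space with a nonnegative Hermitian form -/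
def MIN : Prop :=
  ∀ (W : Type) [AddCommGroup W] [Module ℂ W] (ip : W → W → ℂ),
    (∀ a b c, ip (a + b) c = ip a c + ip b c) → (∀ (c : ℂ) a b, ip (c • a) b = c * ip a b) →
    (∀ a b, ip b a = conj (ip a b)) → (∀ a, 0 ≤ (ip a a).re) → ∀ (R : Submodule ℂ W) (w : W),
    ∃ r : ℕ → W, (∀ k, r k ∈ R) ∧
      (∀ ε : ℝ, 0 < ε → ∃ N, ∀ k, N ≤ k → ∀ l, N ≤ l → (ip (r k - r l) (r k - r l)).re ≤ ε) ∧
      (∀ s ∈ R, Tendsto (fun k => ip (w - r k) s) atTop (𝓝 0)) ∧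
      Tendsto (fun k => ip (w - r k) (r k)) atTop (𝓝 0)

variable (X) in
/-- **FIN**: the theorem on `X` -/
def FIN : Prop := ∀ η ∈ H332.HR X, 0 ≤ (intX (η.wedge η)).re

end Vale.Agent.P253Y.D
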