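import Vale.Agent.P253Y.D.Spec
import Vale.Agent.P253Z.Spec

/-!
# P253Y, block D: the manifold with a new choice of preferred charts
-/

open scoped Manifold ContDiff Bundle
open Bundle Set

noncomputable section

namespace Vale.Agent.P253Y.D

open Vale.Agent.P267 Vale.Agent.P267.FL

/-- a choice of a holomorphic chart at every point -/
structure Atl (M : Type) [MetricSpace M] [ChartedSpace C2 M] where
  ch : M → Ch M
  hc : ∀ x, P253Z.Hc (n := 2) (ch x)
  mem : ∀ x, x ∈ (ch x).source

variable {M : Type} [MetricSpace M] [ChartedSpace C2 M]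

/-- `M` with the atlas of all holomorphic charts and the preferred charts `A.ch` -/
def Atl.T (_ : Atl M) : Type := M

instance (A : Atl M) : TopologicalSpace A.T := inferInstanceAs (TopologicalSpace M)

instance (A : Atl M) : T2Space A.T := inferInstanceAs (T2Space M)

instance [SigmaCompactSpace M] (A : Atl M) : SigmaCompactSpace A.T :=
  inferInstanceAs (SigmaCompactSpace M)

instance (A : Atl M) : ChartedSpace C2 A.T where
  atlas := {e | P253Z.Hc (n := 2) (M := M) e}
  chartAt := A.ch
  mem_chart_source := A.mem
  chart_mem_atlas := A.hc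

variable (M) in
/-- **MAN** -/
def MAN : Prop := ∀ A : Atl M, IsManifold 𝓘(ℂ, C2) ω A.T

variable (M) in
/-- **KDM** -/
def KDM : Prop := ∀ A : Atl M, ∃ h : A.T → Mat, KD h

variable (M) in
/-- **TRF**: transport of forms -/
def TRF : Prop := (∀ A : Atl M, FIN A.T) → BOC M

end Vale.Agent.P253Y.D
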